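import Vale.Agent.P193.W4.Common.Scanning

/-!
P193, module W4.A (common layer): the tile system on `ℤ^5` (the plane on axes `0`, `1`, the
counters on axes `2`, `3`, `4`).

Windows are anchored at their upper tile: a tile of a window which is one step back from the upper
one across a face of the parents lies in the parent behind, and sees the bits of that parent's
back neighbours only as far as the window knows them; the others are not shown there.  The data of
the fold are those of the own parent and are shown in all of it.  Scanning, equality and lookup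
columns run only where all three digits are middle ones.
-/

noncomputable section

namespace Vale.Agent.P193.W4.Common

variable {C : Cfg}

/-! ### Positions -/

/-- The axis of a counter. -/
def zAx (i : Fin 3) : Fin 5 := ⟨i.val + 2, by omega⟩

/-- All three digits are middle ones. -/
def MidDigits (Z : Digits C) : Prop := ∀ i, 0 < (Z i).val ∧ (Z i).val + 1 < base C.k

instance (Z : Digits C) : Decidable (MidDigits Z) := by unfold MidDigits; infer_instance

/-- The last wire row in use. -/
def lastK (C : Cfg) (L : ℕ) : ℕ := A C + T C * L + (T C - 1)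

/-- Greatest `k` with wire row `k` at height at most `y` (for `M ≤ y`). -/
def rowIdx (L y : ℕ) : ℕ := (y - M L) / M L ^ 2

def IsWire (L y : ℕ) : Prop := lo L y = 0 ∧ mid L y = 1

instance (L y : ℕ) : Decidable (IsWire L y) := by unfold IsWire; infer_instance

/-- Number of wire rows strictly below `y`. -/
def rowsBelow (L y : ℕ) : ℕ :=
  if y < M L then 0 else if IsWire L y then rowIdx L y else rowIdx L y + 1

/-- A column of the band with the given middle part. -/
def IsCol (L x m : ℕ) : Prop := hi L x = 0 ∧ mid L x = m

instance (L x m : ℕ) : Decidable (IsCol L x m) := by unfold IsCol; infer_instance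

/-- Table columns: the low parts below `2 ^ B` with last two bits `10` and top table bit `B - 1`
(a constant row) set. -/
def IsZone (C : Cfg) (L x m : ℕ) : Prop :=
  IsCol L x m ∧ lo L x % 4 = 2 ∧ 2 ^ (B C - 1) ≤ lo L x ∧ lo L x < 2 ^ B C

instance (L x m : ℕ) : Decidable (IsZone C L x m) := by unfold IsZone; infer_instance

/-- A wire row in use. -/
def IsLive (C : Cfg) (L y : ℕ) : Prop := IsWire L y ∧ hi L y ≤ lastK C L

instance (L y : ℕ) : Decidable (IsLive C L y) := by unfold IsLive; infer_instance

/-- The columns of the bundle: the bit `k` is on the column with low part `2*k`. -/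
def IsBundle (L x : ℕ) : Prop := IsCol L x 1 ∧ lo L x % 2 = 0

instance (L x : ℕ) : Decidable (IsBundle L x) := by unfold IsBundle; infer_instance

/-- The height of the middle row. -/
def halfY (L : ℕ) : ℕ := M L / 2 * M L ^ 2 + 2 * M L

/-- The last column showing the bits of the parent on the left. -/
def cutX (L : ℕ) : ℕ := 7 * M L

/-- A back neighbour shown at these digits: at the first digit only those back along the axis, at
the last one only the others. -/
def ShownZ (Z : Digits C) (g : Guest) : Prop :=
  ∀ i, ((Z i).val = 0 → g (zAx i) = true) ∧ ((Z i).val + 1 = base C.k → g (zAx i) = false)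

instance (Z : Digits C) (g : Guest) : Decidable (ShownZ Z g) := by unfold ShownZ; infer_instance

/-- A back neighbour shown on the wire rows at these positions. -/
def ShownH (L X : ℕ) (Z : Digits C) (g : Guest) : Prop :=
  (X = 0 → g 0 = true) ∧ (cutX L < X → g 0 = false) ∧ ShownZ Z g

instance (L X : ℕ) (Z : Digits C) (g : Guest) : Decidable (ShownH L X Z g) := by
  unfold ShownH; infer_instance

/-- A back neighbour shown on the bundle at these positions. -/
def ShownV (L Y : ℕ) (Z : Digits C) (g : Guest) : Prop :=
  (Y = 0 → g 1 = true) ∧ (halfY L < Y → g 1 = false) ∧ ShownZ Z g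

instance (L Y : ℕ) (Z : Digits C) (g : Guest) : Decidable (ShownV L Y Z g) := by
  unfold ShownV; infer_instance

/-! ### The child at a position -/

/-- The colour of the bit `k` on a table column. -/
def zoneMatch (L x k : ℕ) (b : ℕ → Bits) : Bool :=
  decide (∀ g, b k g = (lo L x).testBit (32 * k + (gidx g).val + 2))

/-- The row in which the bit `i` of the low `X` part of the parent is displayed. -/
def xlRow (C : Cfg) (i : ℕ) : ℕ := A C + T C * i

/-- Lookup state before processing row `n`. -/
def lookAt (C : Cfg) (L x n : ℕ) (b : ℕ → Bits) : Look C where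
  copy := copyUpTo C b n
  vv := decide (0 < n) && b 0 self
  eq := decide (∀ i < B C, xlRow C i < n → b (xlRow C i) self = (lo L x).testBit i)

/-- The child carries a word. -/
def childOn (L : ℕ) (b : ℕ → Bits) (Z : Digits C) : Bool :=
  match sym (Z 2) with
  | some .reset => emitAt C L
  | some .pass => (pfOf C b).wOn
  | _ => false

/-- The word of the child: that shown by its row after a reset, the lower part of that of the
parent where it is passed on. -/
def childWord (L : ℕ) (b : ℕ → Bits) (Z : Digits C) (r : Track C) : ℕ :=
  if childOn L b Z then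
    match sym (Z 2) with
    | some .reset => kWord C L r
    | _ => wOf C L b r
  else 0

/-- The child at `(X, Y, Z)` of a parent with bits `b`, given the table column value `τ`. -/
def child (L : ℕ) (τ : ℕ → Bool) (b : ℕ → Bits) (X Y : ℕ) (Z : Digits C) : St C :=
  let x := X % H L
  let y := Y % H L
  let k := rowIdx L y
  { x := x
    y := y
    u := if IsCol L x 3 ∧ lo L x = 0 ∧ M L ≤ y ∧ A C ≤ k then 2 ^ ((k - A C) / T C) % M L else 0
    w := childWord L b Z
    z := Z
    fin :=
      { h := fun g => if IsLive C L y ∧ ShownH L x Z g then b (hi L y) g else false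
        vb := fun g =>
          if IsBundle L x ∧ lo L x / 2 ≤ lastK C L ∧ ShownV L y Z g then b (lo L x / 2) g else false
        carry :=
          if IsCol L x 3 ∧ lo L x = 0 ∧ M L ≤ y ∧ AF C ≤ k ∧ k ≤ lastK C L ∧ MidDigits Z
          then some (scan C L b k) else none
        eq :=
          if IsZone C L x 4 ∧ M L ≤ y ∧ rowsBelow L y ≤ A C - 1 ∧ MidDigits Z
          then some (decide (∀ k' < rowsBelow L y, zoneMatch L x k' b = true)) else none
        v := if (IsZone C L x 4 ∧ A C - 1 ≤ hi L y) ∨ IsZone C L x 6 then τ (lo L x) else false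
        look :=
          if IsZone C L x 6 ∧ M L ≤ y ∧ rowsBelow L y ≤ xlRow C (B C - 1) ∧ MidDigits Z
          then some (lookAt C L x (rowsBelow L y) b) else none
        live := decide (IsLive C L y)
        pf := pfOf C b
        wOn := childOn L b Z } }

/-! ### Windows -/

/-- The coordinate before `X`. -/
def pred' (L X : ℕ) : ℕ := (X + H L - 1) % H L

/-- The digit before `d`. -/
def predDigit (d : Fin (base C.k)) : Fin (base C.k) :=
  ⟨(d.val + base C.k - 1) % base C.k, Nat.mod_lt _ (by unfold base; omega)⟩

/-- The axes on which a position is the first of its parent. -/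
def atFirst (X Y : ℕ) (Z : Digits C) : Guest :=
  ![decide (X = 0), decide (Y = 0), decide ((Z 0).val = 0), decide ((Z 1).val = 0),
    decide ((Z 2).val = 0)]

/-- The bits known at a tile in the parent `δ` back from that of the upper tile, which has bits
`b`. -/
def guestBits (δ : Guest) (b : ℕ → Bits) : ℕ → Bits := fun k g =>
  if ∃ a, δ a = true ∧ g a = true then false else b k fun a => δ a || g a

/-- The window with upper tile at `(X, Y, Z)`; `b` are the bits of the parent of that tile. -/
def window (L : ℕ) (τ : ℕ → Bool) (b : ℕ → Bits) (X Y : ℕ) (Z : Digits C) : Win (St C) :=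
  fun d =>
    child L τ (guestBits (fun a => d a && atFirst X Y Z a) b)
      (if d 0 then pred' L X else X) (if d 1 then pred' L Y else Y)
      (fun i => if d (zAx i) then predDigit (Z i) else Z i)

/-! ### Predicates of the claims -/

namespace Claims

/-- The claims are those of a wire row. -/
def isWire (c : Claims C) : Bool := c.cy.yl0 && decide (c.cy.ymC.val = 1)

/-- The claims of the column `x = 3*M`. -/
def isScan (c : Claims C) : Bool := c.cx.xh0 && c.cx.xl0 && decide (c.cx.xmC.val = 3)

/-- The claims of the row `y = 0`. -/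
def isY0 (c : Claims C) : Bool :=
  c.cy.yl0 && decide (c.cy.ymC.val = 0) && decide (c.cy.yhC.val = 0)

/-- The digits are middle ones. -/
def middle (c : Claims C) : Bool := decide (MidDigits c.ex.z)

/-- The table columns with the given middle part. -/
def zoneAt (c : Claims C) (m : ℕ) : Bool :=
  c.cx.xh0 && c.cx.xlEven && c.cx.xlSmall && decide (c.cx.xmC.val = m)

/-- A tile storing the table value. -/
def zone (c : Claims C) : Bool :=
  (c.zoneAt 4 && decide (A C - 1 ≤ c.cy.yhC.val)) || c.zoneAt 6

/-- The columns of the vertical bundle. -/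
def bundle (c : Claims C) : Bool := c.cx.xh0 && c.cx.xlEven && decide (c.cx.xmC.val = 1)

end Claims

/-- The claims held by a lookup state. -/
def Look.claims (l : Look C) : Option (Claims C) := claimsOfCopy l.copy.val

/-! ### The checks -/

/-- The final state of the scanning column: the recomputed claims are the copied ones, the word is
one, and the numbers of the parent satisfy the relations with its neighbours. -/
def Carry.endOK (c : Carry C) : Prop :=
  ∃ m : Claims C, claimsOfCopy c.copy.val = some m ∧
    m.cx = c.s.cx ∧ m.cy = c.cy ∧ m.cm = { c.s.cm with diag := c.s.cm.diag && !c.s.yhBit } ∧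
    m.ex.mach = (if m.cm.u0 then none else some (c.s.ma.result c.s.uBit)) ∧
    m.ex.wd = c.s.wa.wd ∧
    m.ex.top = (if m.ex.wOn then decodeLetter C c.s.wa.letter else none) ∧
    (if m.ex.wOn then c.s.wa.ok = true else c.s.wa.zero = true) ∧
    incThree (c.s.xI 0) (c.s.xI 1) (c.s.xI 2) = true ∧
    incThree (c.s.yI 0) (c.s.yI 1) (c.s.yI 2) = true ∧
    c.s.eqs = true ∧
    (if m.isScan && !m.isY0 && decide (A C ≤ m.cy.yhC.val) then
      (if m.isWire && decide (m.cy.yhMod.val = 0) then
        (if m.cy.yhC.val = A C then c.s.cm.u1 = true else c.s.cu.uDbl = true)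
       else c.s.cu.uEq = true)
     else c.s.cm.u0 = true)

/-- The checks made on a tile and the tile below it. -/
def AcceptPair (t d : Fin' C × Claims C) : Prop :=
  (∀ c, d.1.carry = some c → t.1.carry = none →
    c.endOK ∧ ∀ m, claimsOfCopy c.copy.val = some m → d.1.pf = readout m) ∧
  (d.2.isWire = true → d.1.eq = some true → t.1.eq = none → d.1.h = d.2.cm.q →
    t.1.v = true) ∧
  (∀ l m, d.2.isWire = true → d.1.look = some l → t.1.look = none → l.eq = true →
    d.1.h self = d.2.cm.ql → l.claims = some m → m.zone = true → t.1.v = l.vv)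

/-- The spare rows of the numbers are empty, and the last constant row is one where it meets its
column of the bundle. -/
def SpareOK (t : Fin' C × Claims C) : Prop :=
  (t.2.isWire = true → A C ≤ t.2.cy.yhC.val → C.k + 9 ≤ t.2.cy.yhMod.val →
    ∀ g, t.1.h g = false) ∧
  (t.2.isWire = true → t.2.cy.yhC.val = A C - 1 → t.2.middle = true → t.2.bundle = true →
    t.2.cm.diag = true → ∀ g, t.1.h g = true)

/-- The folded data of two parents side by side along a counter axis agree in what does not depend
on that axis. -/
structure PF.Beside (a : Fin 3) (p p' : PF C) : Prop where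
  eq : ∀ i, a ≠ i → a ≠ i + 1 → p.flags.eq i = p'.flags.eq i
  peq : ∀ i, a ≠ i → a ≠ i + 1 → p.flags.peq i = p'.flags.peq i
  rel : ∀ i, a ≠ i → a ≠ i + 1 → p.flags.rel i = p'.flags.rel i
  prel : ∀ i, a ≠ i → a ≠ i + 1 → p.flags.prel i = p'.flags.prel i
  br : a = 2 → p.flags.br = p'.flags.br
  wasH : ∀ i, a ≠ i → p.flags.wasH i = p'.flags.wasH i
  wasP : ∀ i, a ≠ i → p.flags.wasP i = p'.flags.wasP i
  wOn : a ≠ 2 → p.wOn = p'.wOn
  top : a ≠ 2 → p.top = p'.top
  hit : a = 1 → p.hit = p'.hit

/-- The back neighbour along an axis more. -/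
def back (g : Guest) (a : Fin 5) : Guest := fun c => g c || decide (c = a)

/-- The folded data: they occur, are equal across the plane, and agree across the counters in what
does not depend on the axis. -/
structure FoldOK (s : Sig C) : Prop where
  reach : ∀ g, (s g).1.pf.flags.Reach
  plane : ∀ (g : Guest) (a : Fin 5), g a = false → a.val < 2 →
    (s g).1.pf = (s (back g a)).1.pf
  counter : ∀ (g : Guest) (i : Fin 3), g (zAx i) = false →
    (s g).1.pf.Beside i (s (back g (zAx i))).1.pf
  on : ∀ (g : Guest) (a : Fin 5), g a = false → a ≠ 4 → (s g).1.wOn = (s (back g a)).1.wOn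

/-- The checks made in a window. -/
def Accept (s : Sig C) : Prop :=
  (∀ g : Guest, g 1 = false → AcceptPair (s g) (s (back g 1))) ∧ ∀ g, SpareOK (s g)

/-- The window is made of children. -/
def Shape (s : Sig C) : Prop :=
  ∃ (L : ℕ) (τ : ℕ → Bool) (b : ℕ → Bits) (X Y : ℕ) (Z : Digits C),
    L₀ C ≤ L ∧ X < H L ∧ Y < H L ∧ sig L (window L τ b X Y Z) = s

/-- The signatures accepted by the table. -/
def InS (s : Sig C) : Prop := Shape s ∧ Accept s ∧ FoldOK s

/-- The input of the table read on column `xl`. -/
def tableInput (s : Sig C) (xl : ℕ) : Prop :=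
  ∀ k < A C, ∀ g, finBits (s g) k = xl.testBit (32 * k + (gidx g).val + 2)

open Classical in
/-- The table. -/
def table (C : Cfg) (xl : ℕ) : Bool := decide (∃ s : Sig C, InS s ∧ tableInput s xl)

/-! ### The local rule -/

/-- Evolution of the counter of the scanning column. -/
def CounterNum (L : ℕ) (t d : St C) : Prop :=
  let c := claims L t
  if c.isScan && !(decide (t.y = 0)) && decide (A C ≤ c.cy.yhC.val) then
    (if c.isWire && decide (c.cy.yhMod.val = 0) then
      (if c.cy.yhC.val = A C then t.u = 1 else t.u = 2 * d.u % M L)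
     else t.u = d.u)
  else t.u = 0

/-- The numerical relations between a tile `t` and the tile `d` one step back along the axis `a`. -/
def EdgeNum (L : ℕ) (a : Fin 5) (t d : St C) : Prop :=
  (if a = 0 then t.x = (d.x + 1) % H L else t.x = d.x) ∧
  (if a = 1 then t.y = (d.y + 1) % H L ∧ CounterNum L t d else t.y = d.y) ∧
  (2 ≤ a.val → t.u = d.u) ∧ (a ≠ 4 → t.w = d.w) ∧
  ∀ i, if a = zAx i then (t.z i).val = ((d.z i).val + 1) % base C.k else t.z i = d.z i

/-- The numbers of the word form a word of the level. -/
structure WordNum (L : ℕ) (t : St C) : Prop where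
  low : ∀ r i, i < L₀ C → (t.w r).testBit i = false
  off : t.fin.wOn = false → ∀ r, t.w r = 0
  star : ∀ i, i < L → (t.w 0).testBit i = true → i ≠ L₀ C ∧
    (∀ r, r ≠ 0 → (t.w r).testBit i = false) ∧ (i + 1 < L → (t.w 0).testBit (i + 1) = true)

/-- The numbers are within bounds. -/
def InBounds (L : ℕ) (t : St C) : Prop :=
  t.x < H L ∧ t.y < H L ∧ t.u < M L ∧ ∀ r, t.w r < M L

/-- The local rule at level `L`. -/
def Rule (L : ℕ) (w : Win (St C)) : Prop :=
  (∀ g, InBounds L (w g) ∧ WordNum L (w g)) ∧
  (∀ g a, g a = false → EdgeNum L a (w g) (w (back g a))) ∧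
  InS (sig L w)

/-- The table values of the zone tiles are correct. -/
def TableOK (L : ℕ) (w : Win (St C)) : Prop :=
  ∀ g, (claims L (w g)).zone = true → (w g).fin.v = table C (lo L (w g).x)

/-- A valid window. -/
def Valid (L : ℕ) (w : Win (St C)) : Prop := Rule L w ∧ TableOK L w

/-! ### Tilings -/

/-- The lattice. -/
abbrev Z5 : Type := Fin 5 → ℤ

/-- The direction of a back neighbour. -/
def dir (g : Guest) : Z5 := fun a => if g a then 1 else 0

/-- The window with upper tile at `P`. -/
def quadAt (c : Z5 → St C) (P : Z5) : Win (St C) := fun g => c (P - dir g)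

/-- A tiling by states of level `L` all of whose windows are valid. -/
def ValidTiling (L : ℕ) (c : Z5 → St C) : Prop := ∀ P, Valid L (quadAt c P)

/-- The child at `(X, Y, Z)` of the tile `P` of a tiling of the next level, with the table. -/
def childAt (L : ℕ) (c' : Z5 → St C) (P : Z5) (X Y : ℕ) (Z : Digits C) : St C :=
  child L (table C) (quadBits (L + 1) (quadAt c' P)) X Y Z

/-- The extent of a parent. -/
def extent (C : Cfg) (L : ℕ) : Z5 :=
  ![(H L : ℤ), (H L : ℤ), (base C.k : ℤ), (base C.k : ℤ), (base C.k : ℤ)]

/-- The position of the child at `(X, Y, Z)` of the parent `P`. -/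
def place (L : ℕ) (o P : Z5) (X Y : ℕ) (Z : Digits C) : Z5 :=
  o + extent C L * P + ![(X : ℤ), (Y : ℤ), ((Z 0).val : ℤ), ((Z 1).val : ℤ), ((Z 2).val : ℤ)]

/-- `c'` is the tiling of the parents of `c`, the parent `0` having lowest corner `o`. -/
def IsParent (L : ℕ) (c c' : Z5 → St C) (o : Z5) : Prop :=
  ValidTiling (L + 1) c' ∧
    ∀ (P : Z5) (X Y : ℕ) (Z : Digits C), X < H L → Y < H L →
      c (place L o P X Y Z) = childAt L c' P X Y Z

/-- A normalised offset. -/
def IsOffset (C : Cfg) (L : ℕ) (o : Z5) : Prop := ∀ a, 0 ≤ o a ∧ o a < extent C L a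

/-! ### Statements of the pieces -/

/-- Local rules force the next level, uniquely. -/
def DesubStatement (C : Cfg) : Prop :=
  ∀ L, L₀ C ≤ L → ∀ c : Z5 → St C, ValidTiling L c → ∃! oc : Z5 × (Z5 → St C),
    IsOffset C L oc.1 ∧ IsParent L c oc.2 oc.1

/-- The windows of the children of a valid window are valid. -/
def CompleteStatement (C : Cfg) : Prop :=
  ∀ L, L₀ C ≤ L → ∀ q : Win (St C), Valid (L + 1) q → ∀ X Y (Z : Digits C),
    X < H L → Y < H L → Valid L (window L (table C) (quadBits (L + 1) q) X Y Z)

end Vale.Agent.P193.W4.Common
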