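import Vale.Agent.P193.W4.A5.Lattice
import Vale.Agent.P193.W4.Common.Spec

/-!
P193, module W4.A (common layer): the subshift. A cell is a state of the least level; a pattern on
the cube is allowed if it is a valid window, read at the upper corner.
-/

noncomputable section

namespace Vale.Agent.P193.W4.Common

open BH A5

variable (C : Cfg)

/-- The symbols: the states of the least level within bounds. -/
abbrev Sym : Type := {t : St C // InBounds (L₀ C) t}

instance Sym.finite : Finite (Sym C) := by
  refine Finite.of_injective (fun t : Sym C =>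
    ((⟨t.1.x, t.2.1⟩ : Fin (H (L₀ C))), (⟨t.1.y, t.2.2.1⟩ : Fin (H (L₀ C))),
      (⟨t.1.u, t.2.2.2.1⟩ : Fin (M (L₀ C))),
      (fun r => ⟨t.1.w r, t.2.2.2.2 r⟩ : Track C → Fin (M (L₀ C))), t.1.z, t.1.fin)) ?_
  rintro ⟨⟨x, y, u, w, z, f⟩, _⟩ ⟨⟨x', y', u', w', z', f'⟩, _⟩ h
  simp only [Prod.mk.injEq, Fin.mk.injEq, funext_iff, Fin.ext_iff] at h
  obtain ⟨h₁, h₂, h₃, h₄, h₅, h₆⟩ := h
  obtain rfl := funext h₄
  obtain rfl : z = z' := funext fun i => Fin.ext (h₅ i)
  subst h₁ h₂ h₃ h₆
  rfl

/-- The corner of the unit cube `g` back from its upper corner. -/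
def corner (g : Guest) : cube :=
  ⟨cellOf fun a => if g a then 0 else 1, Finset.mem_image.2
    ⟨(fun i => !g (zAx i), ![!g 0, !g 1]), Finset.mem_univ _, by
      refine congrArg Multiplicative.ofAdd (Prod.ext (funext fun i => ?_) (funext fun i => ?_))
      · show (if (!g (zAx i)) = true then (1 : ℤ) else 0) = if g (zAx i) then 0 else 1
        cases g (zAx i) <;> rfl
      · fin_cases i
        · show (if (!g 0) = true then (1 : ℤ) else 0) = if g 0 then 0 else 1
          cases g 0 <;> rfl
        · show (if (!g 1) = true then (1 : ℤ) else 0) = if g 1 then 0 else 1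
          cases g 1 <;> rfl⟩⟩

/-- The subshift of the common layer. -/
def sft : SFT Lat where
  A := Sym C
  fintypeA := Fintype.ofFinite _
  decEqA := Classical.decEq _
  topA := ⊥
  discA := @DiscreteTopology.mk _ ⊥ rfl
  win := cube
  allowed p := Valid (L₀ C) fun g => (p (corner g)).1

variable {C}

/-- The tiling by states shown by a configuration. -/
def tiling (x : Lat → Sym C) (P : Z5) : St C := (x (cellOf P)).1

/-- The points are the valid tilings of the least level. -/
lemma validTiling_tiling (x : (sft C).X) : ValidTiling (L₀ C) (tiling x.1) := by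
  intro P
  have h : Valid (L₀ C) fun g => (x.1 (cellOf (P - fun _ => 1) * (corner g).1)).1 :=
    x.2 (cellOf (P - fun _ => 1))
  convert h using 1
  funext g
  show (x.1 (cellOf (P - dir g))).1 = (x.1 (cellOf (P - fun _ => 1) * (corner g).1)).1
  rw [show (corner g).1 = cellOf fun a => if g a then 0 else 1 from rfl, ← cellOf_add]
  have e : P - dir g = (P - fun _ => 1) + fun a => if g a then 0 else 1 := by
    funext a
    simp only [Pi.sub_apply, Pi.add_apply, dir]
    cases g a <;> simp
  rw [e]

end Vale.Agent.P193.W4.Common
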