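import Vale.Agent.P193.W4.Common.Scan.Block
import Vale.Agent.P193.W4.Common.Spec

/-!
P193, module W4.A (common layer): at its last row the scanning column accepts exactly the numbers
satisfying the rules of the parent with its back neighbours, with correctly copied claims and with
the machine of the next time.
-/

noncomputable section

namespace Vale.Agent.P193.W4.Common.Scanning

open Vale.Agent.P193.W4.Common.Num

variable {C : Cfg}

/-- The numbers of a window. -/
def numsOf (L : ℕ) (q : Win (St C)) : Guest → ℕ → ℕ := fun g τ => num L (q g) τ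

/-- The relations between neighbours read off the numbers alone. -/
def EdgeNumbers (L : ℕ) (a : Fin 5) (t d : St C) : Prop :=
  (if a = 0 then t.x = (d.x + 1) % H L else t.x = d.x) ∧
  (if a = 1 then t.y = (d.y + 1) % H L ∧ CounterNum L t d else t.y = d.y) ∧
  (2 ≤ a.val → t.u = d.u) ∧ (a ≠ 4 → t.w = d.w)

lemma edgeNum_iff (L : ℕ) (a : Fin 5) (t d : St C) :
    EdgeNum L a t d ↔ EdgeNumbers L a t d ∧
      ∀ i, if a = zAx i then (t.z i).val = ((d.z i).val + 1) % base C.k else t.z i = d.z i := by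
  simp only [EdgeNum, EdgeNumbers, and_assoc]

variable {L : ℕ} {q : Win (St C)} {m : Claims C}

lemma num_track (L : ℕ) (t : St C) (r : Track C) : num L t (7 + r.val) = t.w r := by
  rw [Nat.add_comm]
  simp [num, r.isLt]

lemma num_lt {t : St C} (h : InBounds L t) (τ : ℕ) : num L t τ < 2 ^ L :=
  match τ with
  | 0 => lo_lt L _
  | 1 => mid_lt L _
  | 2 => hi_lt h.1
  | 3 => lo_lt L _
  | 4 => mid_lt L _
  | 5 => hi_lt h.2.1
  | 6 => h.2.2.1
  | n + 7 => by
    show (if hn : n < C.k + 2 then t.w ⟨n, hn⟩ else 0) < 2 ^ L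
    split_ifs
    · exact h.2.2.2 _
    · exact Nat.two_pow_pos _

lemma cmpPre_top {t d n : ℕ} (ht : t < 2 ^ n) (hd : d < 2 ^ n) :
    cmpPre t d n = ⟨decide (t = d), decide (t = (d + 1) % 2 ^ n), decide (d = 2 ^ n - 1)⟩ := by
  simp only [cmpPre, Nat.mod_eq_of_lt ht, Nat.mod_eq_of_lt hd]

lemma incThree_iff {L' t d : ℕ} (ht : t < H L') (hd : d < H L') :
    incThree (cmpPre (lo L' t) (lo L' d) L') (cmpPre (mid L' t) (mid L' d) L')
      (cmpPre (hi L' t) (hi L' d) L') = true ↔ t = (d + 1) % H L' := by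
  have lt := @lo_lt L'
  have mt := @mid_lt L'
  obtain ⟨e1, e2, e3⟩ := succ_parts_mod L' d
  rw [cmpPre_top (lt t) (lt d), cmpPre_top (mt t) (mt d), cmpPre_top (hi_lt ht) (hi_lt hd),
    eq_iff_parts L' t ((d + 1) % H L'), ← e1, e2, e3 hd]
  simp only [incThree, show (2 : ℕ) ^ L' = M L' from rfl]
  by_cases h1 : lo L' d = M L' - 1
  · by_cases h2 : mid L' d = M L' - 1
    · simp [h1, h2, and_assoc]
    · simp [h1, h2, and_assoc]
  · simp [h1, and_assoc]

lemma isY0_claims (L' : ℕ) (t : St C) : (claims L' t).isY0 = decide (t.y = 0) := by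
  have hY : 0 < YB C := lt_trans (by have := A_ge C; omega) (A_lt_YB C)
  rw [Bool.eq_iff_iff, decide_eq_true_iff, y_eq_zero_iff L' t.y]
  simp only [Claims.isY0, Bool.and_eq_true, decide_eq_true_iff, and_assoc]
  simp only [claims, decide_eq_true_iff]
  refine and_congr Iff.rfl (and_congr ?_ ?_) <;> omega

lemma diag_last {a h n : ℕ} (hn : 0 < n) (ha : a < 2 ^ n) (hh : h < 2 ^ n) :
    (decide (a % 2 ^ n = 2 * h % 2 ^ n) && !(2 * h).testBit n) = decide (a = 2 * h) := by
  obtain ⟨i, rfl⟩ : ∃ i, n = i + 1 := ⟨n - 1, by omega⟩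
  rw [Nat.mod_eq_of_lt ha, testBit_two_mul_succ, pow_succ] at *
  by_cases hb : h < 2 ^ i
  · rw [Nat.testBit_lt_two_pow hb, Nat.mod_eq_of_lt (show 2 * h < 2 ^ i * 2 by omega)]
    simp
  · have : h.testBit i = true := by
      rw [Nat.testBit_eq_decide_div_mod_eq]
      have : h / 2 ^ i = 1 := Nat.div_eq_of_lt_le (by omega) (by omega)
      simp [this]
    rw [this]
    simp
    omega

lemma zone_last {n x : ℕ} (hB : B C ≤ n) :
    ((0 < n → x.testBit 0 = false) ∧ (1 < n → x.testBit 1 = true) ∧ x < 2 ^ B C ∧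
      (B C - 1 < n → x.testBit (B C - 1) = true)) ↔
    x % 4 = 2 ∧ 2 ^ (B C - 1) ≤ x ∧ x < 2 ^ B C := by
  have hB2 : 2 ≤ B C := by unfold B; omega
  obtain ⟨m, hm⟩ : ∃ m, B C = m + 1 := ⟨B C - 1, by omega⟩
  simp only [show (0 < n) = True from eq_true (by omega), show (1 < n) = True from eq_true (by omega),
    show (B C - 1 < n) = True from eq_true (by omega), true_implies]
  rw [hm] at hB2 ⊢
  rw [Nat.add_sub_cancel]
  have e0 : x.testBit 0 = decide (x % 2 = 1) := Nat.testBit_zero _
  have e1 : x.testBit 1 = decide (x / 2 % 2 = 1) := by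
    rw [Nat.testBit_succ, Nat.testBit_zero]
  constructor
  · rintro ⟨h0, h1, h2, h3⟩
    rw [e0, decide_eq_false_iff_not] at h0
    rw [e1, decide_eq_true_iff] at h1
    exact ⟨by omega, Nat.ge_two_pow_of_testBit h3, h2⟩
  · rintro ⟨h0, h1, h2⟩
    refine ⟨by rw [e0]; simp; omega, by rw [e1]; simp; omega, h2, ?_⟩
    rw [Nat.testBit_eq_decide_div_mod_eq]
    have : x / 2 ^ m = 1 := Nat.div_eq_of_lt_le (by rw [pow_succ] at h2; omega)
      (by rw [pow_succ] at h2; omega)
    simp [this]

lemma claims_copy (m : Claims C) :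
    claimsOfCopy (C := C) (copyPre C (code m) (A C - 2 - AF C)).val = some m := by
  have h := code_claims_lt m
  show claimsOfCopy (code m % 2 ^ (A C - 2 - AF C) % 2 ^ (A C - 2 - AF C)) = _
  rw [Nat.mod_eq_of_lt h, Nat.mod_eq_of_lt h, claimsOfCopy_code]

lemma copyK_eq (m : Claims C) : copyK C (code m) = m.cy.yhC.val := by
  rw [copyK, claims_copy]
  rfl

variable (K : ℕ)

lemma pre_cx (hL : L₀ C ≤ L) (h : InBounds (L + 1) (q self)) :
    (pre C L (numsOf (L + 1) q) K (L + 1)).s.cx = (claims (L + 1) (q self)).cx := by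
  have hB : B C ≤ L + 1 := by have := (le_L₀ C).trans hL; omega
  simp only [pre, claims, numsOf, Nat.mod_eq_of_lt (num_lt h _), zone_last hB]
  rfl

lemma pre_cy (h : InBounds (L + 1) (q self)) :
    (pre C L (numsOf (L + 1) q) K (L + 1)).cy = (claims (L + 1) (q self)).cy := by
  simp only [pre, claims, numsOf, Nat.mod_eq_of_lt (num_lt h _),
    Nat.succ_pos, decide_true, Bool.true_and]
  rfl

lemma pre_cm (h : InBounds (L + 1) (q self))
    (hk : copyK C K = (claims (L + 1) (q self)).cy.yhC.val) :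
    ({ (pre C L (numsOf (L + 1) q) K (L + 1)).s.cm with
      diag := (pre C L (numsOf (L + 1) q) K (L + 1)).s.cm.diag &&
        !(pre C L (numsOf (L + 1) q) K (L + 1)).s.yhBit } : MixClaims) =
      (claims (L + 1) (q self)).cm := by
  have hd := diag_last (n := L + 1) (Nat.succ_pos L) (num_lt h 0) (num_lt h 5)
  have e0 := Nat.mod_eq_of_lt (num_lt h 0)
  have e6 := Nat.mod_eq_of_lt (num_lt h 6)
  have h1M : (1 : ℕ) % 2 ^ (L + 1) = 1 :=
    Nat.mod_eq_of_lt (Nat.one_lt_two_pow (Nat.succ_ne_zero L))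
  simp only [pre, hk, claims, MixClaims.mk.injEq]
  refine ⟨hd, ?_, ?_, ?_, ?_⟩
  · funext j
    exact congrArg (fun a : ℕ => _ && a.testBit _) e0
  · exact congrArg (fun a : ℕ => _ && a.testBit _) e0
  · exact congrArg (fun a : ℕ => decide (a = 0)) e6
  · exact congrArg₂ (fun a c : ℕ => decide (a = c)) e6 h1M

lemma pre_ok (h : InBounds (L + 1) (q self)) :
    (if (q self).fin.wOn then (pre C L (numsOf (L + 1) q) K (L + 1)).s.wa.ok = true
      else (pre C L (numsOf (L + 1) q) K (L + 1)).s.wa.zero = true) ↔ WordNum (L + 1) (q self) := by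
  classical
  have hw : ∀ r, wNum (numsOf (L + 1) q) r = (q self).w r := fun r => num_track _ _ r
  have hb : ∀ r i, ((q self).w r).testBit i = true → i < L + 1 := fun r i hi => by
    by_contra hc
    rw [Nat.testBit_lt_two_pow ((h.2.2.2 r).trans_le
      (Nat.pow_le_pow_right two_pos (Nat.le_of_not_lt hc)))] at hi
    exact Bool.false_ne_true hi
  have hz : (pre C L (numsOf (L + 1) q) K (L + 1)).s.wa.zero = true ↔ ∀ r, (q self).w r = 0 := by
    simp only [pre, waPre, decide_eq_true_iff, hw]
    exact forall_congr' fun r => by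
      rw [Nat.mod_eq_of_lt (show (q self).w r < 2 ^ (L + 1) from h.2.2.2 r)]
  have ho : (pre C L (numsOf (L + 1) q) K (L + 1)).s.wa.ok = true ↔
      ∀ j < L + 1, LetterOK C (fun r => (q self).w r) j := by
    simp only [pre, waPre, decide_eq_true_iff]
    rw [show wNum (numsOf (L + 1) q) = fun r => (q self).w r from funext hw]
  cases hon : (q self).fin.wOn
  · simp only [Bool.false_eq_true, if_false, hz]
    refine ⟨fun e => ⟨fun r i _ => by simp [e r], fun _ => e, fun i _ hi => ?_⟩, fun w => w.off hon⟩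
    simp [e 0] at hi
  · simp only [if_true, ho]
    constructor
    · intro e
      refine ⟨fun r i hi => Bool.eq_false_iff.2 fun hr => ?_, fun hc => ?_, fun i hi hs => ?_⟩
      · exact absurd ((e i (hb r i hr)).1 r hr) (by omega)
      · exact absurd (hon.symm.trans hc) Bool.noConfusion
      · refine ⟨(e i hi).2.1 hs, fun r hr => (e i hi).2.2.1 r hr hs, fun hi' => ?_⟩
        refine (e _ hi').2.2.2 ?_
        rw [testBit_two_mul_succ]
        exact hs
    · intro w j hj
      refine ⟨fun r hr => ?_, fun hs => (w.star j hj hs).1, fun r hr hs => (w.star j hj hs).2.1 r hr,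
        fun hs => ?_⟩
      · by_contra hc
        rw [w.low r j (by omega)] at hr
        exact Bool.false_ne_true hr
      · rcases j with _ | i
        · simp at hs
        · rw [testBit_two_mul_succ] at hs
          exact (w.star i (by omega) hs).2.2 hj

/-- The check at the last row is the numerical rule of the parent. -/
theorem endOK_iff {b : ℕ → Bits} (hL : L₀ C ≤ L)
    (hr : Reads C L b (numsOf (L + 1) q) (code m))
    (hown : InBounds (L + 1) (q self)) (hax : ∀ a, InBounds (L + 1) (q (axis a)))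
    (hz : m.ex.z = (q self).z) (hpf : m.ex.pf = (q self).fin.pf)
    (hon : m.ex.wOn = (q self).fin.wOn) :
    (scan C L b (lastK C L)).endOK ↔
      m = claims (L + 1) (q self) ∧ WordNum (L + 1) (q self) ∧
        ∀ a, EdgeNumbers (L + 1) a (q self) (q (axis a)) := by
  classical
  rw [scan_lastK hr hL]
  have hok := pre_ok (code m) hown
  set c := pre C L (numsOf (L + 1) q) (code m) (L + 1) with hc
  have hcopy : claimsOfCopy c.copy.val = some m := claims_copy m
  have ha0 := hax 0
  have ha1 := hax 1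
  have exI : incThree (c.s.xI 0) (c.s.xI 1) (c.s.xI 2) = true ↔
      (q self).x = ((q (axis 0)).x + 1) % H (L + 1) := incThree_iff hown.1 ha0.1
  have eyI : incThree (c.s.yI 0) (c.s.yI 1) (c.s.yI 2) = true ↔
      (q self).y = ((q (axis 1)).y + 1) % H (L + 1) := incThree_iff hown.2.1 ha1.2.1
  have eqs : c.s.eqs = true ↔ ∀ a : Fin 5, (a ≠ 0 → (q self).x = (q (axis a)).x) ∧
      (a ≠ 1 → (q self).y = (q (axis a)).y) ∧ (2 ≤ a.val → (q self).u = (q (axis a)).u) ∧
      (a ≠ 4 → (q self).w = (q (axis a)).w) := by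
    have e0 : c.s.eqs = true ↔ ∀ τ < T C, ∀ a, eqAxis C τ a = true →
        num (L + 1) (q (axis a)) τ = num (L + 1) (q self) τ := by
      refine decide_eq_true_iff.trans ?_
      simp only [numsOf]
      refine forall_congr' fun τ => imp_congr_right fun _ => forall_congr' fun a => ?_
      rw [Nat.mod_eq_of_lt (num_lt (hax a) τ), Nat.mod_eq_of_lt (num_lt hown τ)]
    have hT := T_ge C
    rw [e0]
    constructor
    · intro e a
      have e' := fun τ (h : τ < T C) (h' : eqAxis C τ a = true) => (e τ h a h').symm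
      refine ⟨fun h => (eq_iff_parts (L + 1) _ _).2 ⟨e' 0 (by omega) ?_, e' 1 (by omega) ?_,
          e' 2 (by omega) ?_⟩, fun h => (eq_iff_parts (L + 1) _ _).2 ⟨e' 3 (by omega) ?_,
          e' 4 (by omega) ?_, e' 5 (by omega) ?_⟩, fun h => e' 6 (by omega) ?_,
        fun h => funext fun r => ?_⟩
      iterate 7 simp [eqAxis, h]
      rw [← num_track (L + 1), ← num_track (L + 1) (q (axis a))]
      have := r.isLt
      refine e' _ (by omega) ?_
      simp [eqAxis, h, show ¬ 7 + r.val < 3 by omega, show ¬ 7 + r.val < 6 by omega,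
        show 7 + r.val ≠ 6 by omega]
    · intro e τ _ a hτ
      obtain ⟨ex, ey, eu, ew⟩ := e a
      unfold eqAxis at hτ
      split_ifs at hτ with h1 h2 h3
      · have := ex (of_decide_eq_true hτ)
        interval_cases τ <;> simp [num, this]
      · have := ey (of_decide_eq_true hτ)
        interval_cases τ <;> simp [num, this]
      · subst h3
        exact (eu (of_decide_eq_true hτ)).symm
      · rw [Bool.and_eq_true, decide_eq_true_iff, decide_eq_true_iff] at hτ
        obtain ⟨n, rfl⟩ : ∃ n, τ = 7 + n := ⟨τ - 7, by omega⟩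
        have hn : n < C.k + 2 := by omega
        rw [num_track (L + 1) _ ⟨n, hn⟩, num_track (L + 1) _ ⟨n, hn⟩, ew hτ.2]
  have h1M : (1 : ℕ) % 2 ^ (L + 1) = 1 :=
    Nat.mod_eq_of_lt (Nat.one_lt_two_pow (Nat.succ_ne_zero L))
  have hu : (q self).u < 2 ^ (L + 1) := hown.2.2.1
  have hu1 : (q (axis 1)).u < 2 ^ (L + 1) := ha1.2.2.1
  have eu0 : c.s.cm.u0 = true ↔ (q self).u = 0 := by
    show decide ((q self).u % 2 ^ (L + 1) = 0) = true ↔ _
    rw [decide_eq_true_iff, Nat.mod_eq_of_lt hu]
  have eu1 : c.s.cm.u1 = true ↔ (q self).u = 1 := by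
    show decide ((q self).u % 2 ^ (L + 1) = 1 % 2 ^ (L + 1)) = true ↔ _
    rw [decide_eq_true_iff, Nat.mod_eq_of_lt hu, h1M]
  have euE : c.s.cu.uEq = true ↔ (q self).u = (q (axis 1)).u := by
    show decide ((q self).u % 2 ^ (L + 1) = (q (axis 1)).u % 2 ^ (L + 1)) = true ↔ _
    rw [decide_eq_true_iff, Nat.mod_eq_of_lt hu, Nat.mod_eq_of_lt hu1]
  have euD : c.s.cu.uDbl = true ↔ (q self).u = 2 * (q (axis 1)).u % M (L + 1) := by
    show decide ((q self).u % 2 ^ (L + 1) = 2 * (q (axis 1)).u % 2 ^ (L + 1)) = true ↔ _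
    rw [decide_eq_true_iff, Nat.mod_eq_of_lt hu]
    rfl
  have core : m = claims (L + 1) (q self) →
      ((if m.isScan && !m.isY0 && decide (A C ≤ m.cy.yhC.val) then
        (if m.isWire && decide (m.cy.yhMod.val = 0) then
          (if m.cy.yhC.val = A C then c.s.cm.u1 = true else c.s.cu.uDbl = true)
         else c.s.cu.uEq = true)
       else c.s.cm.u0 = true) ↔ CounterNum (L + 1) (q self) (q (axis 1))) := by
    intro hm
    rw [hm, CounterNum, isY0_claims]
    simp only [Claims.isScan, Claims.isWire]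
    split_ifs <;> simp_all
  have emach : (if (claims (L + 1) (q self)).cm.u0 then none else some (c.s.ma.result c.s.uBit)) =
      (claims (L + 1) (q self)).ex.mach := by
    by_cases h : (q self).u = 0
    · simp [claims, h]
    · simp only [claims, h, decide_false, Bool.false_eq_true, if_false]
      exact congrArg some (maPre_result hL hu h)
  have ewd : c.s.wa.wd = (claims (L + 1) (q self)).ex.wd := funext fun r => by
    show (decide ((q self).u % 2 ^ (L + 1) ≠ 0) &&
      (wNum (numsOf (L + 1) q) r).testBit (Nat.log 2 ((q self).u % 2 ^ (L + 1)))) = _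
    rw [Nat.mod_eq_of_lt hu, show wNum (numsOf (L + 1) q) r = (q self).w r from num_track _ _ r]
    rfl
  have etop : (if m.ex.wOn then decodeLetter C c.s.wa.letter else none) =
      (claims (L + 1) (q self)).ex.top := by
    rw [hon]
    simp only [claims, show L₀ C < L + 1 by omega, and_true]
    refine if_congr Iff.rfl (congrArg _ (funext fun r => ?_)) rfl
    show (2 * wNum (numsOf (L + 1) q) r).testBit (L + 1) = _
    rw [testBit_two_mul_succ, show wNum (numsOf (L + 1) q) r = (q self).w r from num_track _ _ r,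
      Nat.add_sub_cancel]
  constructor
  · rintro ⟨m', h0, hcx, hcy, hcm, hmach, hwd, htop, hword, hxI, hyI, heqs, hu'⟩
    rw [hcopy] at h0
    obtain rfl := Option.some.inj h0
    have hk : copyK C (code m) = (claims (L + 1) (q self)).cy.yhC.val := by
      rw [copyK_eq, hcy, hc, pre_cy _ hown]
    have ecm : m.cm = (claims (L + 1) (q self)).cm := by rw [hcm, hc, pre_cm _ hown hk]
    have eex : m.ex = (claims (L + 1) (q self)).ex := by
      rw [ecm, emach] at hmach
      rw [etop] at htop
      rw [show m.ex = ⟨m.ex.z, m.ex.pf, m.ex.wOn, m.ex.top, m.ex.mach, m.ex.wd⟩ from rfl,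
        hz, hpf, hon, htop, hmach, hwd, ewd]
      rfl
    have hm : m = claims (L + 1) (q self) := by
      have e : m = ⟨m.cx, m.cy, m.cm, m.ex⟩ := rfl
      rw [e, hcx, hcy, ecm, eex, hc, pre_cx _ hL hown, pre_cy _ hown]
    rw [hon] at hword
    refine ⟨hm, hok.1 hword, fun a => ⟨?_, ?_, (eqs.1 heqs a).2.2.1, (eqs.1 heqs a).2.2.2⟩⟩
    · by_cases h : a = 0
      · subst h; rw [if_pos rfl]; exact exI.1 hxI
      · rw [if_neg h]; exact (eqs.1 heqs a).1 h
    · by_cases h : a = 1
      · subst h; rw [if_pos rfl]; exact ⟨eyI.1 hyI, (core hm).1 hu'⟩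
      · rw [if_neg h]; exact (eqs.1 heqs a).2.1 h
  · rintro ⟨hm, hw, he⟩
    have hk : copyK C (code m) = (claims (L + 1) (q self)).cy.yhC.val := by rw [copyK_eq, hm]
    have hx := (he 0).1
    have hy := (he 1).2.1
    rw [if_pos rfl] at hx hy
    refine ⟨m, hcopy, ?_, ?_, ?_, ?_, ?_, ?_, ?_, exI.2 hx, eyI.2 hy.1, eqs.2 fun a => ?_,
      (core hm).2 hy.2⟩
    · rw [hm, hc, pre_cx _ hL hown]
    · rw [hm, hc, pre_cy _ hown]
    · rw [hm, hc, pre_cm _ hown hk]
    · rw [hm, emach]
    · rw [hm, ewd]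
    · rw [etop, hm]
    · rw [hon]
      exact hok.2 hw
    · obtain ⟨e1, e2, e3, e4⟩ := he a
      exact ⟨fun h => by rwa [if_neg h] at e1, fun h => by rwa [if_neg h] at e2, e3, e4⟩

/-- The rows of a window of parents. -/
theorem reads_quadBits (L : ℕ) (q : Win (St C)) :
    Reads C L (quadBits (L + 1) q) (numsOf (L + 1) q) (code (claims (L + 1) (q self))) := by
  have hAF := AF_lt C
  constructor
  · intro n hn
    show enc (L + 1) (q self) (AF C + n) = _
    unfold restRow at hAF
    rw [enc, if_pos (by omega), finBits, if_neg (by omega), if_neg (by omega), if_neg (by omega),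
      if_neg (by omega), if_neg (by omega), if_neg (by omega), if_pos (by omega),
      Nat.add_sub_cancel_left]
  · intro i hi τ hτ g
    show enc (L + 1) (q g) (A C + T C * i + τ) = _
    have e1 : (A C + T C * i + τ - A C) / T C = i := by
      rw [show A C + T C * i + τ - A C = τ + T C * i by omega, Nat.add_mul_div_left _ _ (T_pos C),
        Nat.div_eq_of_lt hτ, Nat.zero_add]
    have e2 : (A C + T C * i + τ - A C) % T C = τ := by
      rw [show A C + T C * i + τ - A C = τ + T C * i by omega, Nat.add_mul_mod_self_left,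
        Nat.mod_eq_of_lt hτ]
    rw [enc, if_neg (by omega), e1, e2]
    simp [numsOf, Nat.lt_succ_of_le hi]

/-- The copy held at the end of the column decodes to the claims read. -/
theorem copy_lastK {b : ℕ → Bits} {N : Guest → ℕ → ℕ} (hL : L₀ C ≤ L)
    (hr : Reads C L b N (code m)) :
    claimsOfCopy (scan C L b (lastK C L)).copy.val = some m := by
  rw [scan_lastK hr hL]
  exact claims_copy m

end Vale.Agent.P193.W4.Common.Scanning
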