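import Vale.Agent.P193.W4.Common.Coords

/-!
P193, module W4.A (common layer): codes and arithmetic of the bit encoding. The finite codes fit
into their rows, a coordinate is determined by its three parts, and the three part increment is the
successor modulo `H`.
-/

noncomputable section

namespace Vale.Agent.P193.W4.Common.Num

variable {C : Cfg}

/-! ### Codes -/

lemma code_lt_card {α : Type} [Fintype α] (a : α) : code a < Fintype.card α :=
  (Fintype.equivFin α a).isLt

lemma code_injective {α : Type} [Fintype α] : Function.Injective (code (α := α)) := fun _ _ h =>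
  (Fintype.equivFin α).injective (Fin.ext h)

lemma claimsOfCopy_code (c : Claims C) : claimsOfCopy (C := C) (code c) = some c := by
  rw [claimsOfCopy, dif_pos (code_lt_card c)]
  exact congrArg some ((Equiv.symm_apply_eq _).2 (Fin.ext rfl))

lemma code_claims_lt (c : Claims C) : code c < 2 ^ (A C - 2 - AF C) :=
  (code_lt_card c).trans_le (card_claims C)

lemma code_rest_lt (f : Fin' C) : code f.rest < 2 ^ (AF C - restRow) :=
  (code_lt_card f.rest).trans_le (card_rest C)

/-! ### Bits -/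

lemma mod_two_pow_succ_bit (x i : ℕ) :
    x % 2 ^ (i + 1) = x % 2 ^ i + if x.testBit i then 2 ^ i else 0 := by
  rw [Nat.mod_pow_succ, Nat.testBit_eq_decide_div_mod_eq]
  rcases Nat.mod_two_eq_zero_or_one (x / 2 ^ i) with h | h <;> simp [h]

lemma sum_testBit (x : ℕ) : ∀ n,
    (∑ m ∈ Finset.range n, if x.testBit m then 2 ^ m else 0) = x % 2 ^ n
  | 0 => by simp [Nat.mod_one]
  | n + 1 => by rw [Finset.sum_range_succ, sum_testBit x n, mod_two_pow_succ_bit]

lemma testBit_succ_add (d i : ℕ) :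
    (d + 1).testBit i = xor (d.testBit i) (decide (d % 2 ^ i = 2 ^ i - 1)) := by
  have hp := Nat.two_pow_pos i
  have key : (d + 1) / 2 ^ i = d / 2 ^ i + if d % 2 ^ i = 2 ^ i - 1 then 1 else 0 := by
    rw [Nat.succ_div]
    congr 1
    refine if_congr ?_ rfl rfl
    rw [Nat.dvd_iff_mod_eq_zero, Nat.add_mod]
    have := Nat.mod_lt d hp
    rcases Nat.lt_or_ge 1 (2 ^ i) with h | h
    · rw [Nat.mod_eq_of_lt h]
      rcases Nat.lt_or_ge (d % 2 ^ i + 1) (2 ^ i) with h' | h'
      · rw [Nat.mod_eq_of_lt h']; omega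
      · have e : d % 2 ^ i + 1 = 2 ^ i := by omega
        rw [e, Nat.mod_self]; omega
    · have e : 2 ^ i = 1 := by omega
      simp [e, Nat.mod_one]
  rw [Nat.testBit_eq_decide_div_mod_eq, Nat.testBit_eq_decide_div_mod_eq, key]
  rcases Nat.mod_two_eq_zero_or_one (d / 2 ^ i) with h | h <;>
    by_cases h' : d % 2 ^ i = 2 ^ i - 1 <;> simp [h, h', Nat.add_mod]

/-! ### Parts of a coordinate -/

lemma lo_lt (L x : ℕ) : lo L x < M L := Nat.mod_lt _ (M_pos L)

lemma parts_eq (L x : ℕ) : lo L x + M L * mid L x + M L ^ 2 * hi L x = x := by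
  rw [lo, mid, hi, pow_two, ← Nat.div_div_eq_div_mul, mul_assoc, add_assoc, ← Nat.mul_add,
    Nat.mod_add_div, Nat.mod_add_div]

lemma eq_iff_parts (L x y : ℕ) :
    x = y ↔ lo L x = lo L y ∧ mid L x = mid L y ∧ hi L x = hi L y := by
  refine ⟨fun h => by subst h; exact ⟨rfl, rfl, rfl⟩, fun h => ?_⟩
  rw [← parts_eq L x, ← parts_eq L y, h.1, h.2.1, h.2.2]

lemma parts_of_eq {L a m h : ℕ} (ha : a < M L) (hm : m < M L) :
    lo L (a + M L * m + M L ^ 2 * h) = a ∧ mid L (a + M L * m + M L ^ 2 * h) = m ∧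
      hi L (a + M L * m + M L ^ 2 * h) = h := by
  have e : a + M L * m + M L ^ 2 * h = a + M L * (m + M L * h) := by ring
  have hdiv : (a + M L * (m + M L * h)) / M L = m + M L * h := by
    rw [Nat.add_mul_div_left _ _ (M_pos L), Nat.div_eq_of_lt ha, zero_add]
  refine ⟨?_, ?_, ?_⟩
  · rw [lo, e, Nat.add_mul_mod_self_left, Nat.mod_eq_of_lt ha]
  · rw [mid, e, hdiv, Nat.add_mul_mod_self_left, Nat.mod_eq_of_lt hm]
  · rw [hi, e, pow_two, ← Nat.div_div_eq_div_mul, hdiv, Nat.add_mul_div_left _ _ (M_pos L),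
      Nat.div_eq_of_lt hm, zero_add]

lemma lo_zero (L : ℕ) : lo L 0 = 0 := Nat.zero_mod _

lemma mid_zero (L : ℕ) : mid L 0 = 0 := by simp [mid]

lemma hi_zero (L : ℕ) : hi L 0 = 0 := Nat.zero_div _

/-! ### Successor by parts -/

lemma parts_succ (L y : ℕ) :
    (lo L (y + 1) = if lo L y = M L - 1 then 0 else lo L y + 1) ∧
    (mid L (y + 1) =
      if lo L y = M L - 1 then (if mid L y = M L - 1 then 0 else mid L y + 1) else mid L y) ∧
    (hi L (y + 1) =
      if lo L y = M L - 1 ∧ mid L y = M L - 1 then hi L y + 1 else hi L y) := by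
  have hM := M_pos L
  have ha := lo_lt L y
  have hm := mid_lt L y
  have e := parts_eq L y
  by_cases h1 : lo L y = M L - 1
  · by_cases h2 : mid L y = M L - 1
    · have e' : y + 1 = 0 + M L * 0 + M L ^ 2 * (hi L y + 1) := by
        obtain ⟨M', hM'⟩ : ∃ M', M L = M' + 1 := ⟨M L - 1, by omega⟩
        rw [h1, h2, hM'] at e
        rw [hM']
        simp only [Nat.add_sub_cancel] at e
        nlinarith [e]
      rw [if_pos h1, if_pos h1, if_pos h2, if_pos ⟨h1, h2⟩, e']
      exact parts_of_eq hM hM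
    · have e' : y + 1 = 0 + M L * (mid L y + 1) + M L ^ 2 * hi L y := by
        rw [Nat.mul_add, mul_one]; omega
      rw [if_pos h1, if_pos h1, if_neg h2, if_neg (fun h => h2 h.2), e']
      exact parts_of_eq hM (by omega)
  · have e' : y + 1 = (lo L y + 1) + M L * mid L y + M L ^ 2 * hi L y := by omega
    rw [if_neg h1, if_neg h1, if_neg (fun h => h1 h.1), e']
    exact parts_of_eq (by omega) hm

lemma succ_parts_mod (L y : ℕ) :
    (lo L y + 1) % M L = lo L ((y + 1) % H L) ∧
    mid L ((y + 1) % H L) =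
      (if lo L y = M L - 1 then (mid L y + 1) % M L else mid L y) ∧
    (y < H L → hi L ((y + 1) % H L) =
      (if lo L y = M L - 1 ∧ mid L y = M L - 1 then (hi L y + 1) % M L else hi L y)) := by
  have hM := M_pos L
  have ha := lo_lt L y
  have hm := mid_lt L y
  obtain ⟨p1, p2, p3⟩ := parts_succ L y
  have e1 : lo L ((y + 1) % H L) = lo L (y + 1) :=
    Nat.mod_mod_of_dvd _ (dvd_pow_self _ (by norm_num))
  have e2 : mid L ((y + 1) % H L) = mid L (y + 1) := by
    unfold mid H
    rw [pow_succ' (M L) 2, Nat.mod_mul_right_div_self, Nat.mod_mod_of_dvd _ (dvd_pow_self _ two_ne_zero)]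
  refine ⟨?_, ?_, fun hy => ?_⟩
  · rw [e1, p1]
    split_ifs with h
    · rw [h, Nat.sub_add_cancel hM, Nat.mod_self]
    · exact Nat.mod_eq_of_lt (by omega)
  · rw [e2, p2]
    split_ifs with h h'
    · rw [h', Nat.sub_add_cancel hM, Nat.mod_self]
    · rw [Nat.mod_eq_of_lt (by omega)]
    · rfl
  · have hh := hi_lt hy
    have e3 : hi L ((y + 1) % H L) = hi L (y + 1) % M L := by
      unfold hi H
      rw [pow_succ (M L) 2, Nat.mod_mul_right_div_self]
    rw [e3, p3]
    split_ifs with h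
    · rfl
    · exact Nat.mod_eq_of_lt hh

end Vale.Agent.P193.W4.Common.Num
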