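import Vale.Agent.P193.W4.Interface
import Vale.Agent.P193.W4.Common.Numbers

/-!
P193, module W4.A (common layer): the numbers of a tile as a word of its level, and the folded
state of a tile. A tile of level `L` has the level `L - L₀` in the interface; the letter `j` sits
at the bit `L₀ + j`, a star is the bit of track `0`.
-/

noncomputable section

namespace Vale.Agent.P193.W4.Common

variable {C : Cfg} {L n : ℕ}

/-! ### Sums of powers of two -/

lemma testBit_bitSum (s : Finset ℕ) (p : ℕ → Bool) (j : ℕ) :
    (∑ i ∈ s, if p i then 2 ^ i else 0).testBit j = (decide (j ∈ s) && p j) := by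
  rw [← Finset.sum_filter, Bool.eq_iff_iff, ← Nat.mem_bitIndices, ← List.mem_toFinset,
    Finset.toFinset_bitIndices_sum_two_pow]
  simp

/-! ### Letters -/

/-- The bits of a star are that of track `0` alone. -/
def WellBits (b : Track C → Bool) : Prop := b 0 = true → ∀ r, r ≠ 0 → b r = false

lemma wellBits_letterBits (o : Option (Full C.k)) : WellBits (letterBits C o) := by
  cases o with
  | none => exact fun _ r hr => by simp [letterBits, hr]
  | some d => intro h; simp [letterBits] at h

lemma letterBits_decode {b : Track C → Bool} (h : WellBits b) :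
    letterBits C (decodeLetter C b) = b := by
  funext r
  cases hb : b 0 with
  | true =>
    by_cases hr : r = 0
    · subst hr; simp [decodeLetter, hb, letterBits]
    · simp [decodeLetter, hb, letterBits, hr, h hb r hr]
  | false =>
    refine Fin.cases ?_ (fun s => ?_) r
    · simp [decodeLetter, hb, letterBits]
    · simp [decodeLetter, hb, letterBits]

lemma letterBits_zero (o : Option (Full C.k)) : letterBits C o 0 = o.isNone := by
  cases o <;> simp [letterBits]

lemma decodeLetter_eq_none (b : Track C → Bool) : decodeLetter C b = none ↔ b 0 = true := by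
  unfold decodeLetter
  split <;> simp_all

/-! ### Words and numbers -/

variable (C) in
/-- The number of a word on a track. -/
def wordNum (w : Word C.k) (r : Track C) : ℕ :=
  Nat.ofBits (fun j : Fin w.length => letterBits C w[j] r) <<< L₀ C

variable (C) in
/-- The word of level `n` with the given numbers. -/
def numWord (n : ℕ) (f : Track C → ℕ) : Word C.k :=
  List.ofFn fun j : Fin n => decodeLetter C fun r => (f r).testBit (L₀ C + j)

lemma testBit_wordNum (w : Word C.k) (r : Track C) (i : ℕ) :
    (wordNum C w r).testBit i = if h : L₀ C ≤ i ∧ i - L₀ C < w.length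
      then letterBits C (w[i - L₀ C]'h.2) r else false := by
  unfold wordNum
  rw [Nat.testBit_shiftLeft]
  by_cases h₁ : L₀ C ≤ i
  · by_cases h₂ : i - L₀ C < w.length
    · rw [dif_pos ⟨h₁, h₂⟩, Nat.testBit_ofBits_lt _ _ h₂]; simp [h₁]
    · rw [dif_neg (fun h => h₂ h.2), Nat.testBit_ofBits_ge _ _ (by omega)]; simp
  · simp [h₁]

lemma testBit_wordNum_add (w : Word C.k) (r : Track C) {j : ℕ} (h : j < w.length) :
    (wordNum C w r).testBit (L₀ C + j) = letterBits C w[j] r := by
  simp [testBit_wordNum, h]

lemma wordNum_lt {w : Word C.k} (h : w.length ≤ n) (r : Track C) :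
    wordNum C w r < 2 ^ (L₀ C + n) := by
  refine Nat.lt_pow_two_of_testBit _ fun i hi => ?_
  rw [testBit_wordNum, dif_neg]
  omega

@[simp] lemma length_numWord (n : ℕ) (f : Track C → ℕ) : (numWord C n f).length = n := by
  simp [numWord]

@[simp] lemma getElem_numWord (n : ℕ) (f : Track C → ℕ) {j : ℕ}
    (h : j < (numWord C n f).length) :
    (numWord C n f)[j] = decodeLetter C fun r => (f r).testBit (L₀ C + j) := by
  simp [numWord]

lemma numWord_wordNum {w : Word C.k} (h : w.length = n) : numWord C n (wordNum C w) = w := by
  refine List.ext_getElem (by simp [h]) fun j hj hj' => ?_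
  rw [getElem_numWord]
  simp only [testBit_wordNum_add w _ hj']
  exact decode_letterBits C _

lemma numWord_congr {f g : Track C → ℕ}
    (h : ∀ r j, j < n → (f r).testBit (L₀ C + j) = (g r).testBit (L₀ C + j)) :
    numWord C n f = numWord C n g := by
  refine List.ext_getElem (by simp) fun j hj _ => ?_
  simp [h _ j (by simpa using hj)]

lemma numWord_take {m : ℕ} (h : n ≤ m) (f : Track C → ℕ) :
    (numWord C m f).take n = numWord C n f :=
  List.ext_getElem (by simp [h]) fun j hj _ => by simp

lemma numWord_mod (f : Track C → ℕ) (hL : L₀ C ≤ L) :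
    numWord C (L - L₀ C) (fun r => f r % 2 ^ L) = numWord C (L - L₀ C) f :=
  numWord_congr fun r j hj => by simp [Nat.testBit_mod_two_pow, show L₀ C + j < L by omega]

/-! ### The shape of a word, bitwise -/

variable (C) in
/-- Numbers showing a word of level `n` below the bit `L₀ + n`. -/
structure NumOK (n : ℕ) (f : Track C → ℕ) : Prop where
  low : ∀ r i, i < L₀ C → (f r).testBit i = false
  star : ∀ j, j < n → (f 0).testBit (L₀ C + j) = true → 0 < j ∧
    (∀ r, r ≠ 0 → (f r).testBit (L₀ C + j) = false) ∧
    (j + 1 < n → (f 0).testBit (L₀ C + j + 1) = true)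

lemma NumOK.mono {m : ℕ} {f : Track C → ℕ} (h : NumOK C m f) (hn : n ≤ m) : NumOK C n f :=
  ⟨h.low, fun j hj hb =>
    ⟨(h.star j (by omega) hb).1, (h.star j (by omega) hb).2.1,
      fun hj' => (h.star j (by omega) hb).2.2 (by omega)⟩⟩

lemma numOK_of_wordOK {w : Word C.k} (h : WordOK n w) : NumOK C n (wordNum C w) := by
  refine ⟨fun r i hi => ?_, fun j hj hb => ?_⟩
  · rw [testBit_wordNum, dif_neg]; omega
  · have hjw : j < w.length := by rw [h.1]; exact hj
    rw [testBit_wordNum_add w 0 hjw, letterBits_zero, Option.isNone_iff_eq_none] at hb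
    refine ⟨(h.2 j hjw hb).1, fun r hr => ?_, fun hj' => ?_⟩
    · rw [testBit_wordNum_add w r hjw, hb]; simp [letterBits, hr]
    · have hjw' : j + 1 < w.length := by rw [h.1]; exact hj'
      rw [Nat.add_assoc, testBit_wordNum_add w 0 hjw', (h.2 j hjw hb).2 (j + 1) hjw' (by omega)]
      simp [letterBits]

lemma NumOK.wordOK {f : Track C → ℕ} (h : NumOK C n f) : WordOK n (numWord C n f) := by
  refine ⟨length_numWord _ _, fun i hi hnone => ?_⟩
  have hi' : i < n := by simpa using hi
  rw [getElem_numWord, decodeLetter_eq_none] at hnone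
  refine ⟨(h.star i hi' hnone).1, fun j hj hij => ?_⟩
  rw [getElem_numWord, decodeLetter_eq_none]
  have hj' : j < n := by simpa using hj
  clear hj
  induction j, hij using Nat.le_induction with
  | base => exact hnone
  | succ j hij ih =>
    exact (h.star j (by omega) (ih (by omega))).2.2 hj'

/-- On numbers of the shape within bounds, reading the word is inverse to numbering it. -/
lemma NumOK.wordNum_numWord {f : Track C → ℕ} (h : NumOK C n f)
    (hf : ∀ r, f r < 2 ^ (L₀ C + n)) : wordNum C (numWord C n f) = f := by
  funext r
  refine Nat.eq_of_testBit_eq fun i => ?_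
  rw [testBit_wordNum]
  by_cases hi : L₀ C ≤ i
  · by_cases hn : i < L₀ C + n
    · rw [dif_pos ⟨hi, by simp; omega⟩, getElem_numWord, show L₀ C + (i - L₀ C) = i by omega,
        letterBits_decode]
      intro hb r hr
      have := (h.star (i - L₀ C) (by omega) (by rwa [show L₀ C + (i - L₀ C) = i by omega])).2.1 r hr
      rwa [show L₀ C + (i - L₀ C) = i by omega] at this
    · have hlt : f r < 2 ^ i := (hf r).trans_le (Nat.pow_le_pow_right two_pos (by omega))
      rw [dif_neg (fun h' => absurd h'.2 (by simp; omega)), Nat.testBit_lt_two_pow hlt]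
  · rw [dif_neg (fun h' => hi h'.1), h.low r i (by omega)]

/-! ### The word and the state of a tile -/

/-- The word of a tile of level `L`. -/
def wordAt (L : ℕ) (t : St C) : Option (Word C.k) :=
  if t.fin.wOn then some (numWord C (L - L₀ C) t.w) else none

lemma WordNum.numOK {t : St C} (h : WordNum L t) (hL : L₀ C ≤ L) : NumOK C (L - L₀ C) t.w := by
  refine ⟨h.low, fun j hj hb => ?_⟩
  obtain ⟨h₁, h₂, h₃⟩ := h.star (L₀ C + j) (by omega) hb
  exact ⟨by omega, h₂, fun hj' => h₃ (by omega)⟩

lemma wordNum_of_numOK {t : St C} (hL : L₀ C ≤ L) (h : NumOK C (L - L₀ C) t.w)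
    (hoff : t.fin.wOn = false → ∀ r, t.w r = 0) : WordNum L t := by
  refine ⟨h.low, hoff, fun i hi hb => ?_⟩
  have hi₀ : L₀ C ≤ i := by
    by_contra hlt
    simp [h.low 0 i (by omega)] at hb
  obtain ⟨j, rfl⟩ := Nat.exists_eq_add_of_le hi₀
  obtain ⟨h₁, h₂, h₃⟩ := h.star j (by omega) hb
  exact ⟨by omega, h₂, fun hi' => h₃ (by omega)⟩

lemma wordOK_wordAt {t : St C} (h : WordNum L t) (hL : L₀ C ≤ L) {w : Word C.k}
    (hw : wordAt L t = some w) : WordOK (L - L₀ C) w := by
  unfold wordAt at hw
  split at hw
  · cases hw; exact (h.numOK hL).wordOK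
  · cases hw

lemma topLetter_wordAt (t : St C) : topLetter (wordAt L t) = (claims L t).ex.top := by
  simp only [claims, wordAt]
  cases t.fin.wOn with
  | false => simp [topLetter]
  | true =>
    by_cases hL : L₀ C < L
    · simp only [↓reduceIte]
      simp only [topLetter, Option.bind_some, List.getLast?_eq_getElem?, length_numWord]
      rw [List.getElem?_eq_getElem (by simp; omega), getElem_numWord,
        show L₀ C + (L - L₀ C - 1) = L - 1 by omega]
      simp [hL]
    · simp [hL, topLetter, numWord, show L - L₀ C = 0 by omega]

/-- The folded state of a tile of level `L`. -/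
def stateAt (L : ℕ) (t : St C) : W4.St C.k where
  flags := (readout (claims L t)).flags
  word := wordAt L t
  hit := (readout (claims L t)).hit

/-! ### The bits of a parent -/

lemma pfOf_enc {b : ℕ → Bits} {t : St C} {L' : ℕ} (hb : ∀ j, b j self = enc L' t j) :
    pfOf C b = readout (claims L' t) := by
  have hcopy : (copyUpTo C b (A C)).val = code (claims L' t) := by
    refine Nat.eq_of_testBit_eq fun i => ?_
    show Nat.testBit (_ % _) i = _
    rw [Nat.testBit_mod_two_pow, show min (A C - AF C) (A C - 2 - AF C) = A C - 2 - AF C by omega,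
      testBit_bitSum _ (fun m => b (AF C + m) self) i]
    by_cases hi : i < A C - 2 - AF C
    · have := AF_lt C
      have hrr : restRow = 67 := rfl
      simp only [Finset.mem_range, hi, decide_true, Bool.true_and, hb]
      rw [enc, if_pos (by omega), finBits]
      simp only [show ¬ AF C + i = 0 by omega, show ¬ AF C + i < 33 by omega,
        show ¬ AF C + i < 65 by omega, show ¬ AF C + i = 65 by omega,
        show ¬ AF C + i = 66 by omega, show ¬ AF C + i < AF C by omega,
        show AF C + i < A C - 2 by omega, if_false, if_true, Nat.add_sub_cancel_left]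
    · simp only [Finset.mem_range, hi, decide_false, Bool.false_and]
      exact (Nat.testBit_lt_two_pow ((Num.code_claims_lt _).trans_le
        (Nat.pow_le_pow_right two_pos (by omega)))).symm
  rw [pfOf, hcopy, Num.claimsOfCopy_code]
  rfl

lemma wOf_enc {b : ℕ → Bits} {t : St C} {L' : ℕ} (hb : ∀ j, b j self = enc L' t j) (hL : L ≤ L')
    (r : Track C) : wOf C L b r = t.w r % 2 ^ L := by
  refine Nat.eq_of_testBit_eq fun i => ?_
  rw [wOf, testBit_bitSum _ (fun i => b (A C + T C * i + 7 + r.val) self) i,
    Nat.testBit_mod_two_pow]
  by_cases hi : i < L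
  · have hT := T_ge C
    have hr := r.isLt
    have h₁ : (A C + T C * i + 7 + r.val - A C) / T C = i := by
      rw [show A C + T C * i + 7 + r.val - A C = (r.val + 7) + T C * i by omega,
        Nat.add_mul_div_left _ _ (by omega), Nat.div_eq_of_lt (by omega), Nat.zero_add]
    have h₂ : (A C + T C * i + 7 + r.val - A C) % T C = r.val + 7 := by
      rw [show A C + T C * i + 7 + r.val - A C = (r.val + 7) + T C * i by omega,
        Nat.add_mul_mod_self_left, Nat.mod_eq_of_lt (by omega)]
    simp only [Finset.mem_range, hi, decide_true, Bool.true_and, hb]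
    rw [enc, if_neg (by omega), h₁, h₂]
    simp [num, show i < L' by omega, r.isLt]
  · simp [hi]

/-- The word shown by the row of level `L` is that emitted at time `L - L₀`. -/
lemma kWord_emitted {em : ℕ → Option (List (Full C.k))} (hem : Emits C.R em)
    (h : emitAt C L = true) : ∃ w, em (L - L₀ C) = some w ∧ w ≠ [] ∧
      kWord C L = wordNum C (padWord (L - L₀ C) w) := by
  rcases hem (L - L₀ C) with ⟨he, -⟩ | ⟨-, w, hw, hs⟩
  · simp [emitAt, cellAt, he] at h
  · refine ⟨w, hw, ?_, ?_⟩
    · rintro rfl
      have := C.first (L - L₀ C) h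
      simp [hs 0 le_rfl] at this
    · funext r
      refine Nat.eq_of_testBit_eq fun i => ?_
      rw [kWord, testBit_bitSum _ (fun i => letterBits C (wordLetter C L (i - L₀ C)) r) i,
        testBit_wordNum]
      by_cases hi : L₀ C ≤ i ∧ i < L
      · rw [dif_pos ⟨hi.1, by simp [padWord]; omega⟩]
        simp only [Finset.mem_Ico, hi, and_self, decide_true, Bool.true_and]
        congr 1
        have hal : aliveAt C L (i - L₀ C) = decide (i - L₀ C < w.length) := by
          unfold aliveAt cellAt
          rw [decide_eq_decide]
          constructor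
          · intro ha
            by_contra hj
            have := ha w.length (by omega)
            simp [hs w.length le_rfl] at this
          · intro hj j hjle
            rw [hs j (by omega), List.getElem?_eq_getElem (by omega)]
            rfl
        simp only [wordLetter, hal, padWord, List.getElem_take]
        by_cases hj : i - L₀ C < w.length
        · rw [List.getElem_append_left (by simpa using hj)]
          simp [hj, cellAt, hs _ hj.le]
        · rw [List.getElem_append_right (by simp; omega)]
          simp [hj]
      · rw [dif_neg (fun h' => hi ⟨h'.1, by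
          have := h'.2
          simp [padWord] at this
          omega⟩)]
        simp [hi]

lemma length_padWord {k : ℕ} (n : ℕ) (w : List (Full k)) : (padWord n w).length = n := by
  simp [padWord]

lemma wordOK_padWord {k : ℕ} (n : ℕ) {w : List (Full k)} (hw : w ≠ []) :
    WordOK n (padWord n w) := by
  refine ⟨length_padWord n w, fun i hi hnone => ?_⟩
  have hi' : w.length ≤ i := by
    by_contra hlt
    simp only [padWord, List.getElem_take] at hnone
    rw [List.getElem_append_left (by simp; omega)] at hnone
    simp at hnone
  refine ⟨(List.length_pos_of_ne_nil hw).trans_le hi', fun j hj hij => ?_⟩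
  simp only [padWord, List.getElem_take]
  rw [List.getElem_append_right (by simp; omega), List.getElem_replicate]

variable {em : ℕ → Option (List (Full C.k))} {b : ℕ → Bits} {t : St C}

lemma wOn_child (hb : ∀ j, b j self = enc (L + 1) t j) (Z : Digits C) :
    childOn L b Z = match sym (Z 2) with
      | some .reset => emitAt C L
      | some .pass => t.fin.wOn
      | _ => false := by
  unfold childOn
  rw [pfOf_enc hb]
  rfl

lemma childWord_reset (hb : ∀ j, b j self = enc (L + 1) t j) {Z : Digits C}
    (hz : sym (Z 2) = some .reset) (h : emitAt C L = true) : childWord L b Z = kWord C L := by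
  funext r
  simp [childWord, wOn_child hb, hz, h]

lemma childWord_pass (hb : ∀ j, b j self = enc (L + 1) t j) {Z : Digits C}
    (hz : sym (Z 2) = some .pass) (h : t.fin.wOn = true) :
    childWord L b Z = fun r => t.w r % 2 ^ L := by
  funext r
  simp [childWord, wOn_child hb, hz, h, wOf_enc hb (by omega : L ≤ L + 1)]

/-- The word of a child is one step of the fold of that of its parent. -/
lemma wordAt_child (hem : Emits C.R em) (hL : L₀ C ≤ L) (τ : ℕ → Bool)
    (hb : ∀ j, b j self = enc (L + 1) t j) (X Y : ℕ) (Z : Digits C) :
    wordAt L (child L τ b X Y Z) =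
      wordStep em (L - L₀ C) (wordAt (L + 1) t) (sym (Z 2)) := by
  simp only [wordAt, child, wOn_child hb]
  rcases hz : sym (Z 2) with _ | (_ | _ | _ | _ | _ | _) <;> simp only [wordStep]
  case some.reset =>
    cases he : emitAt C L with
    | false =>
      rcases hem (L - L₀ C) with ⟨-, hn⟩ | ⟨he', -⟩
      · simp [hn]
      · simp [emitAt, cellAt, he'] at he
    | true =>
      obtain ⟨w, hw, -, hk⟩ := kWord_emitted hem he
      simp [hw, childWord_reset hb hz he, hk, numWord_wordNum (length_padWord _ w)]
  case some.pass =>
    cases hw : t.fin.wOn with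
    | false => simp
    | true =>
      simp only [if_true, Option.map_some, Option.some.injEq]
      rw [numWord_take (by omega), childWord_pass hb hz hw]
      exact numWord_mod t.w hL
  all_goals simp

/-- The state of a child is one step of the fold of that of its parent. -/
lemma stateAt_child (hem : Emits C.R em) (hL : L₀ C ≤ L) (τ : ℕ → Bool)
    (hb : ∀ j, b j self = enc (L + 1) t j) (X Y : ℕ) (Z : Digits C) :
    stateAt L (child L τ b X Y Z) =
      (stateAt (L + 1) t).step em (L - L₀ C) fun i => sym (Z i) := by
  have hw := wordAt_child hem hL τ hb X Y Z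
  have hpf : (child L τ b X Y Z).fin.pf = readout (claims (L + 1) t) := pfOf_enc hb
  have hz : (child L τ b X Y Z).z = Z := rfl
  have htop : (readout (claims (L + 1) t)).top = topLetter (wordAt (L + 1) t) :=
    (topLetter_wordAt t).symm
  simp only [stateAt, W4.St.step]
  refine congr (congrArg₂ W4.St.mk ?_ hw) ?_
  · simp only [readout, claims] at hpf ⊢
    rw [hpf, hz]
  · rw [← hw, topLetter_wordAt, ← htop, ← hpf]
    rfl

/-- The numbers of a child form a word. -/
lemma wordNum_child (hem : Emits C.R em) (hL : L₀ C ≤ L) (τ : ℕ → Bool)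
    (hb : ∀ j, b j self = enc (L + 1) t j) (ht : WordNum (L + 1) t) (X Y : ℕ) (Z : Digits C) :
    WordNum L (child L τ b X Y Z) ∧ ∀ r, (child L τ b X Y Z).w r < M L := by
  show WordNum L (child L τ b X Y Z) ∧ ∀ r, childWord L b Z r < 2 ^ L
  cases hon : childOn L b Z with
  | false =>
    have h0 : ∀ r, childWord L b Z r = 0 := fun r => by simp [childWord, hon]
    refine ⟨wordNum_of_numOK hL ⟨fun r i _ => ?_, fun j _ hb' => ?_⟩ (fun _ r => h0 r),
      fun r => by simp [h0 r]⟩
    · show (childWord L b Z r).testBit i = false
      simp [h0 r]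
    · exact absurd (show (childWord L b Z 0).testBit (L₀ C + j) = true from hb') (by simp [h0 0])
  | true =>
    have hoff : (child L τ b X Y Z).fin.wOn = false → ∀ r, (child L τ b X Y Z).w r = 0 :=
      fun h => absurd (show childOn L b Z = false from h) (by simp [hon])
    rw [wOn_child hb] at hon
    rcases hz : sym (Z 2) with _ | (_ | _ | _ | _ | _ | _) <;> simp only [hz] at hon
    case some.reset =>
      obtain ⟨w, -, hne, hk⟩ := kWord_emitted hem hon
      have hc := childWord_reset hb hz hon
      refine ⟨wordNum_of_numOK hL (show NumOK C (L - L₀ C) (childWord L b Z) from ?_) hoff,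
        fun r => ?_⟩
      · rw [hc, hk]; exact numOK_of_wordOK (wordOK_padWord _ hne)
      · rw [hc, hk]
        have := wordNum_lt (C := C) (n := L - L₀ C) (length_padWord _ w).le r
        rwa [Nat.add_sub_cancel' hL] at this
    case some.pass =>
      have hc := childWord_pass hb hz hon
      refine ⟨wordNum_of_numOK hL (show NumOK C (L - L₀ C) (childWord L b Z) from ?_) hoff,
        fun r => by rw [hc]; exact Nat.mod_lt _ (Nat.two_pow_pos _)⟩
      have h := (ht.numOK (by omega)).mono (n := L - L₀ C) (by omega)
      rw [hc]
      refine ⟨fun r i hi => ?_, fun j hj hb' => ?_⟩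
      · simp [Nat.testBit_mod_two_pow, h.low r i hi]
      · simp only [Nat.testBit_mod_two_pow, show L₀ C + j < L by omega, decide_true,
          Bool.true_and] at hb' ⊢
        refine ⟨(h.star j hj hb').1, (h.star j hj hb').2.1, fun hj' => ?_⟩
        simp only [show L₀ C + j + 1 < L by omega, decide_true, Bool.true_and]
        exact (h.star j hj hb').2.2 hj'
    all_goals simp at hon

end Vale.Agent.P193.W4.Common
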