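import Vale.Agent.P193.W4.Common.Facts.Claims
import Vale.Agent.P193.W4.Common.Words

/-!
P193, module W4.A (common layer): the numerical rules and the rules of the fold on children.
-/

noncomputable section

namespace Vale.Agent.P193.W4.Common.Children

variable {C : Cfg} {L : ℕ}

/-! ### Bounds and words -/

lemma childWord_lt (L : ℕ) (b : ℕ → Bits) (Z : Digits C) (r : Track C) :
    childWord L b Z r < M L := by
  refine Nat.lt_pow_two_of_testBit _ fun i hi => ?_
  unfold childWord
  split
  · split
    · rw [kWord, testBit_sum _ (fun i => letterBits C (wordLetter C L (i - L₀ C)) r) i,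
        decide_eq_false (by simp [Finset.mem_Ico]; omega), Bool.false_and]
    · rw [wOf, testBit_sum _ (fun i => b (A C + T C * i + 7 + r.val) self) i,
        decide_eq_false (by simp; omega), Bool.false_and]
  · simp

lemma inBounds_child (L : ℕ) (τ : ℕ → Bool) (b : ℕ → Bits) (X Y : ℕ) (Z : Digits C) :
    InBounds L (child L τ b X Y Z) := by
  have hH := H_pos L
  refine ⟨Nat.mod_lt _ hH, Nat.mod_lt _ hH, ?_, fun r => childWord_lt L b Z r⟩
  show (if _ then _ else _) < M L
  split_ifs
  · exact Nat.mod_lt _ (M_pos L)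
  · exact M_pos L

lemma wordLetter_succ_none {L j : ℕ} (h : wordLetter C L j = none) :
    wordLetter C L (j + 1) = none := by
  unfold wordLetter at h ⊢
  split_ifs with h1
  · have ha : aliveAt C L j = true := by
      simp only [aliveAt, decide_eq_true_iff] at h1 ⊢
      exact fun i hi => h1 i (by omega)
    rw [if_pos ha] at h
    simp only [aliveAt, decide_eq_true_iff] at h1
    have := h1 j (by omega)
    simp [h] at this
  · rfl

lemma wordNum_kWord (L : ℕ) {t : St C} (hem : emitAt C L = true) (hw : t.w = kWord C L)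
    (hon : t.fin.wOn = true) : WordNum L t := by
  have hb : ∀ r i, (t.w r).testBit i =
      (decide (i ∈ Finset.Ico (L₀ C) L) && letterBits C (wordLetter C L (i - L₀ C)) r) := fun r i => by
    rw [hw, kWord, testBit_sum _ (fun i => letterBits C (wordLetter C L (i - L₀ C)) r) i]
  refine ⟨fun r i hi => ?_, fun h => absurd (hon.symm.trans h) Bool.noConfusion, fun i hi hs => ?_⟩
  · rw [hb, decide_eq_false (by simp [Finset.mem_Ico]; omega), Bool.false_and]
  · rw [hb, Bool.and_eq_true, decide_eq_true_iff, Finset.mem_Ico, letterBits_zero,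
      Option.isNone_iff_eq_none] at hs
    refine ⟨fun e => ?_, fun r hr => ?_, fun hi' => ?_⟩
    · have h0 : aliveAt C L 0 = true := by
        simp only [aliveAt, decide_eq_true_iff]
        intro j hj
        rw [show j = 0 by omega]
        exact C.first _ hem
      have hn := hs.2
      rw [e, Nat.sub_self, wordLetter, if_pos h0] at hn
      have := C.first (L - L₀ C) hem
      simp [cellAt] at hn
      simp [hn] at this
    · rw [hb, hs.2]
      simp [letterBits, hr]
    · rw [hb, decide_eq_true (by simp [Finset.mem_Ico]; omega), Bool.true_and, letterBits_zero,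
        show i + 1 - L₀ C = i - L₀ C + 1 by omega, wordLetter_succ_none hs.2]
      rfl

/-- The numbers of a child of a parent with a word form a word. -/
theorem wordNum_child {b : ℕ → Bits} {t : St C} (hb : ∀ j, b j self = enc (L + 1) t j)
    (ht : WordNum (L + 1) t) (τ : ℕ → Bool) (X Y : ℕ) (Z : Digits C) :
    WordNum L (child L τ b X Y Z) := by
  cases hon : childOn L b Z with
  | false =>
    have h0 : ∀ r, (child L τ b X Y Z).w r = 0 := fun r => by
      show childWord L b Z r = 0
      simp [childWord, hon]
    exact ⟨fun r i _ => by simp [h0 r], fun _ => h0, fun i _ hs => by simp [h0 0] at hs⟩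
  | true =>
    have hon' := hon
    rw [wOn_child hb] at hon
    rcases hz : sym (Z 2) with _ | (_ | _ | _ | _ | _ | _) <;> simp only [hz] at hon
    case some.reset => exact wordNum_kWord L hon (childWord_reset hb hz hon) hon'
    case some.pass =>
      have hw : (child L τ b X Y Z).w = fun r => t.w r % 2 ^ L := childWord_pass hb hz hon
      refine ⟨fun r i hi => ?_, fun h => absurd (hon'.symm.trans h) Bool.noConfusion,
        fun i hi hs => ?_⟩
      · simp [hw, Nat.testBit_mod_two_pow, ht.low r i hi]
      · simp only [hw, Nat.testBit_mod_two_pow, hi, decide_true, Bool.true_and] at hs ⊢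
        obtain ⟨h1, h2, h3⟩ := ht.star i (by omega) hs
        refine ⟨h1, h2, fun hi' => ?_⟩
        simp only [hi', decide_true, Bool.true_and]
        exact h3 (by omega)
    all_goals simp at hon

/-! ### The counter -/

lemma rowIdx_le_hi (L y : ℕ) : rowIdx L y ≤ hi L y := Nat.div_le_div_right (Nat.sub_le _ _)

/-- The step of the counter. -/
theorem counter_child (hL : L₀ C ≤ L) (τ : ℕ → Bool) (b b' : ℕ → Bits) {X Y Y' : ℕ}
    (Z Z' : Digits C) (hX : X < H L) (hY : Y < H L) (hY' : Y' < H L) (hYY : (Y' + 1) % H L = Y) :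
    CounterNum L (child L τ b X Y Z) (child L τ b' X Y' Z') := by
  have hT := T_pos C
  obtain ⟨hB50, hk, hBM, hYM⟩ := bounds_M hL
  have hAY := A_lt_YB C
  unfold CounterNum
  by_cases hg : (IsCol L X 3 ∧ lo L X = 0) ∧ Y ≠ 0 ∧ A C ≤ hi L Y
  · obtain ⟨hs, hy0, hA⟩ := hg
    rw [if_pos (by
      rw [Bool.and_eq_true, Bool.and_eq_true, decide_eq_true_iff, Bool.not_eq_true',
        decide_eq_false_iff_not, claims_yhC τ b X Y Z hY, child_y τ b X Y Z hY]
      exact ⟨⟨(claims_scan τ b X Y Z hX).2 hs, hy0⟩, by omega⟩)]
    obtain ⟨y, rfl⟩ : ∃ y, Y = y + 1 := ⟨Y - 1, by omega⟩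
    obtain rfl : y = Y' := by
      rcases Nat.lt_or_ge (Y' + 1) (H L) with h | h
      · rw [Nat.mod_eq_of_lt h] at hYY; omega
      · rw [show Y' + 1 = H L by omega, Nat.mod_self] at hYY; omega
    obtain ⟨hnw, hdw, hw1, hn⟩ := rows_succ hL y
    rw [child_u τ b X (y + 1) Z hX hY, child_u τ b' X y Z' hX hY']
    by_cases hw : IsWire L (y + 1)
    · obtain ⟨-, hr, -, hpos⟩ := hw1 hw
      obtain ⟨hMy, hr'⟩ := hpos (by have := A_ge C; omega)
      have hcu : IsCol L X 3 ∧ lo L X = 0 ∧ M L ≤ y + 1 ∧ A C ≤ rowIdx L (y + 1) :=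
        ⟨hs.1, hs.2, by omega, by omega⟩
      rw [if_pos hcu]
      have hwi : (claims L (child L τ b X (y + 1) Z)).isWire = true :=
        (claims_wire τ b X (y + 1) Z hY).2 hw
      rw [hwi, Bool.true_and, claims_yhMod τ b X (y + 1) Z hY, claims_yhC τ b X (y + 1) Z hY, hr]
      obtain ⟨c, hc⟩ := T_dvd_A C
      have em : hi L (y + 1) % T C = (hi L (y + 1) - A C) % T C := by
        conv_lhs => rw [show hi L (y + 1) = (hi L (y + 1) - A C) + T C * c by omega,
          Nat.add_mul_mod_self_left]
      rw [em]
      obtain ⟨n, hn'⟩ : ∃ n, n = hi L (y + 1) - A C := ⟨_, rfl⟩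
      rw [← hn']
      by_cases h0 : n % T C = 0
      · simp only [h0, decide_true, if_true]
        by_cases he : hi L (y + 1) = A C
        · rw [if_pos (by omega), show n = 0 by omega, Nat.zero_div, pow_zero,
            Nat.mod_eq_of_lt (by omega)]
        · rw [if_neg (by omega), if_pos ⟨hs.1, hs.2, hMy, by omega⟩,
            show rowIdx L y - A C = n - 1 by omega]
          obtain ⟨p, hp⟩ := Nat.dvd_of_mod_eq_zero h0
          obtain ⟨p', rfl⟩ : ∃ p', p = p' + 1 := ⟨p - 1, by
            rcases Nat.eq_zero_or_pos p with rfl | h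
            · omega
            · omega⟩
          rw [show n - 1 = (T C - 1) + T C * p' by rw [hp, Nat.mul_add, Nat.mul_one]; omega,
            Nat.add_mul_div_left _ _ hT, Nat.div_eq_of_lt (show T C - 1 < T C by omega), Nat.zero_add, hp,
            Nat.mul_div_cancel_left _ hT, pow_succ', Nat.mul_mod_mod]
      · simp only [h0, decide_false, Bool.false_eq_true, if_false]
        have hne : hi L (y + 1) ≠ A C := fun e => h0 (by rw [hn', e, Nat.sub_self, Nat.zero_mod])
        rw [if_pos ⟨hs.1, hs.2, hMy, by omega⟩, show rowIdx L y - A C = n - 1 by omega]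
        have e := Nat.div_add_mod n (T C)
        have := Nat.mod_lt n hT
        rw [show n - 1 = (n % T C - 1) + T C * (n / T C) by omega, Nat.add_mul_div_left _ _ hT,
          Nat.div_eq_of_lt (show n % T C - 1 < T C by omega), Nat.zero_add]
    · have hwi : (claims L (child L τ b X (y + 1) Z)).isWire = false :=
        Bool.eq_false_iff.2 fun h => hw ((claims_wire τ b X (y + 1) Z hY).1 h)
      rw [hwi, Bool.false_and, if_neg Bool.false_ne_true]
      have hM1 : M L ≤ y + 1 := by
        by_contra hc
        have : y + 1 < M L ^ 2 := lt_of_lt_of_le (by omega) (M_le_sq L)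
        rw [hi, Nat.div_eq_of_lt this] at hA
        have := A_ge C
        omega
      by_cases hwy : IsWire L y
      · obtain ⟨hr, -, hMy, hr', -⟩ := hdw hwy
        rw [hr, hr']
        simp [hMy, show M L ≤ y + 1 by omega]
      · obtain ⟨-, hiff, e⟩ := hn hwy hw
        rw [e]
        simp [hiff]
  · rw [if_neg ?_, child_u τ b X Y Z hX hY, if_neg]
    · rintro ⟨h1, h2, h3, h4⟩
      exact hg ⟨⟨h1, h2⟩, by have := M_pos L; omega, h4.trans (rowIdx_le_hi L Y)⟩
    · rw [Bool.and_eq_true, Bool.and_eq_true, decide_eq_true_iff, Bool.not_eq_true',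
        decide_eq_false_iff_not, claims_yhC τ b X Y Z hY, child_y τ b X Y Z hY]
      rintro ⟨⟨h1, h2⟩, h3⟩
      exact hg ⟨(claims_scan τ b X Y Z hX).1 h1, h2, by omega⟩

/-! ### What neighbouring parents hand down -/

/-- The parents of two neighbours along the axis `a`. -/
structure Nbr (L : ℕ) (a : Fin 5) (p p' : St C) : Prop where
  num : EdgeNum L a p p'
  plane : a.val < 2 → p.fin.pf = p'.fin.pf
  counter : ∀ i, a = zAx i → p.fin.pf.Beside i p'.fin.pf
  on : a ≠ 4 → p.fin.wOn = p'.fin.wOn

lemma PF.Beside.refl (i : Fin 3) (p : PF C) : p.Beside i p := by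
  constructor <;> intros <;> rfl

lemma readout_plane {a : Fin 5} {p p' : St C} (h : Nbr L a p p') (ha : a.val < 2) :
    readout (claims L p) = readout (claims L p') := by
  have h4 : a ≠ 4 := fun e => by simp [e] at ha
  have hz : p.z = p'.z := funext fun i => by
    have := h.num.2.2.2.2 i
    rwa [if_neg fun e => by rw [e] at ha; simp [zAx] at ha] at this
  simp only [readout, claims, hz, h.plane ha, h.on h4, h.num.2.2.2.1 h4]

lemma zAx_ne {i j : Fin 3} (h : i ≠ j) : zAx i ≠ zAx j := fun e => h (by
  simpa [zAx, Fin.ext_iff] using e)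

/-- Readouts of neighbours agree in what does not depend on the axis. -/
theorem readout_beside {i : Fin 3} {p p' : St C} (h : Nbr L (zAx i) p p') :
    (readout (claims L p)).Beside i (readout (claims L p')) := by
  have hz : ∀ j, i ≠ j → p.z j = p'.z j := fun j hj => by
    have := h.num.2.2.2.2 j
    rwa [if_neg (zAx_ne hj)] at this
  have hb := h.counter i rfl
  have h4 : i ≠ 2 → zAx i ≠ (4 : Fin 5) := fun hi e => hi (by
    apply Fin.ext; simp [zAx, Fin.ext_iff] at e; simp; omega)
  have htop : i ≠ 2 → (claims L p).ex.top = (claims L p').ex.top := fun hi => by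
    simp only [claims, h.on (h4 hi), h.num.2.2.2.1 (h4 hi)]
  constructor
  · intro j h1 h2
    simp only [readout, Flags.step, claims, hz j h1, hz (j + 1) h2, hb.eq j h1 h2]
    all_goals rfl
  · intro j h1 h2
    simp only [readout, Flags.step, claims, hz j h1, hz (j + 1) h2, hb.peq j h1 h2]
    all_goals rfl
  · intro j h1 h2
    simp only [readout, Flags.step, claims, hz j h1, hz (j + 1) h2, hb.eq j h1 h2, hb.rel j h1 h2,
      hb.wasH (j + 1) h2]
    all_goals rfl
  · intro j h1 h2
    simp only [readout, Flags.step, claims, hz j h1, hz (j + 1) h2, hb.peq j h1 h2,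
      hb.prel j h1 h2, hb.wasP (j + 1) h2]
    all_goals rfl
  · intro hi
    subst hi
    simp only [readout, Flags.step, claims, hz 0 (by decide), hz 1 (by decide), hb.br rfl]
    all_goals rfl
  · intro j h1
    simp only [readout, Flags.step, claims, hz j h1]
    all_goals rfl
  · intro j h1
    simp only [readout, Flags.step, claims, hz j h1]
    all_goals rfl
  · intro hi
    exact h.on (h4 hi)
  · intro hi
    exact htop hi
  · intro hi
    subst hi
    simp only [readout]
    rw [htop (by decide)]
    simp only [claims, matchStep, hz 0 (by decide), hz 2 (by decide), hb.hit rfl,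
      hb.top (by decide)]
    all_goals rfl

end Vale.Agent.P193.W4.Common.Children
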