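import Vale.Agent.P193.W4.Common.Children
import Vale.Agent.P193.W4.Common.EndOK
import Vale.Agent.P193.W4.Common.Facts.Steps

/-!
P193, module W4.A (common layer): the windows of the children of a valid window are valid, and
every level has a valid window.
-/

noncomputable section

namespace Vale.Agent.P193.W4.Common.Complete

open Children

variable {C : Cfg} {L X Y : ℕ} {Z : Digits C}

lemma guestBits_none (b : ℕ → Bits) : guestBits (fun _ => false) b = b := by
  funext k g
  simp [guestBits]

lemma own_bits (δ : Guest) (q : Win (St C)) (j : ℕ) :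
    guestBits δ (quadBits (L + 1) q) j self = enc (L + 1) (q δ) j := by
  simp [guestBits, self, quadBits]

lemma back_self (a : Fin 5) : back self a = axis a := by
  funext c
  simp [back, self, axis]

/-- The parent of a tile of a window. -/
def par (X Y : ℕ) (Z : Digits C) (g : Guest) : Guest := fun a => g a && atFirst X Y Z a

/-- The digits of a tile of a window. -/
def digs (Z : Digits C) (g : Guest) : Digits C :=
  fun i => if g (zAx i) then predDigit (Z i) else Z i

/-- The position of a tile of a window on a plane axis. -/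
def pos (L X : ℕ) (e : Bool) : ℕ := if e then pred' L X else X

lemma pos_lt (hX : X < H L) (e : Bool) : pos L X e < H L := by
  cases e
  · exact hX
  · exact pred'_lt L X

lemma window_eq (τ : ℕ → Bool) (b : ℕ → Bits) (g : Guest) :
    window L τ b X Y Z g = child L τ (guestBits (par X Y Z g) b) (pos L X (g 0)) (pos L Y (g 1))
      (digs Z g) := rfl

lemma par_back (X Y : ℕ) (Z : Digits C) (g : Guest) (a : Fin 5) :
    par X Y Z (back g a) =
      if atFirst X Y Z a then back (par X Y Z g) a else par X Y Z g := by
  funext c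
  by_cases hc : c = a
  · subst hc
    cases h : atFirst X Y Z c <;> simp [par, back, h]
  · cases atFirst X Y Z a <;> simp [par, back, hc]

/-- Away from the last positions a tile of a window lies in the parent of the upper tile. -/
lemma par_interior (hL : L₀ C ≤ L) (hX : X < H L) (hY : Y < H L) (g : Guest)
    (hx : pos L X (g 0) + 1 ≠ H L) (hy : pos L Y (g 1) + 1 ≠ H L)
    (hm : MidDigits (digs Z g)) : par X Y Z g = fun _ => false := by
  funext a
  by_contra hc
  rw [Bool.not_eq_false, par, Bool.and_eq_true] at hc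
  have hH := H_pos L
  obtain ⟨h1, h2⟩ := hc
  fin_cases a
  · simp [atFirst] at h2 h1
    rcases pred_cases hX with ⟨-, e⟩ | ⟨e, -⟩
    · simp [pos, h1] at hx; omega
    · omega
  · simp [atFirst] at h2 h1
    rcases pred_cases hY with ⟨-, e⟩ | ⟨e, -⟩
    · simp [pos, h1] at hy; omega
    · omega
  all_goals
    simp [atFirst] at h2
  · have := (hm 0).2
    rcases predDigit_cases (Z 0) with ⟨-, e⟩ | ⟨e, -⟩
    · simp [digs, show g (zAx 0) = true from h1] at this; omega
    · simp [h2] at e
  · have := (hm 1).2
    rcases predDigit_cases (Z 1) with ⟨-, e⟩ | ⟨e, -⟩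
    · simp [digs, show g (zAx 1) = true from h1] at this; omega
    · simp [h2] at e
  · have := (hm 2).2
    rcases predDigit_cases (Z 2) with ⟨-, e⟩ | ⟨e, -⟩
    · simp [digs, show g (zAx 2) = true from h1] at this; omega
    · simp [h2] at e

lemma table_of_input {s : Sig C} {xl : ℕ} (hs : InS s) (h : tableInput s xl) :
    table C xl = true := by
  unfold table
  simpa using ⟨s, hs, h⟩

/-- All guests are shown on the wire rows at inner columns. -/
lemma shownH_all (hL : L₀ C ≤ L) {x m : ℕ} (hc : IsCol L x m) (h1 : 1 ≤ m) (h7 : m < 7)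
    (hm : MidDigits Z) (g : Guest) : ShownH L x Z g := by
  obtain ⟨h0, h2⟩ := col_range hL hc h1 h7
  exact ⟨fun h => by omega, fun h => by omega,
    fun i => ⟨fun h => absurd h (by have := (hm i).1; omega),
      fun h => absurd h (by have := (hm i).2; omega)⟩⟩

/-- The spare rows of the children. -/
lemma spareOK_child (hL : L₀ C ≤ L) (hX : X < H L) (hY : Y < H L) (q : Win (St C)) (g : Guest) :
    SpareOK (cell L (window L (table C) (quadBits (L + 1) q) X Y Z g)) := by
  have hH := H_pos L
  have hxx := pos_lt hX (g 0)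
  have hyy := pos_lt hY (g 1)
  obtain ⟨hL50, hlK, hBM, hYM⟩ := bounds_M hL
  have hAY := A_lt_YB C
  have hAF := AF_lt C
  rw [window_eq]
  constructor
  · intro hw hk hmod e
    rw [claims_yhC _ _ _ _ _ hyy] at hk
    rw [claims_yhMod _ _ _ _ _ hyy] at hmod
    rw [child_h _ _ _ _ _ hxx hyy]
    split_ifs with h
    · have hz : ∀ j, quadBits (L + 1) q (hi L (pos L Y (g 1))) j = false := fun j => by
        show enc (L + 1) (q j) _ = false
        have e2 : C.k + 9 ≤ (hi L (pos L Y (g 1)) - A C) % T C := by
          rwa [mod_T_sub (by omega)]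
        obtain ⟨n, hn⟩ : ∃ n, (hi L (pos L Y (g 1)) - A C) % T C = n + 7 :=
          ⟨_ - 7, (Nat.sub_add_cancel (by omega)).symm⟩
        rw [enc, if_neg (by omega), hn]
        simp only [num]
        rw [dif_neg (by omega)]
        simp
      unfold guestBits
      rw [hz]
      simp
    · rfl
  · intro hw hk hm hbd hd e
    rw [claims_yhC _ _ _ _ _ hyy] at hk
    rw [claims_middle] at hm
    rw [claims_bundle _ _ _ _ _ hxx] at hbd
    rw [claims_wire _ _ _ _ _ hyy] at hw
    have hi1 : hi L (pos L Y (g 1)) = A C - 1 := by omega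
    have hlive : IsLive C L (pos L Y (g 1)) := ⟨hw, by rw [hi1]; unfold lastK; omega⟩
    have hp : par X Y Z g = fun _ => false := by
      refine par_interior hL hX hY g (fun h => ?_) (fun h => ?_) hm
      · have := (col_range hL hbd.1 le_rfl (by norm_num)).2
        have := (cuts_lt hL).2.1
        omega
      · exact (rows_zero hL).2.1 (by rwa [show H L - 1 = pos L Y (g 1) by omega])
    rw [child_h _ _ _ _ _ hxx hyy, if_pos ⟨hlive, shownH_all hL hbd.1 le_rfl (by norm_num) hm e⟩,
      hp, guestBits_none, hi1]
    show enc (L + 1) (q e) (A C - 1) = true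
    unfold restRow at hAF
    rw [enc, if_pos (by omega), finBits, if_neg (by omega), if_neg (by omega), if_neg (by omega),
      if_neg (by omega), if_neg (by omega), if_neg (by omega), if_neg (by omega)]
    simp
    omega

/-- A window of children is valid as soon as it passes the checks between a tile and the one
below it. -/
theorem valid_window (hL : L₀ C ≤ L) (hX : X < H L) (hY : Y < H L) (q : Win (St C))
    (hword : ∀ δ, WordNum (L + 1) (q δ)) (hreach : ∀ δ, (q δ).fin.pf.flags.Reach)
    (hnbr : ∀ δ a, δ a = false → atFirst X Y Z a = true →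
      Nbr (L + 1) a (q δ) (q (back δ a)))
    (hpair : ∀ g : Guest, g 1 = false →
      AcceptPair (cell L (window L (table C) (quadBits (L + 1) q) X Y Z g))
        (cell L (window L (table C) (quadBits (L + 1) q) X Y Z (back g 1)))) :
    Valid L (window L (table C) (quadBits (L + 1) q) X Y Z) := by
  have hb := fun δ => own_bits (L := L) δ q
  have hpf : ∀ g, (window L (table C) (quadBits (L + 1) q) X Y Z g).fin.pf =
      readout (claims (L + 1) (q (par X Y Z g))) := fun g => pfOf_enc (hb _)
  have edge : ∀ g a, g a = false →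
      (par X Y Z (back g a) = par X Y Z g) ∨
        (par X Y Z (back g a) = back (par X Y Z g) a ∧
          Nbr (L + 1) a (q (par X Y Z g)) (q (par X Y Z (back g a)))) := fun g a hg => by
    rw [par_back]
    cases h : atFirst X Y Z a
    · exact Or.inl rfl
    · exact Or.inr ⟨rfl, hnbr _ a (by simp [par, hg]) h⟩
  have hdig : ∀ g a i, g a = false → a ≠ zAx i → digs Z (back g a) i = digs Z g i :=
    fun g a i _ hai => by simp [digs, back, Ne.symm hai]
  have hz2 : ∀ g a, g a = false → a ≠ 4 → digs Z (back g a) 2 = digs Z g 2 :=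
    fun g a hg h4 => hdig g a 2 hg h4
  have hon : ∀ g a, g a = false → a ≠ 4 →
      (q (par X Y Z g)).fin.wOn = (q (par X Y Z (back g a))).fin.wOn ∧
        (q (par X Y Z g)).w = (q (par X Y Z (back g a))).w := fun g a hg h4 => by
    rcases edge g a hg with h | ⟨-, h⟩
    · rw [h]; exact ⟨rfl, rfl⟩
    · exact ⟨h.on h4, h.num.2.2.2.1 h4⟩
  have hchild : ∀ g a, g a = false → a ≠ 4 →
      childOn L (guestBits (par X Y Z g) (quadBits (L + 1) q)) (digs Z g) =
          childOn L (guestBits (par X Y Z (back g a)) (quadBits (L + 1) q)) (digs Z (back g a)) ∧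
        childWord L (guestBits (par X Y Z g) (quadBits (L + 1) q)) (digs Z g) =
          childWord L (guestBits (par X Y Z (back g a)) (quadBits (L + 1) q))
            (digs Z (back g a)) := fun g a hg h4 => by
    obtain ⟨h1, h2⟩ := hon g a hg h4
    have e : childOn L (guestBits (par X Y Z g) (quadBits (L + 1) q)) (digs Z g) =
        childOn L (guestBits (par X Y Z (back g a)) (quadBits (L + 1) q)) (digs Z (back g a)) := by
      rw [wOn_child (hb _), wOn_child (hb _), hz2 g a hg h4, h1]
    refine ⟨e, funext fun r => ?_⟩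
    unfold childWord
    rw [e, hz2 g a hg h4, wOf_enc (hb _) (Nat.le_succ L), wOf_enc (hb _) (Nat.le_succ L), h2]
  refine ⟨⟨fun g => ?_, fun g a hg => ?_, ⟨L, table C, _, X, Y, Z, hL, hX, hY, rfl⟩,
    ⟨hpair, fun g => spareOK_child hL hX hY q g⟩, ?_⟩, fun g hz => ?_⟩
  · rw [window_eq]
    exact ⟨inBounds_child L _ _ _ _ _, Children.wordNum_child (hb _) (hword _) _ _ _ _⟩
  · rw [window_eq, window_eq]
    have hXX : ∀ {n : ℕ}, n < H L → (pred' L n + 1) % H L = n := fun {n} hn => by
      rcases pred_cases hn with ⟨e, e'⟩ | ⟨-, e'⟩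
      · rw [e', e, Nat.sub_add_cancel (H_pos L), Nat.mod_self]
      · rw [e', Nat.mod_eq_of_lt hn]
    refine ⟨?_, ?_, fun h2 => ?_, fun h4 => (hchild g a hg h4).2, fun i => ?_⟩
    · rw [child_x _ _ _ _ _ (pos_lt hX _), child_x _ _ _ _ _ (pos_lt hX _)]
      split_ifs with h
      · subst h
        simp [pos, back, hg, hXX hX]
      · simp [pos, back, Ne.symm h]
    · split_ifs with h
      · subst h
        have e : (pos L Y (back g 1 1) + 1) % H L = pos L Y (g 1) := by
          simp [pos, back, hg, hXX hY]
        refine ⟨?_, ?_⟩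
        · rw [child_y _ _ _ _ _ (pos_lt hY _), child_y _ _ _ _ _ (pos_lt hY _), e]
        · have e0 : back g 1 0 = g 0 := by simp [back]
          rw [e0]
          exact counter_child hL _ _ _ _ _ (pos_lt hX _) (pos_lt hY _) (pos_lt hY _) e
      · rw [child_y _ _ _ _ _ (pos_lt hY _), child_y _ _ _ _ _ (pos_lt hY _)]
        simp [pos, back, Ne.symm h]
    · rw [child_u _ _ _ _ _ (pos_lt hX _) (pos_lt hY _),
        child_u _ _ _ _ _ (pos_lt hX _) (pos_lt hY _)]
      have e0 : back g a 0 = g 0 := by
        have : (0 : Fin 5) ≠ a := fun e => by subst e; simp at h2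
        simp [back, this]
      have e1 : back g a 1 = g 1 := by
        have : (1 : Fin 5) ≠ a := fun e => by subst e; simp at h2
        simp [back, this]
      rw [e0, e1]
    · rw [child_z, child_z]
      split_ifs with h
      · subst h
        simp only [digs, hg, back, decide_true, Bool.or_true, if_true, Bool.false_eq_true, if_false]
        rcases predDigit_cases (Z i) with ⟨e, e'⟩ | ⟨-, e'⟩
        · rw [e', e, Nat.mod_self]
        · rw [e', Nat.mod_eq_of_lt (Z i).isLt]
      · exact (hdig g a i hg h).symm
  · refine ⟨fun g => ?_, fun g a hg ha => ?_, fun g i hg => ?_, fun g a hg h4 => ?_⟩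
    · show (window L (table C) _ X Y Z g).fin.pf.flags.Reach
      rw [hpf]
      exact Flags.Reach.step _ (hreach _)
    · show (window L (table C) _ X Y Z g).fin.pf = (window L (table C) _ X Y Z (back g a)).fin.pf
      rw [hpf, hpf]
      rcases edge g a hg with h | ⟨-, h⟩
      · rw [h]
      · exact readout_plane h ha
    · show (window L (table C) _ X Y Z g).fin.pf.Beside i
        (window L (table C) _ X Y Z (back g (zAx i))).fin.pf
      rw [hpf, hpf]
      rcases edge g (zAx i) hg with h | ⟨-, h⟩
      · rw [h]; exact PF.Beside.refl i _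
      · exact readout_beside h
    · exact (hchild g a hg h4).1
  · rw [window_eq] at hz ⊢
    rw [claims_zone _ _ _ _ _ (pos_lt hX _) (pos_lt hY _)] at hz
    rw [child_v _ _ _ _ _ (pos_lt hX _) (pos_lt hY _), if_pos hz,
      child_x _ _ _ _ _ (pos_lt hX _)]

/-- A tile and the tile below it pass the checks when their parent is valid. -/
lemma acceptPair_child (hL : L₀ C ≤ L) (hX : X < H L) (hY : Y < H L) (q : Win (St C))
    (hv : Valid (L + 1) q) {g : Guest} (hg : g 1 = false) :
    AcceptPair (cell L (window L (table C) (quadBits (L + 1) q) X Y Z g))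
      (cell L (window L (table C) (quadBits (L + 1) q) X Y Z (back g 1))) := by
  obtain ⟨hn0, hnH, hMH, hrow, hhiH, -, -⟩ := rows_zero hL
  obtain ⟨hL50, hlK, hBM, hYM⟩ := bounds_M hL
  have hAY := A_lt_YB C
  have hA := A_ge C
  have hAF := AF_lt C
  have hT := T_ge C
  have hBL : B C + 1 ≤ L := by have := (le_L₀ C).trans hL; omega
  obtain ⟨⟨hbd, hE, hInS⟩, hTab⟩ := hv
  have hbits := Scanning.reads_quadBits L q
  have hxx := pos_lt hX (g 0)
  obtain ⟨Xp, hXp⟩ : ∃ Xp, Xp = pos L X (g 0) := ⟨_, rfl⟩
  obtain ⟨Zp, hZp⟩ : ∃ Zp, Zp = digs Z g := ⟨_, rfl⟩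
  obtain ⟨bt, hbt⟩ : ∃ bt, bt = guestBits (par X Y Z g) (quadBits (L + 1) q) := ⟨_, rfl⟩
  obtain ⟨bd, hbd'⟩ : ∃ bd, bd = guestBits (par X Y Z (back g 1)) (quadBits (L + 1) q) :=
    ⟨_, rfl⟩
  obtain ⟨Yd, hYd⟩ : ∃ Yd, Yd = pred' L Y := ⟨_, rfl⟩
  have hd1 : pos L Y (back g 1 1) = Yd := by simp [pos, back, hYd]
  have hd0 : pos L X (back g 1 0) = Xp := by simp [back, hXp]
  have hdz : digs Z (back g 1) = Zp := funext fun i => by
    simp [digs, back, hZp, show zAx i ≠ 1 from fun e => by simp [zAx, Fin.ext_iff] at e]
  rw [window_eq, window_eq, hd1, hd0, hdz, ← hXp, ← hZp, ← hbt, ← hbd',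
    show pos L Y (g 1) = Y by simp [pos, hg]]
  have hYd' : Yd < H L := by rw [hYd]; exact pred'_lt L Y
  rw [← hXp] at hxx
  have hsame : ∀ {m : ℕ}, IsCol L Xp m → 1 ≤ m → m < 7 → Yd + 1 ≠ H L → MidDigits Zp →
      bd = quadBits (L + 1) q ∧ bt = quadBits (L + 1) q ∧ Y = Yd + 1 := fun {m} hc h1 h7 hy hm => by
    have hx : Xp + 1 ≠ H L := fun h => by
      have := (col_range hL hc h1 h7).2
      have := (cuts_lt hL).2.1
      omega
    have hpd : par X Y Z (back g 1) = fun _ => false :=
      par_interior hL hX hY _ (by rwa [hd0]) (by rwa [hd1]) (by rwa [hdz])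
    have hY0 : Y = Yd + 1 := by
      rcases pred_cases hY with ⟨-, e⟩ | ⟨-, e⟩ <;> omega
    have hpt : par X Y Z g = fun _ => false := by
      funext a
      have := congrFun hpd a
      revert this
      cases h : g a <;> cases atFirst X Y Z a <;> simp [par, back, h]
    exact ⟨by rw [hbd', hpd, guestBits_none], by rw [hbt, hpt, guestBits_none], hY0⟩
  refine ⟨?_, ?_, ?_⟩
  · intro c hd ht
    simp only [child_carry _ _ _ _ _ hxx hYd', child_carry _ _ _ _ _ hxx hY] at hd ht
    split_ifs at hd with h
    obtain ⟨h3, h0, hMy, hk1, hk2, hm⟩ := h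
    obtain rfl := Option.some.inj hd
    obtain ⟨e1, e2, rfl⟩ := hsame h3 (by norm_num) (by norm_num)
      (fun h => by rw [show Yd = H L - 1 by omega] at hk2; omega) hm
    subst e1 e2
    have hle : rowIdx L Yd ≤ rowIdx L (Yd + 1) := Nat.div_le_div_right (by omega)
    have hle' : rowIdx L (Yd + 1) ≤ rowIdx L Yd + 1 := by
      unfold rowIdx
      rw [show Yd + 1 - M L = (Yd - M L) + 1 by omega, Nat.succ_div]
      split_ifs <;> omega
    have hend : rowIdx L Yd = lastK C L := by
      by_contra hne
      rw [if_pos ⟨h3, h0, by omega, by omega, by omega, hm⟩] at ht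
      exact Option.some_ne_none _ ht
    rw [hend]
    refine ⟨(Scanning.endOK_iff hL hbits (hbd self).1 (fun a => (hbd (axis a)).1) rfl rfl rfl).2
      ⟨rfl, (hbd self).2, fun a => ?_⟩, fun m hmm => ?_⟩
    · have := hE self a rfl
      rw [back_self] at this
      exact ((Scanning.edgeNum_iff _ _ _ _).1 this).1
    · rw [Scanning.copy_lastK hL hbits] at hmm
      obtain rfl := Option.some.inj hmm
      exact pfOf_enc fun j => rfl
  · intro hw hd ht hh
    rw [claims_wire _ _ _ _ _ hYd'] at hw
    simp only [child_eqf _ _ _ _ _ hxx hYd', child_eqf _ _ _ _ _ hxx hY] at hd ht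
    split_ifs at hd with h
    obtain ⟨hz, hMy, hk, hm⟩ := h
    obtain ⟨e1, e2, rfl⟩ := hsame hz.1 (by norm_num) (by norm_num)
      (fun h => hnH (by rwa [show H L - 1 = Yd by omega])) hm
    subst e1 e2
    obtain ⟨-, hdw, -, -⟩ := rows_succ hL Yd
    obtain ⟨-, er, -, er', er''⟩ := hdw hw
    have hyA : hi L Yd = A C - 1 := by
      by_contra hne
      rw [if_pos ⟨hz, by omega, by omega, hm⟩] at ht
      exact Option.some_ne_none _ ht
    have hall : ∀ k' < A C - 1, zoneMatch L Xp k' (quadBits (L + 1) q) = true := by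
      have := Option.some.inj hd
      rw [er, hyA] at this
      exact of_decide_eq_true this
    have hlive : IsLive C L Yd := ⟨hw, by rw [hyA]; unfold lastK; omega⟩
    simp only [child_v _ _ _ _ _ hxx hY]
    rw [if_pos (Or.inl ⟨hz, by
      have : hi L Yd ≤ hi L (Yd + 1) := Nat.div_le_div_right (Nat.le_succ Yd)
      omega⟩)]
    refine table_of_input hInS fun k hk' e => ?_
    have hbk : quadBits (L + 1) q k e = finBits (sig (L + 1) q e) k := by
      show enc (L + 1) (q e) k = _
      rw [enc, if_pos hk']
      rfl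
    rw [← hbk]
    rcases Nat.lt_or_ge k (A C - 1) with hk'' | hk''
    · have := hall k hk''
      simp only [zoneMatch, decide_eq_true_iff] at this
      exact this e
    · obtain rfl : k = A C - 1 := by omega
      have := congrFun hh e
      simp only [child_h _ _ _ _ _ hxx hYd', if_pos (And.intro hlive
        (shownH_all hL hz.1 (by norm_num) (by norm_num) hm e))] at this
      rw [← hyA, this]
      simp only [claims, child_x _ _ _ _ _ hxx, child_y _ _ _ _ _ hYd', hyA,
        show min (A C - 1) (YB C) = A C - 1 from min_eq_left (by omega),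
        show A C - 1 < A C from Nat.sub_lt (by omega) one_pos, decide_true,
        Bool.true_and]
  · intro l m hw hd ht heq hh hlm hzone
    rw [claims_wire _ _ _ _ _ hYd'] at hw
    simp only [child_look _ _ _ _ _ hxx hYd', child_look _ _ _ _ _ hxx hY] at hd ht
    split_ifs at hd with h
    obtain ⟨hz, hMy, hk, hm⟩ := h
    obtain rfl := Option.some.inj hd
    obtain ⟨e1, e2, rfl⟩ := hsame hz.1 (by norm_num) (by norm_num)
      (fun h => hnH (by rwa [show H L - 1 = Yd by omega])) hm
    subst e1 e2
    obtain ⟨-, hdw, -, -⟩ := rows_succ hL Yd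
    obtain ⟨-, er, -, er', er''⟩ := hdw hw
    have hxB : T C * (B C - 1) ≤ T C * L := Nat.mul_le_mul_left _ (by omega)
    have hyB : hi L Yd = xlRow C (B C - 1) := by
      by_contra hne
      rw [if_pos ⟨hz, by omega, by omega, hm⟩] at ht
      exact Option.some_ne_none _ ht
    have hlive : IsLive C L Yd := ⟨hw, by rw [hyB]; unfold lastK xlRow; omega⟩
    rw [er, hyB] at heq hlm ⊢
    simp only [child_h _ _ _ _ _ hxx hYd', if_pos (And.intro hlive
      (shownH_all hL hz.1 (by norm_num) (by norm_num) hm self)), hyB] at hh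
    have hlx : lo L Xp < 2 ^ B C := hz.2.2.2
    -- the copy of the claims
    have hmc : m = claims (L + 1) (q self) := by
      simp only [Look.claims, lookAt, copyUpTo] at hlm
      rw [show min (xlRow C (B C - 1) - AF C) (A C - 2 - AF C) = A C - 2 - AF C from
        min_eq_right (Nat.sub_le_sub_right ((Nat.sub_le _ _).trans (Nat.le_add_right _ _)) _)] at hlm
      have hs : (∑ i ∈ Finset.range (A C - 2 - AF C),
          if quadBits (L + 1) q (AF C + i) self then 2 ^ i else 0) =
          code (claims (L + 1) (q self)) % 2 ^ (A C - 2 - AF C) := by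
        rw [← Num.sum_testBit]
        exact Finset.sum_congr rfl fun i hi => by rw [hbits.claim i (Finset.mem_range.1 hi)]
      rw [hs, Nat.mod_eq_of_lt (Num.code_claims_lt _), Nat.mod_eq_of_lt (Num.code_claims_lt _),
        Num.claimsOfCopy_code] at hlm
      exact (Option.some.inj hlm).symm
    subst hmc
    -- the low parts agree
    have hlo : lo (L + 1) (q self).x = lo L Xp := by
      have hsmall : lo (L + 1) (q self).x < 2 ^ B C := by
        have := zone_ge _ hzone
        simp only [Claims.zoneAt, claims, Bool.and_eq_true, decide_eq_true_iff] at this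
        rcases this with h | h <;> exact h.1.2.2.2
      refine Nat.eq_of_testBit_eq fun i => ?_
      rcases Nat.lt_or_ge i (B C) with hi | hi
      swap
      · rw [Nat.testBit_lt_two_pow (hsmall.trans_le (Nat.pow_le_pow_right (by norm_num) hi)),
          Nat.testBit_lt_two_pow (hlx.trans_le (Nat.pow_le_pow_right (by norm_num) hi))]
      have hb0 : quadBits (L + 1) q (xlRow C i) self = (lo (L + 1) (q self).x).testBit i :=
        hbits.num i (by omega) 0 (by omega) self
      rw [← hb0]
      rcases Nat.lt_or_ge i (B C - 1) with hi' | hi'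
      · simp only [lookAt, decide_eq_true_iff] at heq
        exact heq i hi (by
          have : T C * i < T C * (B C - 1) := Nat.mul_lt_mul_of_pos_left hi' (T_pos C)
          unfold xlRow
          omega)
      · obtain rfl : i = B C - 1 := by omega
        rw [hh]
        have e1 : min (xlRow C (B C - 1)) (YB C) = xlRow C (B C - 1) :=
          min_eq_left (Nat.add_le_add_left
            (Nat.mul_le_mul_left _ ((Nat.sub_le _ _).trans (Nat.le_add_right _ _))) _)
        have e2 : lidx C (xlRow C (B C - 1)) = B C - 1 := by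
          unfold lidx xlRow
          rw [Nat.add_sub_cancel_left, Nat.mul_div_cancel_left _ (T_pos C)]
        have e3 : A C ≤ xlRow C (B C - 1) := by unfold xlRow; omega
        simp only [claims, child_x _ _ _ _ _ hxx, child_y _ _ _ _ _ hYd', hyB, e1, e2, e3,
          show B C - 1 < B C by omega, decide_true, Bool.true_and]
    simp only [child_v _ _ _ _ _ hxx hY]
    rw [if_pos (Or.inr hz)]
    have hvv : quadBits (L + 1) q 0 self = (q self).fin.v := by
      show enc (L + 1) (q self) 0 = _
      rw [enc, if_pos (by omega), finBits, if_pos rfl]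
    have hv0 : 0 < xlRow C (B C - 1) := by unfold xlRow; omega
    simp only [lookAt, hv0, decide_true, Bool.true_and, hvv]
    rw [hTab self hzone, hlo]

/-- The windows of children of a valid window are valid. -/
theorem completeStatement (C : Cfg) : CompleteStatement C := by
  intro L hL q hv X Y Z hX hY
  have hv' := hv
  obtain ⟨⟨hbd, hE, -, -, hF⟩, -⟩ := hv
  refine valid_window hL hX hY q (fun δ => (hbd δ).2) (fun δ => hF.reach δ)
    (fun δ a hδ _ => ⟨hE δ a hδ, hF.plane δ a hδ, fun i hi => ?_, hF.on δ a hδ⟩)
    fun g hg => acceptPair_child hL hX hY q hv' hg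
  subst hi
  exact hF.counter δ i hδ

/-- A blank parent. -/
def blank (C : Cfg) : St C where
  x := 0
  y := 0
  u := 0
  w _ := 0
  z _ := ⟨0, by have := base_ge C.k; omega⟩
  fin :=
    { h := fun _ => false, vb := fun _ => false, carry := none, eq := none, v := false,
      look := none, live := false, pf := PF.off, wOn := false }

/-- The window in the middle of a tile with blank parents. -/
theorem valid_seed (hL : L₀ C ≤ L) :
    Valid L (window L (table C) (quadBits (L + 1) fun _ => blank C) (H L / 2) (H L / 2)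
      (fun _ => ⟨1, by have := base_ge C.k; omega⟩ : Digits C)) := by
  have hH := H_pos L
  have hlt : H L / 2 < H L := by omega
  have hM9 := nine_le_M hL
  have hbig : M L ^ 2 + 1 ≤ H L / 2 := by
    have h1 : M L ^ 2 * 4 ≤ M L ^ 2 * M L := Nat.mul_le_mul_left _ (by omega)
    have := pow_pos (M_pos L) 2
    rw [H_eq, Nat.mul_comm (M L)]
    omega
  have hX : ∀ e, M L ^ 2 ≤ pos L (H L / 2) e := fun e => by
    cases e
    · show M L ^ 2 ≤ H L / 2
      omega
    · rcases pred_cases hlt with ⟨h, -⟩ | ⟨-, h⟩
      · omega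
      · show M L ^ 2 ≤ pred' L (H L / 2)
        omega
  refine valid_window hL hlt hlt _
    (fun _ => ⟨fun _ _ _ => by simp [blank], fun _ _ => rfl, fun _ _ h => by simp [blank] at h⟩)
    (fun _ => Flags.Reach.off) (fun δ a _ h => ?_) fun g _ => ?_
  · exfalso
    fin_cases a <;> simp [atFirst] at h <;> omega
  · have hi0 : ∀ e, hi L (pos L (H L / 2) e) ≠ 0 := fun e =>
      (Nat.div_pos (hX e) (pow_pos (M_pos L) 2)).ne'
    rw [window_eq, window_eq]
    refine ⟨fun c h => ?_, fun _ h => ?_, fun l m _ h => ?_⟩
    · simp only [child_carry _ _ _ _ _ (pos_lt hlt _) (pos_lt hlt _)] at h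
      rw [if_neg fun h' => hi0 _ h'.1.1] at h
      exact absurd h.symm (Option.some_ne_none _)
    · simp only [child_eqf _ _ _ _ _ (pos_lt hlt _) (pos_lt hlt _)] at h
      rw [if_neg fun h' => hi0 _ h'.1.1.1] at h
      exact absurd h.symm (Option.some_ne_none _)
    · simp only [child_look _ _ _ _ _ (pos_lt hlt _) (pos_lt hlt _)] at h
      rw [if_neg fun h' => hi0 _ h'.1.1.1] at h
      exact absurd h.symm (Option.some_ne_none _)

/-- Every level has a valid window. -/
theorem exists_valid (C : Cfg) : ∀ L, L₀ C ≤ L → ∃ q : Win (St C), Valid L q :=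
  fun _ hL => ⟨_, valid_seed hL⟩

end Vale.Agent.P193.W4.Common.Complete
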