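import Vale.Agent.P193.W4.Common.Spec

/-!
P193, module W4.A (common layer): coordinates, special rows and columns, and the size of the
numbers against the row counts.
-/

noncomputable section

namespace Vale.Agent.P193.W4.Common

variable {C : Cfg} {L : ℕ}

lemma M_pos (L : ℕ) : 0 < M L := Nat.two_pow_pos L

lemma H_pos (L : ℕ) : 0 < H L := pow_pos (M_pos L) 3

lemma M_dvd_H (L : ℕ) : M L ∣ H L := dvd_pow_self _ (by norm_num)

lemma H_eq (L : ℕ) : H L = M L * M L ^ 2 := by rw [H, ← pow_succ']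

lemma T_pos (C : Cfg) : 0 < T C := Nat.two_pow_pos _

lemma AF_lt (C : Cfg) : restRow < AF C ∧ AF C + 40 ≤ A C - 2 := by
  have := A_ge C
  have := expA_fits C
  have := eight_dvd_A C
  unfold AF restRow
  omega

lemma A_lt_YB (C : Cfg) : A C < YB C := by
  have : 0 < T C * (B C + 2) := Nat.mul_pos (T_pos C) (by omega)
  unfold YB
  omega

/-- The numbers of rows and of compared bits are far below `M`. -/
lemma bounds_M (hL : L₀ C ≤ L) :
    50000 ≤ L ∧ 4 * (lastK C L) + 16 < M L ∧ 4 * B C + 16 < M L ∧ 4 * YB C + 16 < M L := by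
  have h0 := (le_L₀ C).trans hL
  have hT : T C ≤ L := by omega
  have hp : ∀ n : ℕ, 16 ≤ n → 16 * (n * n) + 16 < 2 ^ (n + 4) := by
    intro n hn
    induction n, hn using Nat.le_induction with
    | base => norm_num
    | succ n hn ih =>
      rw [show n + 1 + 4 = (n + 4) + 1 from rfl, pow_succ]
      nlinarith
  have h1 : 16 * ((L - 4) * (L - 4)) + 16 < M L := by
    have := hp (L - 4) (by omega)
    rwa [show L - 4 + 4 = L by omega] at this
  have h3 : (L - 4) * 2 ≤ (L - 4) * (L - 4) := Nat.mul_le_mul_left _ (by omega)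
  have h4 : T C * (L + 1) ≤ (L - 4) * (2 * (L - 4)) := Nat.mul_le_mul (by omega) (by omega)
  rw [Nat.mul_left_comm, Nat.mul_add, Nat.mul_one] at h4
  refine ⟨by omega, ?_, ?_, ?_⟩
  · unfold lastK
    omega
  · omega
  · omega

lemma two_le_M (hL : L₀ C ≤ L) : 2 ≤ M L := by have := bounds_M hL; omega

lemma nine_le_M (hL : L₀ C ≤ L) : 9 ≤ M L := by have := bounds_M hL; omega

lemma base_ge (k : ℕ) : 5 ≤ base k := by
  have : 1 ≤ Fintype.card (Mid k) := Fintype.card_pos_iff.2 ⟨Mid.hash⟩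
  unfold base
  omega

/-! ### Parts of a coordinate -/

lemma coord_eq (L y : ℕ) : y = M L ^ 2 * hi L y + M L * mid L y + lo L y := by
  have h1 := Nat.div_add_mod y (M L)
  have h2 := Nat.div_add_mod (y / M L) (M L)
  have h3 : y / M L / M L = y / M L ^ 2 := by rw [Nat.div_div_eq_div_mul, sq]
  rw [h3] at h2
  rw [hi, mid, lo, sq, mul_assoc, ← mul_add]
  rw [sq] at h2
  rw [h2, h1]

lemma coord_of {L a c e : ℕ} (hc : c < M L) (he : e < M L) :
    hi L (M L ^ 2 * a + M L * c + e) = a ∧ mid L (M L ^ 2 * a + M L * c + e) = c ∧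
      lo L (M L ^ 2 * a + M L * c + e) = e := by
  have hM := M_pos L
  have r : M L ^ 2 * a + M L * c + e = e + M L * (M L * a + c) := by ring
  have hd : (M L ^ 2 * a + M L * c + e) / M L = M L * a + c := by
    rw [r, Nat.add_mul_div_left _ _ hM, Nat.div_eq_of_lt he, Nat.zero_add]
  refine ⟨?_, ?_, ?_⟩
  · show _ / M L ^ 2 = a
    rw [sq, ← Nat.div_div_eq_div_mul, ← sq, hd, add_comm, Nat.add_mul_div_left _ _ hM,
      Nat.div_eq_of_lt hc, Nat.zero_add]
  · show _ / M L % M L = c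
    rw [hd, add_comm, Nat.add_mul_mod_self_left, Nat.mod_eq_of_lt hc]
  · show _ % M L = e
    rw [r, Nat.add_mul_mod_self_left, Nat.mod_eq_of_lt he]

/-- The column with middle part `m` and low part `0`. -/
lemma col0_iff {L x m : ℕ} (hm : m < M L) :
    IsCol L x m ∧ lo L x = 0 ↔ x = M L * m := by
  constructor
  · rintro ⟨⟨h1, h2⟩, h3⟩
    have := coord_eq L x
    rw [h1, h2, h3, mul_zero, zero_add, add_zero] at this
    exact this
  · rintro rfl
    obtain ⟨h1, h2, h3⟩ := coord_of (L := L) (a := 0) hm (M_pos L)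
    simp only [mul_zero, zero_add, add_zero] at h1 h2 h3
    exact ⟨⟨h1, h2⟩, h3⟩

lemma M_le_of_wire {L y : ℕ} (h : IsWire L y) : M L ≤ y := by
  by_contra hc
  rw [not_le] at hc
  have := h.2
  rw [mid, Nat.div_eq_of_lt hc, Nat.zero_mod] at this
  omega

lemma y_eq_zero_iff (L y : ℕ) : y = 0 ↔ lo L y = 0 ∧ mid L y = 0 ∧ hi L y = 0 := by
  constructor
  · rintro rfl
    simp [lo, mid, hi]
  · rintro ⟨h1, h2, h3⟩
    have e1 : y % M L ^ 2 = y % M L + M L * (y / M L % M L) := by rw [sq, Nat.mod_mul]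
    simp only [lo, mid, hi] at h1 h2 h3
    rw [h1, h2, Nat.mul_zero, Nat.add_zero] at e1
    have := Nat.div_add_mod y (M L ^ 2)
    rw [e1, h3, Nat.mul_zero] at this
    omega

lemma hi_lt {L y : ℕ} (h : y < H L) : hi L y < M L := by
  unfold hi
  rw [Nat.div_lt_iff_lt_mul (pow_pos (M_pos L) 2)]
  calc y < H L := h
    _ = M L * M L ^ 2 := by unfold H; ring

lemma mid_lt (L y : ℕ) : mid L y < M L := Nat.mod_lt _ (M_pos L)

lemma rowIdx_wire {L y : ℕ} (h : IsWire L y) : rowIdx L y = hi L y := by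
  have hsq : 0 < M L ^ 2 := pow_pos (M_pos L) 2
  have e1 : y % M L ^ 2 = y % M L + M L * (y / M L % M L) := by rw [sq, Nat.mod_mul]
  have h1 : y % M L = 0 := h.1
  have h2 : y / M L % M L = 1 := h.2
  rw [h1, h2, mul_one, Nat.zero_add] at e1
  have := Nat.div_add_mod y (M L ^ 2)
  rw [e1] at this
  show (y - M L) / M L ^ 2 = y / M L ^ 2
  rw [show y - M L = M L ^ 2 * (y / M L ^ 2) from by omega, Nat.mul_div_cancel_left _ hsq]


/-! ### Rows -/

lemma M_le_sq (L : ℕ) : M L ≤ M L ^ 2 := Nat.le_self_pow (by norm_num) _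

/-- The wire rows are those congruent to `M` modulo `M^2`. -/
lemma isWire_iff (hL : L₀ C ≤ L) (y : ℕ) :
    IsWire L y ↔ M L ≤ y ∧ (y - M L) % M L ^ 2 = 0 := by
  have hM := two_le_M hL
  have hsq : 0 < M L ^ 2 := pow_pos (M_pos L) 2
  have e1 : y % M L ^ 2 = y % M L + M L * (y / M L % M L) := by rw [sq, Nat.mod_mul]
  have hlt : M L < M L ^ 2 := by
    rw [sq]
    exact lt_mul_of_one_lt_left (by omega) (by omega)
  constructor
  · intro h
    refine ⟨M_le_of_wire h, ?_⟩
    have h1 : y % M L = 0 := h.1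
    have h2 : y / M L % M L = 1 := h.2
    rw [h1, h2, mul_one, Nat.zero_add] at e1
    have := Nat.div_add_mod y (M L ^ 2)
    rw [e1] at this
    rw [show y - M L = M L ^ 2 * (y / M L ^ 2) from by omega, Nat.mul_mod_right]
  · rintro ⟨h0, h⟩
    obtain ⟨t, ht⟩ := Nat.dvd_of_mod_eq_zero h
    have hy2 : y = M L + M L ^ 2 * t := by omega
    have e2 : y % M L ^ 2 = M L := by
      rw [hy2, Nat.add_mul_mod_self_left, Nat.mod_eq_of_lt hlt]
    have e3 : y % M L = 0 := by
      rw [hy2, sq, mul_assoc, Nat.add_mul_mod_self_left, Nat.mod_self]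
    refine ⟨e3, ?_⟩
    show y / M L % M L = 1
    rw [e2, e3, Nat.zero_add] at e1
    have h4 : M L * 1 = M L * (y / M L % M L) := by rw [mul_one]; exact e1
    exact (Nat.eq_of_mul_eq_mul_left (by omega) h4).symm

/-- The row after a wire row, and the row of a wire. -/
lemma rows_succ (hL : L₀ C ≤ L) (y : ℕ) :
    (IsWire L y → ¬ IsWire L (y + 1)) ∧
    (IsWire L y → rowIdx L y = hi L y ∧ rowsBelow L y = hi L y ∧ M L ≤ y ∧
      rowIdx L (y + 1) = hi L y ∧ rowsBelow L (y + 1) = hi L y + 1) ∧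
    (IsWire L (y + 1) → rowsBelow L (y + 1) = rowsBelow L y ∧ rowIdx L (y + 1) = hi L (y + 1) ∧
      (hi L (y + 1) = 0 → y < M L) ∧
      (0 < hi L (y + 1) → M L ≤ y ∧ rowIdx L y + 1 = hi L (y + 1))) ∧
    (¬ IsWire L y → ¬ IsWire L (y + 1) → rowsBelow L (y + 1) = rowsBelow L y ∧
      (M L ≤ y + 1 ↔ M L ≤ y) ∧ rowIdx L (y + 1) = rowIdx L y) := by
  have hM := two_le_M hL
  have hsq : 0 < M L ^ 2 := pow_pos (M_pos L) 2
  have hlt : M L < M L ^ 2 := by
    rw [sq]
    exact lt_mul_of_one_lt_left (by omega) (by omega)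
  have hw := isWire_iff hL y
  have hw' := isWire_iff hL (y + 1)
  have hM1 : IsWire L (M L) := (isWire_iff hL _).2 ⟨le_rfl, by simp⟩
  refine ⟨fun h h' => ?_, fun h => ?_, fun h => ?_, fun h h' => ?_⟩
  · obtain ⟨t, ht⟩ := Nat.dvd_of_mod_eq_zero (hw.1 h).2
    obtain ⟨-, h2⟩ := hw'.1 h'
    have := (hw.1 h).1
    rw [show y + 1 - M L = 1 + M L ^ 2 * t from by omega, Nat.add_mul_mod_self_left,
      Nat.mod_eq_of_lt (by omega)] at h2
    omega
  · have h1 := (hw.1 h).1
    have hi1 := rowIdx_wire h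
    have hn : ¬ IsWire L (y + 1) := fun h' => by
      obtain ⟨t, ht⟩ := Nat.dvd_of_mod_eq_zero (hw.1 h).2
      obtain ⟨-, h2⟩ := hw'.1 h'
      rw [show y + 1 - M L = 1 + M L ^ 2 * t from by omega, Nat.add_mul_mod_self_left,
        Nat.mod_eq_of_lt (by omega)] at h2
      omega
    have e : rowIdx L (y + 1) = rowIdx L y := by
      obtain ⟨t, ht⟩ := Nat.dvd_of_mod_eq_zero (hw.1 h).2
      unfold rowIdx
      rw [show y + 1 - M L = 1 + M L ^ 2 * t from by omega, ht, Nat.add_mul_div_left _ _ hsq,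
        Nat.div_eq_of_lt (show 1 < M L ^ 2 by omega), Nat.mul_div_cancel_left _ hsq, Nat.zero_add]
    refine ⟨hi1, ?_, h1, e.trans hi1, ?_⟩
    · rw [rowsBelow, if_neg (by omega), if_pos h, hi1]
    · rw [rowsBelow, if_neg (by omega), if_neg hn, e, hi1]
  · have hi1 := rowIdx_wire h
    have hn : ¬ IsWire L y := fun h' => by
      obtain ⟨t, ht⟩ := Nat.dvd_of_mod_eq_zero (hw.1 h').2
      obtain ⟨-, h2⟩ := hw'.1 h
      have := (hw.1 h').1
      rw [show y + 1 - M L = 1 + M L ^ 2 * t from by omega, Nat.add_mul_mod_self_left,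
        Nat.mod_eq_of_lt (by omega)] at h2
      omega
    obtain ⟨h1, h2⟩ := hw'.1 h
    obtain ⟨t, ht⟩ := Nat.dvd_of_mod_eq_zero h2
    have et : hi L (y + 1) = t := by
      rw [← hi1, rowIdx, ht, Nat.mul_div_cancel_left _ hsq]
    have step : 0 < t → M L ≤ y ∧ rowIdx L y + 1 = t := by
      intro h0
      obtain ⟨t', rfl⟩ : ∃ t', t = t' + 1 := ⟨t - 1, by omega⟩
      rw [mul_add, mul_one] at ht
      refine ⟨by omega, ?_⟩
      unfold rowIdx
      rw [show y - M L = (M L ^ 2 - 1) + M L ^ 2 * t' from by omega,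
        Nat.add_mul_div_left _ _ hsq, Nat.div_eq_of_lt (by omega), Nat.zero_add]
    refine ⟨?_, hi1, fun h0 => ?_, fun h0 => ?_⟩
    · rw [rowsBelow, if_neg (by omega), if_pos h, hi1, et]
      rcases Nat.eq_zero_or_pos t with h0 | h0
      · subst h0
        rw [rowsBelow, if_pos (by simp at ht; omega)]
      · obtain ⟨a, b⟩ := step h0
        rw [rowsBelow, if_neg (by omega), if_neg hn, b]
    · rw [et] at h0
      subst h0
      simp at ht
      omega
    · rw [et] at h0 ⊢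
      exact step h0
  · have hiff : M L ≤ y + 1 ↔ M L ≤ y := by
      refine ⟨fun h1 => ?_, fun h1 => by omega⟩
      by_contra hc
      exact h' ((show y + 1 = M L by omega) ▸ hM1)
    have e : rowIdx L (y + 1) = rowIdx L y := by
      unfold rowIdx
      by_cases h1 : M L ≤ y
      · have h2 : (y + 1 - M L) % M L ^ 2 ≠ 0 := fun h0 => h' (hw'.2 ⟨by omega, h0⟩)
        rw [show y + 1 - M L = (y - M L) + 1 from by omega] at h2 ⊢
        rw [Nat.succ_div, if_neg fun hd => h2 (Nat.mod_eq_zero_of_dvd hd)]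
        rfl
      · rw [show y + 1 - M L = 0 from by omega, show y - M L = 0 from by omega]
    refine ⟨?_, hiff, e⟩
    by_cases h1 : M L ≤ y
    · simp only [rowsBelow]
      rw [if_neg (show ¬ y + 1 < M L by omega), if_neg (show ¬ y < M L by omega), if_neg h',
        if_neg h, e]
    · simp only [rowsBelow]
      rw [if_pos (show y + 1 < M L by omega), if_pos (show y < M L by omega)]

/-- Row `0` and the row below it. -/
lemma rows_zero (hL : L₀ C ≤ L) :
    ¬ IsWire L 0 ∧ ¬ IsWire L (H L - 1) ∧ M L ≤ H L - 1 ∧ lastK C L < rowIdx L (H L - 1) ∧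
      lastK C L < hi L (H L - 1) ∧ rowsBelow L 0 = 0 ∧ ¬ M L ≤ 0 := by
  have hM := M_pos L
  obtain ⟨-, hk, -, -⟩ := bounds_M hL
  have hsq : 0 < M L ^ 2 := pow_pos hM 2
  have hle := M_le_sq L
  have h3 : M L ^ 2 * 3 ≤ M L ^ 2 * M L := Nat.mul_le_mul_left _ (by omega)
  have hH1 : M L ≤ H L - 1 := by rw [H_eq, Nat.mul_comm]; omega
  have hrow : lastK C L < rowIdx L (H L - 1) := by
    unfold rowIdx
    rw [Nat.lt_iff_add_one_le, Nat.le_div_iff_mul_le hsq, H_eq]
    have h4 : (lastK C L + 3) * M L ^ 2 ≤ M L * M L ^ 2 := Nat.mul_le_mul_right _ (by omega)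
    rw [Nat.add_mul] at h4
    rw [Nat.add_mul, one_mul]
    omega
  refine ⟨?_, ?_, hH1, hrow, lt_of_lt_of_le hrow (Nat.div_le_div_right (Nat.sub_le _ _)),
    by rw [rowsBelow, if_pos hM], by omega⟩
  · exact fun h => absurd (M_le_of_wire h) (by omega)
  · intro h
    obtain ⟨-, h4⟩ := (isWire_iff hL _).1 h
    obtain ⟨t, ht⟩ := Nat.dvd_of_mod_eq_zero h4
    have h5 : H L = (M L + 1) + M L ^ 2 * t := by omega
    have h6 : H L % M L = 1 % M L := by
      rw [h5, sq, mul_assoc, Nat.add_mul_mod_self_left, Nat.add_mod_left]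
    rw [Nat.mod_eq_zero_of_dvd (M_dvd_H L), Nat.mod_eq_of_lt (by omega)] at h6
    omega

lemma cut_iff {x : ℕ} (hL : L₀ C ≤ L) : IsCol L x 7 ∧ lo L x = 0 ↔ x = cutX L := by
  rw [col0_iff (by have := nine_le_M hL; omega), cutX, Nat.mul_comm]

lemma halfRow_iff {y : ℕ} (hL : L₀ C ≤ L) :
    (lo L y = 0 ∧ mid L y = 2 ∧ hi L y = M L / 2) ↔ y = halfY L := by
  have hM := nine_le_M hL
  constructor
  · rintro ⟨h1, h2, h3⟩
    have := coord_eq L y
    rw [h1, h2, h3, add_zero] at this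
    rw [halfY, this]
    ring
  · rintro rfl
    obtain ⟨h1, h2, h3⟩ := coord_of (L := L) (a := M L / 2) (show 2 < M L by omega) (M_pos L)
    rw [show M L ^ 2 * (M L / 2) + M L * 2 + 0 = halfY L by unfold halfY; ring] at h1 h2 h3
    exact ⟨h3, h2, h1⟩

/-- The cuts leave room below the last position. -/
lemma cuts_lt (hL : L₀ C ≤ L) : 1 ≤ cutX L ∧ cutX L + 1 < H L ∧ 1 ≤ halfY L ∧ halfY L + 1 < H L := by
  have hM := nine_le_M hL
  have hle := M_le_sq L
  have h4 : (M L / 2 + 2) * M L ^ 2 ≤ M L * M L ^ 2 := Nat.mul_le_mul_right _ (by omega)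
  have h5 : 4 * M L ≤ M L ^ 2 := by rw [sq]; exact Nat.mul_le_mul_right _ (by omega)
  rw [Nat.add_mul] at h4
  refine ⟨by unfold cutX; omega, ?_, by unfold halfY; omega, ?_⟩
  · rw [H_eq, cutX]; omega
  · rw [H_eq, halfY]; omega

/-- A wire row in use lies below the middle row. -/
lemma live_lt_halfY {y : ℕ} (hL : L₀ C ≤ L) (h : IsLive C L y) : y < halfY L := by
  have h1 := coord_eq L y
  rw [h.1.1, h.1.2, mul_one, add_zero] at h1
  obtain ⟨-, h2, -, -⟩ := bounds_M hL
  have h3 : hi L y + 1 ≤ M L / 2 := by have := h.2; omega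
  have h4 : (hi L y + 1) * M L ^ 2 ≤ M L / 2 * M L ^ 2 := Nat.mul_le_mul_right _ h3
  have h5 := M_le_sq L
  rw [Nat.add_mul, one_mul, Nat.mul_comm] at h4
  unfold halfY
  omega

/-- The columns of the band lie strictly inside the shown part. -/
lemma col_range {x m : ℕ} (hL : L₀ C ≤ L) (h : IsCol L x m) (h1 : 1 ≤ m) (h7 : m < 7) :
    0 < x ∧ x < cutX L := by
  have e := coord_eq L x
  rw [h.1, h.2, mul_zero, zero_add] at e
  have h4 : lo L x < M L := Nat.mod_lt _ (M_pos L)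
  have hm1 : M L * 1 ≤ M L * m := Nat.mul_le_mul_left _ h1
  have hm7 : M L * (m + 1) ≤ M L * 7 := Nat.mul_le_mul_left _ h7
  rw [Nat.mul_add, Nat.mul_one] at hm7
  have := M_pos L
  unfold cutX
  omega

/-- A position and the one before it. -/
lemma pred_cases {Y : ℕ} (hY : Y < H L) :
    (Y = 0 ∧ pred' L Y = H L - 1) ∨ (0 < Y ∧ pred' L Y + 1 = Y) := by
  have hH := H_pos L
  unfold pred'
  rcases Nat.eq_zero_or_pos Y with h | h
  · subst h
    exact Or.inl ⟨rfl, by rw [Nat.zero_add, Nat.mod_eq_of_lt (by omega)]⟩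
  · refine Or.inr ⟨h, ?_⟩
    rw [show Y + H L - 1 = (Y - 1) + H L by omega, Nat.add_mod_right, Nat.mod_eq_of_lt (by omega)]
    omega

lemma pred'_lt (L Y : ℕ) : pred' L Y < H L := Nat.mod_lt _ (H_pos L)

/-- A digit and the one before it. -/
lemma predDigit_cases (d : Fin (base C.k)) :
    (d.val = 0 ∧ (predDigit d).val + 1 = base C.k) ∨ (0 < d.val ∧ (predDigit d).val + 1 = d.val) := by
  have hd := d.isLt
  show _ ∨ _ ∧ (d.val + base C.k - 1) % base C.k + 1 = _
  rcases Nat.eq_zero_or_pos d.val with h | h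
  · refine Or.inl ⟨h, ?_⟩
    show (d.val + base C.k - 1) % base C.k + 1 = _
    rw [h, Nat.zero_add, Nat.mod_eq_of_lt (by omega)]
    omega
  · refine Or.inr ⟨h, ?_⟩
    rw [show d.val + base C.k - 1 = (d.val - 1) + base C.k by omega, Nat.add_mod_right,
      Nat.mod_eq_of_lt (by omega)]
    omega

end Vale.Agent.P193.W4.Common
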