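import Vale.Agent.P193.W4.Common.Towers

/-!
P193, module W4.A (common layer): towers move with the points. A translate of a tiling has the
translated parents, so by uniqueness the desubstitutions of a translate are the translates.
-/

noncomputable section

namespace Vale.Agent.P193.W4.Common

open BH

variable {C : Cfg} {L : ℕ} {c c' : Z5 → St C} {o : Z5} {em : ℕ → Option (List (Full C.k))}

/-! ### Translates -/

lemma ValidTiling.translate (hc : ValidTiling L c) (s : Z5) :
    ValidTiling L fun P => c (P - s) := fun P => by
  have e : quadAt (fun P => c (P - s)) P = quadAt c (P - s) :=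
    funext fun g => congrArg c (sub_right_comm P (dir g) s)
  rw [e]
  exact hc (P - s)

/-- The translation of the parents. -/
def carryShift (C : Cfg) (L : ℕ) (o s : Z5) : Z5 := fun a => (o a + s a) / extent C L a

/-- The offset of a translate. -/
def offShift (C : Cfg) (L : ℕ) (o s : Z5) : Z5 := fun a => (o a + s a) % extent C L a

lemma offShift_spec (o s : Z5) (a : Fin 5) :
    offShift C L o s a + extent C L a * carryShift C L o s a = o a + s a :=
  Int.emod_add_mul_ediv _ _

lemma isOffset_offShift (o s : Z5) : IsOffset C L (offShift C L o s) := fun a =>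
  ⟨Int.emod_nonneg _ (extent_pos C L a).ne', Int.emod_lt_of_pos _ (extent_pos C L a)⟩

lemma IsParent.translate (h : IsParent L c c' o) (s : Z5) :
    IsParent L (fun P => c (P - s)) (fun P => c' (P - carryShift C L o s))
      (offShift C L o s) := by
  refine ⟨h.1.translate _, fun P X Y Z hX hY => ?_⟩
  have e : place L (offShift C L o s) P X Y Z - s =
      place L o (P - carryShift C L o s) X Y Z := by
    funext a
    simp only [place, Pi.sub_apply, Pi.add_apply, Pi.mul_apply, mul_sub]
    have := offShift_spec (C := C) (L := L) o s a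
    linarith
  show c (place L (offShift C L o s) P X Y Z - s) = _
  rw [e, h.2 _ X Y Z hX hY]
  have eq : quadAt (fun P => c' (P - carryShift C L o s)) P =
      quadAt c' (P - carryShift C L o s) :=
    funext fun g => congrArg c' (sub_right_comm P (dir g) _)
  simp only [childAt, eq]

variable (hD : DesubStatement C)

lemma desub_eq {n : ℕ} (c : Level C n) {o : Z5} {c' : Z5 → St C}
    (ho : IsOffset C (L₀ C + n) o) (h : IsParent (L₀ C + n) c.1 c' o) :
    desub hD n c = (o, c') :=
  (hD _ (Nat.le_add_right _ n) c.1 c.2).unique (desub_spec hD n c) ⟨ho, h⟩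

/-- How the tiling of each level moves when the point moves. -/
def moveBy (x : (sft C).X) (w : V) : ℕ → Z5
  | 0 => A5.coords (Multiplicative.ofAdd w)
  | n + 1 => carryShift C (L₀ C + n) (offset hD x n) (moveBy x w n)

lemma level_act (x : (sft C).X) (w : V) : ∀ n,
    (level hD ((sft C).act (Multiplicative.ofAdd w) x) n).1 =
      fun P => (level hD x n).1 (P - moveBy hD x w n)
  | 0 => by
    funext P
    show (x.1 ((Multiplicative.ofAdd w)⁻¹ * A5.cellOf P)).1 =
      (x.1 (A5.cellOf (P - A5.coords (Multiplicative.ofAdd w)))).1
    have e : (Multiplicative.ofAdd w)⁻¹ * A5.cellOf P =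
        A5.cellOf (P - A5.coords (Multiplicative.ofAdd w)) := by
      rw [inv_mul_eq_iff_eq_mul, mul_comm]
      conv_rhs => rw [← A5.cellOf_coords (Multiplicative.ofAdd w)]
      rw [← A5.cellOf_add, A5.coords_cellOf, sub_add_cancel]
    rw [e]
  | n + 1 => by
    have h := desub_eq hD (level hD ((sft C).act (Multiplicative.ofAdd w) x) n)
      (isOffset_offShift (offset hD x n) (moveBy hD x w n))
      (c' := fun P => (level hD x (n + 1)).1 (P - moveBy hD x w (n + 1))) (by
        rw [level_act x w n]
        exact (level_parent hD x n).translate _)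
    show (desub hD n _).2 = _
    rw [h]

lemma offset_act (x : (sft C).X) (w : V) (n : ℕ) :
    offset hD ((sft C).act (Multiplicative.ofAdd w) x) n =
      offShift C (L₀ C + n) (offset hD x n) (moveBy hD x w n) := by
  have h := desub_eq hD (level hD ((sft C).act (Multiplicative.ofAdd w) x) n)
    (isOffset_offShift (offset hD x n) (moveBy hD x w n))
    (c' := fun P => (level hD x (n + 1)).1 (P - moveBy hD x w (n + 1))) (by
      rw [level_act hD x w n]
      exact (level_parent hD x n).translate _)
  show (desub hD n _).1 = _
  rw [h]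

/-- The coordinate of the tile of level `n` above a cell in the tiling of its level. -/
def above (x : (sft C).X) (v : Fin 3 → ℤ) : ℕ → Fin 3 → ℤ
  | 0 => v
  | n + 1 => fun i => (above x v n i - offset hD x n (zAx i)) / (base C.k : ℤ)

variable (hem : Emits C.R em)

lemma tile_above (x : (sft C).X) (v : Fin 3 → ℤ) : ∀ n i,
    (towerOf hD hem x).tile v n i + origin hD x n i = above hD x v n i
  | 0, i => by show v i + 0 = v i; simp
  | n + 1, i => by
    show ((towerOf hD hem x).tile v n i + ((shiftAt hD x n i).val : ℤ)) / (base C.k : ℤ) +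
      origin hD x (n + 1) i = (above hD x v n i - offset hD x n (zAx i)) / (base C.k : ℤ)
    rw [← tile_above x v n i, (shiftAt_spec hD x n _ i).1]

lemma digit_above (x : (sft C).X) (v : Fin 3 → ℤ) (n : ℕ) (i : Fin 3) :
    (((towerOf hD hem x).digit v n i).val : ℤ) =
      (above hD x v n i - offset hD x n (zAx i)) % (base C.k : ℤ) := by
  rw [← tile_above hD hem x v n i, (shiftAt_spec hD x n _ i).2]
  show ((((towerOf hD hem x).tile v n i + ((shiftAt hD x n i).val : ℤ)) % (base C.k : ℤ)).toNat :
    ℤ) = _
  rw [Int.toNat_of_nonneg (Int.emod_nonneg _ (by unfold base; omega))]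

lemma above_act (x : (sft C).X) (w v : V) : ∀ n i,
    above hD ((sft C).act (Multiplicative.ofAdd w) x) v.1 n i =
      above hD x (v - w).1 n i + moveBy hD x w n (zAx i)
  | 0, i => by
    show v.1 i = (v.1 - w.1) i + A5.coords (Multiplicative.ofAdd w) (zAx i)
    fin_cases i <;> simp [A5.coords, zAx]
  | n + 1, i => by
    show (above hD ((sft C).act (Multiplicative.ofAdd w) x) v.1 n i -
        offset hD ((sft C).act (Multiplicative.ofAdd w) x) n (zAx i)) / (base C.k : ℤ) =
      (above hD x (v - w).1 n i - offset hD x n (zAx i)) / (base C.k : ℤ) +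
        carryShift C (L₀ C + n) (offset hD x n) (moveBy hD x w n) (zAx i)
    rw [offset_act, above_act x w v n i]
    have hs := offShift_spec (C := C) (L := L₀ C + n) (offset hD x n) (moveBy hD x w n) (zAx i)
    rw [extent_zAx] at hs
    rw [← Int.add_mul_ediv_left _ _ (by unfold base; omega : (base C.k : ℤ) ≠ 0)]
    congr 1
    linarith

/-- Towers move with the points. -/
lemma towerOf_act (x : (sft C).X) (w v : V) (n : ℕ) :
    (towerOf hD hem ((sft C).act (Multiplicative.ofAdd w) x)).digit v.1 n =
        (towerOf hD hem x).digit (v - w).1 n ∧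
      (towerOf hD hem ((sft C).act (Multiplicative.ofAdd w) x)).st n
          ((towerOf hD hem ((sft C).act (Multiplicative.ofAdd w) x)).tile v.1 n) =
        (towerOf hD hem x).st n ((towerOf hD hem x).tile (v - w).1 n) := by
  refine ⟨funext fun i => Fin.ext (Int.ofNat_inj.1 ?_), ?_⟩
  · rw [digit_above, digit_above, above_act, offset_act]
    have hs := offShift_spec (C := C) (L := L₀ C + n) (offset hD x n) (moveBy hD x w n) (zAx i)
    rw [extent_zAx] at hs
    rw [show above hD x (v - w).1 n i + moveBy hD x w n (zAx i) -
        offShift C (L₀ C + n) (offset hD x n) (moveBy hD x w n) (zAx i) =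
      above hD x (v - w).1 n i - offset hD x n (zAx i) + (base C.k : ℤ) *
        carryShift C (L₀ C + n) (offset hD x n) (moveBy hD x w n) (zAx i) by linarith,
      Int.add_mul_emod_self_left]
  · show stateAt _ ((level hD _ n).1 _) = stateAt _ ((level hD x n).1 _)
    rw [level_act hD x w n]
    refine ((level hD x n).2.plane_eq fun i => ?_).1
    rw [Pi.sub_apply, liftTile_zAx, liftTile_zAx, tile_above, tile_above, above_act]
    simp

end Vale.Agent.P193.W4.Common
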