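import Vale.Agent.P193.W4.Common.Visible
import Vale.Agent.P193.W4.Minimal.PlaneMove

/-!
P193, module W4.A (common layer): the assembly. The common layer exists as soon as it is rigid.
-/

namespace Vale.Agent.P193.W4.Common

/-- Module A from rigidity of the common layer. -/
theorem commonStatement_of_rigid (hrig : ∀ C : Cfg, (sft C).Rigid) : CommonStatement :=
  commonStatement_of (fun C _ hem => Minimal.planeMove (desubStatement C) hem) hrig
    fun _ _ hem => visibleStatement hem

end Vale.Agent.P193.W4.Common
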