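import Vale.Agent.P193.W4.Common.TowerAct

/-!
P193, module W4.A (common layer): the action is free. A period of a point is a period of the
tilings of all levels, shrinking by the extent of a parent at each level, so it is zero.
-/

noncomputable section

namespace Vale.Agent.P193.W4.Common

open BH

variable {C : Cfg}

lemma two_le_extent (C : Cfg) {L : ℕ} (hL : L₀ C ≤ L) (a : Fin 5) : 2 ≤ extent C L a := by
  have hH : (2 : ℤ) ≤ H L := by
    exact_mod_cast le_trans (two_le_M hL) (Nat.le_of_dvd (H_pos L) (M_dvd_H L))
  have hb : (2 : ℤ) ≤ base C.k := by unfold base; omega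
  fin_cases a
  · exact hH
  · exact hH
  all_goals exact hb

/-- Under desubstitution every period is zero. -/
lemma sft_free (hD : DesubStatement C) (x : (sft C).X) (γ : Lat) (h : (sft C).act γ x = x) :
    γ = 1 := by
  suffices key : ∀ w : V, (sft C).act (Multiplicative.ofAdd w) x = x →
      Multiplicative.ofAdd w = (1 : Lat) from key (Multiplicative.toAdd γ) h
  clear h γ
  intro w h
  have hstep : ∀ n a, moveBy hD x w n a =
      extent C (L₀ C + n) a * moveBy hD x w (n + 1) a := by
    intro n a
    have ho := offset_act hD x w n
    rw [h] at ho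
    have hs := offShift_spec (C := C) (L := L₀ C + n) (offset hD x n) (moveBy hD x w n) a
    rw [← ho] at hs
    show moveBy hD x w n a = extent C (L₀ C + n) a *
      carryShift C (L₀ C + n) (offset hD x n) (moveBy hD x w n) a
    linarith
  have hzero : ∀ (N n : ℕ) (a : Fin 5), (moveBy hD x w n a).natAbs ≤ N →
      moveBy hD x w n a = 0 := by
    intro N
    induction N with
    | zero => intro n a hN; omega
    | succ N ih =>
      intro n a hN
      have he := two_le_extent C (Nat.le_add_right (L₀ C) n) a
      have e := hstep n a
      by_cases h0 : moveBy hD x w (n + 1) a = 0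
      · rw [e, h0, mul_zero]
      · refine absurd (ih (n + 1) a ?_) h0
        have h2 : 2 * (moveBy hD x w (n + 1) a).natAbs ≤ (moveBy hD x w n a).natAbs := by
          rw [e, Int.natAbs_mul]
          exact Nat.mul_le_mul_right _ (by omega)
        omega
  have hw : A5.coords (Multiplicative.ofAdd w) = 0 := funext fun a => hzero _ 0 a le_rfl
  have e := A5.cellOf_coords (Multiplicative.ofAdd w)
  rw [hw] at e
  rw [← e]
  refine congrArg Multiplicative.ofAdd (Prod.ext rfl (funext fun i => ?_))
  fin_cases i <;> rfl

end Vale.Agent.P193.W4.Common
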