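import Vale.Agent.P193.W4.Common.TowerAct
import Vale.Agent.P193.W4.Minimal.Reduce

/-!
P193, module W4.A (common layer): towers are read from finitely many cells. The desubstitution has
a closed graph by its uniqueness and finitely many values in each coordinate, so it is continuous;
by compactness the data of one cell are then determined on finitely many cells.
-/

noncomputable section

namespace Vale.Agent.P193.W4.Common

open BH

variable {C : Cfg}

/-! ### Finitely many values -/

/-- The states of level `L` within bounds. -/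
abbrev SymAt (C : Cfg) (L : ℕ) : Type := {t : St C // InBounds L t}

/-- The normalised offsets. -/
abbrev OffT (C : Cfg) (L : ℕ) : Type := {o : Z5 // IsOffset C L o}

instance SymAt.finite (L : ℕ) : Finite (SymAt C L) := by
  refine Finite.of_injective (fun t : SymAt C L =>
    ((⟨t.1.x, t.2.1⟩ : Fin (H L)), (⟨t.1.y, t.2.2.1⟩ : Fin (H L)), (⟨t.1.u, t.2.2.2.1⟩ : Fin (M L)),
      (fun r => ⟨t.1.w r, t.2.2.2.2 r⟩ : Track C → Fin (M L)), t.1.z, t.1.fin)) ?_
  rintro ⟨⟨x, y, u, w, z, f⟩, _⟩ ⟨⟨x', y', u', w', z', f'⟩, _⟩ h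
  simp only [Prod.mk.injEq, Fin.mk.injEq, funext_iff, Fin.ext_iff] at h
  obtain ⟨h₁, h₂, h₃, h₄, h₅, h₆⟩ := h
  obtain rfl := funext h₄
  obtain rfl : z = z' := funext fun i => Fin.ext (h₅ i)
  subst h₁ h₂ h₃ h₆
  rfl

instance OffT.finite (L : ℕ) : Finite (OffT C L) := by
  refine Finite.of_injective (fun o : OffT C L =>
    fun a : Fin 5 => (⟨(o.1 a).toNat, by
      have := o.2 a
      omega⟩ : Fin (extent C L a).toNat)) fun o o' h => Subtype.ext (funext fun a => ?_)
  have := congrArg Fin.val (congrFun h a)
  have := o.2 a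
  have := o'.2 a
  simp only at *
  omega

instance (L : ℕ) : TopologicalSpace (SymAt C L) := ⊥
instance (L : ℕ) : DiscreteTopology (SymAt C L) := ⟨rfl⟩
instance (L : ℕ) : TopologicalSpace (OffT C L) := ⊥
instance (L : ℕ) : DiscreteTopology (OffT C L) := ⟨rfl⟩

lemma ValidTiling.inBounds {L : ℕ} {c : Z5 → St C} (hc : ValidTiling L c) (P : Z5) :
    InBounds L (c P) := by
  have h := (hc P).1.1 self
  rw [(hc.edge P 0).2.2.1] at h
  exact h.1

variable (hD : DesubStatement C)

/-- The tiling of level `L₀ + n` with its bounds. -/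
def levelSym (x : (sft C).X) (n : ℕ) : Z5 → SymAt C (L₀ C + n) :=
  fun P => ⟨(level hD x n).1 P, (level hD x n).2.inBounds P⟩

/-- The offset with its bounds. -/
def offsetSym (x : (sft C).X) (n : ℕ) : OffT C (L₀ C + n) :=
  ⟨offset hD x n, (desub_spec hD n (level hD x n)).1⟩

/-- The desubstitution is continuous. -/
lemma continuous_step (n : ℕ) (ih : Continuous fun x => levelSym hD x n) :
    Continuous fun x => (offsetSym hD x n, levelSym hD x (n + 1)) := by
  let G : Set ((sft C).X × (OffT C (L₀ C + n) × (Z5 → SymAt C (L₀ C + (n + 1))))) :=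
    (⋂ P, {p | Valid (L₀ C + n + 1) (quadAt (fun Q => (p.2.2 Q).1) P)}) ∩
    ⋂ (o : OffT C (L₀ C + n)) (P : Z5) (X : ℕ) (Y : ℕ) (Z : Digits C)
      (_ : X < H (L₀ C + n)) (_ : Y < H (L₀ C + n)),
      {p | p.2.1 = o → (levelSym hD p.1 n (place (L₀ C + n) o.1 P X Y Z)).1 =
        childAt (L₀ C + n) (fun Q => (p.2.2 Q).1) P X Y Z}
  have hquad : ∀ P : Z5, Continuous fun p : (sft C).X ×
      (OffT C (L₀ C + n) × (Z5 → SymAt C (L₀ C + (n + 1)))) => fun g => p.2.2 (P - dir g) :=
    fun P => continuous_pi fun g =>
      (continuous_apply (P - dir g)).comp (continuous_snd.comp continuous_snd)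
  have hG : IsClosed G := by
    refine IsClosed.inter (isClosed_iInter fun P => ?_) (isClosed_iInter fun o =>
      isClosed_iInter fun P => isClosed_iInter fun X => isClosed_iInter fun Y =>
      isClosed_iInter fun Z => isClosed_iInter fun _ => isClosed_iInter fun _ => ?_)
    · exact (isClosed_discrete {w : Guest → SymAt C (L₀ C + (n + 1)) |
        Valid (L₀ C + n + 1) fun g => (w g).1}).preimage (hquad P)
    · exact (isClosed_discrete {w : OffT C (L₀ C + n) × SymAt C (L₀ C + n) ×
          (Guest → SymAt C (L₀ C + (n + 1))) | w.1 = o → w.2.1.1 =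
            child (L₀ C + n) (table C) (quadBits (L₀ C + n + 1) fun g => (w.2.2 g).1) X Y Z}
        ).preimage ((continuous_fst.comp continuous_snd).prodMk
          ((((continuous_apply (place (L₀ C + n) o.1 P X Y Z)).comp ih).comp continuous_fst).prodMk
            (hquad P)))
  have key : ∀ (x : (sft C).X) (d : OffT C (L₀ C + n) × (Z5 → SymAt C (L₀ C + (n + 1)))),
      (x, d) ∈ G ↔ d = (offsetSym hD x n, levelSym hD x (n + 1)) := by
    intro x d
    constructor
    · rintro ⟨h₁, h₂⟩
      simp only [Set.mem_iInter] at h₁ h₂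
      have h := desub_eq hD (level hD x n) (o := d.1.1) (c' := fun Q => (d.2 Q).1) d.1.2
        ⟨h₁, fun P X Y Z hX hY => h₂ d.1 P X Y Z hX hY rfl⟩
      refine Prod.ext (Subtype.ext ?_) (funext fun Q => Subtype.ext ?_)
      · show d.1.1 = (desub hD n (level hD x n)).1
        rw [h]
      · show (d.2 Q).1 = (desub hD n (level hD x n)).2 Q
        rw [h]
    · rintro rfl
      refine ⟨Set.mem_iInter.2 fun P => (level hD x (n + 1)).2 P, ?_⟩
      simp only [Set.mem_iInter]
      intro o P X Y Z hX hY ho
      subst ho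
      exact (level_parent hD x n).2 P X Y Z hX hY
  refine continuous_iff_isClosed.2 fun S hS => ?_
  have e : (fun x => (offsetSym hD x n, levelSym hD x (n + 1))) ⁻¹' S =
      Prod.fst '' (G ∩ Prod.snd ⁻¹' S) := by
    ext x
    constructor
    · exact fun h => ⟨(x, _), ⟨(key x _).2 rfl, h⟩, rfl⟩
    · rintro ⟨⟨y, d⟩, ⟨hd, hdS⟩, rfl⟩
      obtain rfl := (key y d).1 hd
      exact hdS
  rw [e]
  exact isClosedMap_fst_of_compactSpace _ (hG.inter (hS.preimage continuous_snd))

lemma continuous_levelSym : ∀ n, Continuous fun x : (sft C).X => levelSym hD x n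
  | 0 => by
    refine continuous_pi fun P => ?_
    exact (continuous_of_discreteTopology (f := fun s : (sft C).A => (⟨s.1, s.2⟩ :
      SymAt C (L₀ C + 0)))).comp ((continuous_apply (A5.cellOf P)).comp continuous_subtype_val)
  | n + 1 => continuous_snd.comp (continuous_step hD n (continuous_levelSym n))

/-- The offset and the tile at a place are locally constant. -/
lemma isLocallyConstant_level (n : ℕ) (P : Z5) :
    IsLocallyConstant (fun x : (sft C).X => offset hD x n) ∧
      IsLocallyConstant (fun x : (sft C).X => (level hD x n).1 P) :=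
  ⟨((IsLocallyConstant.iff_continuous _).2 (continuous_fst.comp
      (continuous_step hD n (continuous_levelSym hD n)))).comp Subtype.val,
    ((IsLocallyConstant.iff_continuous _).2
      ((continuous_apply P).comp (continuous_levelSym hD n))).comp Subtype.val⟩

/-- What is locally constant on points is read from finitely many cells. -/
lemma exists_agree {S : SFT Lat} {β : Type*} {f : S.X → β} (hf : IsLocallyConstant f) :
    ∃ U : Finset Lat, ∀ x x' : S.X, S.AgreeOn U x x' → f x = f x' := by
  classical
  have := compactSpace_points (S := S)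
  by_contra hne
  push Not at hne
  let K : Finset Lat → Set (S.X × S.X) := fun U =>
    (⋂ c ∈ U, {p | p.1.1 c = p.2.1 c}) ∩ {p | f p.1 ≠ f p.2}
  have hcl : ∀ U, IsClosed (K U) := fun U => by
    refine IsClosed.inter (isClosed_biInter fun c _ => isClosed_eq ?_ ?_) ?_
    · exact ((continuous_apply c).comp continuous_subtype_val).comp continuous_fst
    · exact ((continuous_apply c).comp continuous_subtype_val).comp continuous_snd
    · rw [← isOpen_compl_iff]
      have e : {p : S.X × S.X | f p.1 ≠ f p.2}ᶜ = ⋃ b, (f ⁻¹' {b}) ×ˢ (f ⁻¹' {b}) := by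
        ext p; simp [eq_comm]
      rw [e]
      exact isOpen_iUnion fun b => (hf _).prod (hf _)
  have hdir : Directed (· ⊇ ·) K := fun U U' =>
    ⟨U ∪ U', fun p hp => ⟨Set.biInter_subset_biInter_left
        (fun c hc => Finset.mem_union_left U' hc) hp.1, hp.2⟩,
      fun p hp => ⟨Set.biInter_subset_biInter_left
        (fun c hc => Finset.mem_union_right U hc) hp.1, hp.2⟩⟩
  have hnonempty : ∀ U, (K U).Nonempty := fun U => by
    obtain ⟨x, x', hag, hxx⟩ := hne U
    exact ⟨(x, x'), Set.mem_iInter₂.2 fun c hc => hag c hc, hxx⟩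
  obtain ⟨p, hp⟩ := IsCompact.nonempty_iInter_of_directed_nonempty_isCompact_isClosed K hdir
    hnonempty (fun U => (hcl U).isCompact) hcl
  simp only [Set.mem_iInter] at hp
  refine (hp ∅).2 (congrArg f (Subtype.ext (funext fun c => ?_)))
  exact Set.mem_iInter₂.1 (hp {c}).1 c (Finset.mem_singleton_self c)

variable {em : ℕ → Option (List (Full C.k))} (hem : Emits C.R em)

lemma isLocallyConstant_above (v : Fin 3 → ℤ) :
    ∀ n, IsLocallyConstant fun x : (sft C).X => above hD x v n
  | 0 => IsLocallyConstant.const v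
  | n + 1 => (isLocallyConstant_above v n).comp₂ (isLocallyConstant_level hD n 0).1
      fun t o => fun i => (t i - o (zAx i)) / (base C.k : ℤ)

lemma isLocallyConstant_digit (v : Fin 3 → ℤ) (n : ℕ) :
    IsLocallyConstant fun x : (sft C).X => (towerOf hD hem x).digit v n := by
  have e : (fun x : (sft C).X => (towerOf hD hem x).digit v n) =
      fun x i => Axis.red (above hD x v n i - offset hD x n (zAx i)) := by
    funext x i
    exact Fin.ext (Int.ofNat_inj.1 ((digit_above hD hem x v n i).trans (Axis.red_val _).symm))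
  rw [e]
  exact (isLocallyConstant_above hD v n).comp₂ (isLocallyConstant_level hD n 0).1
    fun t o => fun i => Axis.red (t i - o (zAx i))

lemma isLocallyConstant_state (v : Fin 3 → ℤ) (n : ℕ) :
    IsLocallyConstant fun x : (sft C).X =>
      (towerOf hD hem x).st n ((towerOf hD hem x).tile v n) := by
  have e : (fun x : (sft C).X => (towerOf hD hem x).st n ((towerOf hD hem x).tile v n)) =
      fun x => stateAt (L₀ C + n) ((level hD x n).1
        ![0, 0, above hD x v n 0, above hD x v n 1, above hD x v n 2]) := by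
    funext x
    show stateAt _ ((level hD x n).1 (liftTile hD x n _)) = _
    simp only [liftTile, tile_above]
  rw [e, IsLocallyConstant.iff_exists_open]
  intro x
  refine ⟨{y | above hD y v n = above hD x v n} ∩
      {y | (level hD y n).1 ![0, 0, above hD x v n 0, above hD x v n 1, above hD x v n 2] =
        (level hD x n).1 ![0, 0, above hD x v n 0, above hD x v n 1, above hD x v n 2]},
    ((isLocallyConstant_above hD v n) {above hD x v n}).inter
      ((isLocallyConstant_level hD n _).2 {_}), ⟨rfl, rfl⟩, fun y hy => ?_⟩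
  obtain ⟨hy₁, hy₂⟩ := hy
  simp only [Set.mem_ofPred_eq] at hy₁ hy₂
  rw [hy₁, hy₂]

/-- Digits and states of a cell are read from finitely many cells. -/
lemma towerOf_local (v : V) (n : ℕ) : ∃ U : Finset Lat, ∀ x x' : (sft C).X,
    (sft C).AgreeOn U x x' →
      (∀ m, m ≤ n → (towerOf hD hem x).digit v.1 m = (towerOf hD hem x').digit v.1 m) ∧
      (towerOf hD hem x).st n ((towerOf hD hem x).tile v.1 n) =
        (towerOf hD hem x').st n ((towerOf hD hem x').tile v.1 n) := by
  classical
  obtain ⟨U, hU⟩ := exists_agree (isLocallyConstant_state hD hem v.1 n)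
  choose W hW using fun m => exists_agree (isLocallyConstant_digit hD hem v.1 m)
  refine ⟨U ∪ (Finset.range (n + 1)).biUnion W, fun x x' h => ⟨fun m hm => ?_, ?_⟩⟩
  · exact hW m x x' fun c hc => h c (Finset.mem_union_right _
      (Finset.mem_biUnion.2 ⟨m, Finset.mem_range.2 (Nat.lt_succ_of_le hm), hc⟩))
  · exact hU x x' fun c hc => h c (Finset.mem_union_left _ hc)

end Vale.Agent.P193.W4.Common
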