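import Vale.Agent.P193.W4.Common.Facts.Claims

/-!
P193, module W4.A (common layer): a window of children is made of the children of neighbouring
parents.
-/

noncomputable section

namespace Vale.Agent.P193.W4.Common

variable {C : Cfg} {L : ℕ}

lemma scan_congr {b b' : ℕ → Bits} : ∀ {n : ℕ}, (∀ k, AF C ≤ k → k ≤ n → b k = b' k) →
    scan C L b n = scan C L b' n
  | 0, h => by
    show (Carry.init C).step L 0 b = (Carry.init C).step L 0 b'
    unfold Carry.step Carry.stepRow
    by_cases h0 : 0 < AF C
    · rw [if_pos h0, if_pos h0]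
    · rw [h 0 (by omega) le_rfl]
  | n + 1, h => by
    show (scan C L b n).step L (n + 1) b = (scan C L b' n).step L (n + 1) b'
    rw [scan_congr fun k h1 h2 => h k h1 (h2.trans (Nat.le_succ n))]
    unfold Carry.step Carry.stepRow
    by_cases h0 : n + 1 < AF C
    · rw [if_pos h0, if_pos h0]
    · rw [h (n + 1) (by omega) le_rfl]

/-- A tile in the parent `δ` back and `ε` forward of a window shows only what is known from the
window. -/
theorem child_shown (hL : L₀ C ≤ L) (τ : ℕ → Bool) {b b' : ℕ → Bits} (δ ε : Guest) {X Y : ℕ}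
    (Z : Digits C) (hX : X < H L) (hY : Y < H L)
    (h0 : δ 0 = true → X = H L - 1) (h1 : δ 1 = true → Y = H L - 1)
    (hz : ∀ i, δ (zAx i) = true → (Z i).val + 1 = base C.k)
    (e0 : ε 0 = true → X = 0) (e1 : ε 1 = true → Y = 0)
    (ez : ∀ i, ε (zAx i) = true → (Z i).val = 0)
    (hpf : pfOf C b = pfOf C b') (hw : ∀ r, wOf C L b r = wOf C L b' r)
    (hb : ∀ k g, (∀ a, δ a = true → g a = false) → (∀ a, ε a = true → g a = true) →
      b k g = b' k g) :
    child L τ b X Y Z = child L τ b' X Y Z := by
  obtain ⟨hc1, hc2, hh1, hh2⟩ := cuts_lt hL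
  obtain ⟨hy0, -, -, hrow, -, -, hM0⟩ := rows_zero hL
  have interior : X ≠ H L - 1 → Y ≠ H L - 1 → X ≠ 0 → M L ≤ Y → MidDigits Z → b = b' :=
    fun hx hy hx0 hM hm => funext fun k => funext fun g => hb k g
      (fun a ha => by
        fin_cases a
        · exact absurd (h0 ha) hx
        · exact absurd (h1 ha) hy
        · exact absurd (hz 0 ha) (by have := (hm 0).2; omega)
        · exact absurd (hz 1 ha) (by have := (hm 1).2; omega)
        · exact absurd (hz 2 ha) (by have := (hm 2).2; omega))
      fun a ha => by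
        fin_cases a
        · exact absurd (e0 ha) hx0
        · exact absurd (e1 ha) (fun e => by rw [e] at hM; exact hM0 hM)
        · exact absurd (ez 0 ha) (by have := (hm 0).1; omega)
        · exact absurd (ez 1 ha) (by have := (hm 1).1; omega)
        · exact absurd (ez 2 ha) (by have := (hm 2).1; omega)
  have hcol : ∀ m, 1 ≤ m → m < 7 → IsCol L X m → X ≠ H L - 1 ∧ X ≠ 0 := fun m hm hm' h => by
    have := col_range hL h hm hm'
    omega
  have shownH : ∀ g, IsLive C L Y → ShownH L X Z g → b (hi L Y) g = b' (hi L Y) g :=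
    fun g hl ⟨hfirst, hcut, hsz⟩ => hb _ g (fun a ha => by
      have hy := live_lt_halfY hL hl
      fin_cases a
      · exact hcut (by rw [h0 ha]; omega)
      · exact absurd (h1 ha) (by omega)
      · exact (hsz 0).2 (hz 0 ha)
      · exact (hsz 1).2 (hz 1 ha)
      · exact (hsz 2).2 (hz 2 ha)) fun a ha => by
      fin_cases a
      · exact hfirst (e0 ha)
      · exact absurd hl.1 (e1 ha ▸ hy0)
      · exact (hsz 0).1 (ez 0 ha)
      · exact (hsz 1).1 (ez 1 ha)
      · exact (hsz 2).1 (ez 2 ha)
  have shownV : ∀ g, IsBundle L X → ShownV L Y Z g → b (lo L X / 2) g = b' (lo L X / 2) g :=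
    fun g hl ⟨hfirst, hcut, hsz⟩ => hb _ g (fun a ha => by
      fin_cases a
      · exact absurd (h0 ha) (hcol 1 le_rfl (by norm_num) hl.1).1
      · exact hcut (by rw [h1 ha]; omega)
      · exact (hsz 0).2 (hz 0 ha)
      · exact (hsz 1).2 (hz 1 ha)
      · exact (hsz 2).2 (hz 2 ha)) fun a ha => by
      fin_cases a
      · exact absurd (e0 ha) (hcol 1 le_rfl (by norm_num) hl.1).2
      · exact hfirst (e1 ha)
      · exact (hsz 0).1 (ez 0 ha)
      · exact (hsz 1).1 (ez 1 ha)
      · exact (hsz 2).1 (ez 2 ha)
  have hon : childOn L b Z = childOn L b' Z := by unfold childOn; rw [hpf]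
  have hword : childWord L b Z = childWord L b' Z := funext fun r => by
    unfold childWord
    rw [hon, hw r]
  have hx' : X % H L = X := Nat.mod_eq_of_lt hX
  have hy' : Y % H L = Y := Nat.mod_eq_of_lt hY
  unfold child
  simp only [hx', hy', hpf, hon, hword, St.mk.injEq, Fin'.mk.injEq, true_and, and_true]
  refine ⟨?_, ?_, ?_, ?_, ?_⟩
  · funext g
    split_ifs with h
    · exact shownH g h.1 h.2
    · rfl
  · funext g
    split_ifs with h
    · exact shownV g h.1 h.2.2
    · rfl
  · split_ifs with h
    · obtain ⟨hc, -, hM, -, hk, hm⟩ := h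
      rw [interior (hcol 3 (by norm_num) (by norm_num) hc).1 (fun e => by rw [e] at hk; omega)
        (hcol 3 (by norm_num) (by norm_num) hc).2 hM hm]
    · rfl
  · split_ifs with h
    · obtain ⟨hc, hM, hk, hm⟩ := h
      rw [interior (hcol 4 (by norm_num) (by norm_num) hc.1).1
        (fun e => by
          rw [e, rowsBelow, if_neg (by rw [e] at hM; omega), if_neg (rows_zero hL).2.1] at hk
          unfold lastK at hrow
          omega) (hcol 4 (by norm_num) (by norm_num) hc.1).2 hM hm]
    · rfl
  · split_ifs with h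
    · obtain ⟨hc, hM, hk, hm⟩ := h
      rw [interior (hcol 6 (by norm_num) (by norm_num) hc.1).1
        (fun e => by
          rw [e, rowsBelow, if_neg (by rw [e] at hM; omega), if_neg (rows_zero hL).2.1] at hk
          have hA : T C * (B C - 1) ≤ T C * L :=
            Nat.mul_le_mul_left _ (by have := (le_L₀ C).trans hL; omega)
          unfold xlRow at hk
          unfold lastK at hrow
          omega) (hcol 6 (by norm_num) (by norm_num) hc.1).2 hM hm]
    · rfl

/-- A tile in the parent `δ` back shows only what is known from the window of the upper parent. -/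
theorem child_guest (hL : L₀ C ≤ L) (τ : ℕ → Bool) {b b' : ℕ → Bits} (δ : Guest) {X Y : ℕ}
    (Z : Digits C) (hX : X < H L) (hY : Y < H L)
    (h0 : δ 0 = true → X = H L - 1) (h1 : δ 1 = true → Y = H L - 1)
    (hz : ∀ i, δ (zAx i) = true → (Z i).val + 1 = base C.k)
    (hb : ∀ k g, (∀ a, δ a = true → g a = false) → b k g = b' k g) :
    child L τ b X Y Z = child L τ b' X Y Z := by
  have hself : ∀ k, b k self = b' k self := fun k => hb k self fun _ _ => rfl
  refine child_shown hL τ δ (fun _ => false) Z hX hY h0 h1 hz (by simp) (by simp) (by simp) ?_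
    (fun r => by simp only [wOf, hself]) fun k g hg _ => hb k g hg
  have hcopy : copyUpTo C b (A C) = copyUpTo C b' (A C) := by
    apply Fin.ext
    simp only [copyUpTo, hself]
  unfold pfOf
  rw [hcopy]

/-- A window of children consists of children of the parents. -/
theorem window_child (hL : L₀ C ≤ L) (c' : Z5 → St C) (Q : Z5) {X Y : ℕ} (hX : X < H L)
    (hY : Y < H L) (Z : Digits C) (d : Guest) :
    window L (table C) (quadBits (L + 1) (quadAt c' Q)) X Y Z d =
      childAt L c' (Q - dir fun a => d a && atFirst X Y Z a)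
        (if d 0 then pred' L X else X) (if d 1 then pred' L Y else Y)
        (fun i => if d (zAx i) then predDigit (Z i) else Z i) := by
  have hH := H_pos L
  refine child_guest hL _ (fun a => d a && atFirst X Y Z a) _ ?_ ?_ ?_ ?_ ?_ fun k g hg => ?_
  · split <;> first | exact hX | exact pred'_lt L X
  · split <;> first | exact hY | exact pred'_lt L Y
  · intro h
    simp only [Bool.and_eq_true, atFirst, Matrix.cons_val_zero, decide_eq_true_iff] at h
    rw [if_pos h.1]
    rcases pred_cases hX with ⟨-, e⟩ | ⟨e, -⟩ <;> omega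
  · intro h
    simp only [Bool.and_eq_true, atFirst, Matrix.cons_val_one, Matrix.cons_val_zero,
      decide_eq_true_iff] at h
    rw [if_pos h.1]
    rcases pred_cases hY with ⟨-, e⟩ | ⟨e, -⟩ <;> omega
  · intro i h
    simp only [Bool.and_eq_true] at h
    rw [if_pos h.1]
    rcases predDigit_cases (Z i) with ⟨-, e⟩ | ⟨e, -⟩
    · exact e
    · have h2 := h.2
      fin_cases i <;> simp [atFirst, zAx] at h2 e <;> omega
  · have hne : ¬ ∃ a, (d a && atFirst X Y Z a) = true ∧ g a = true := fun ⟨a, ha, hga⟩ => by
      simp [hg a ha] at hga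
    unfold guestBits
    rw [if_neg hne]
    show enc (L + 1) (c' (Q - dir _)) k = enc (L + 1) (c' (Q - dir _ - dir g)) k
    congr 2
    funext a
    simp only [Pi.sub_apply, dir]
    have h := hg a
    revert h
    rcases Bool.eq_false_or_eq_true (d a && atFirst X Y Z a) with hd | hd <;>
      rcases Bool.eq_false_or_eq_true (g a) with hga | hga <;> simp [hd, hga]

lemma back_axis {n x x' : ℕ} (o q : ℤ) (e : Bool) (h0 : e = false → x' = x)
    (h1 : e = true → (x = 0 ∧ x' + 1 = n) ∨ (0 < x ∧ x' + 1 = x)) :
    o + (n : ℤ) * (q - if (e && decide (x = 0)) = true then 1 else 0) + x' =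
      o + (n : ℤ) * q + x - if e = true then 1 else 0 := by
  cases e
  · simp [h0 rfl]
  · rcases h1 rfl with ⟨rfl, h⟩ | ⟨h, h'⟩
    · have : (x' : ℤ) + 1 = n := by exact_mod_cast h
      simp [mul_sub]
      linarith
    · have : (x' : ℤ) + 1 = x := by exact_mod_cast h'
      simp [h.ne']
      linarith

/-- The position behind in a window. -/
theorem place_back (o Q : Z5) {X Y : ℕ} (hX : X < H L) (hY : Y < H L) (Z : Digits C) (d : Guest) :
    place L o (Q - dir fun a => d a && atFirst X Y Z a)
        (if d 0 then pred' L X else X) (if d 1 then pred' L Y else Y)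
        (fun i => if d (zAx i) then predDigit (Z i) else Z i) =
      place L o Q X Y Z - dir d := by
  have hH := H_pos L
  funext a
  fin_cases a
  · exact back_axis (o 0) (Q 0) (d 0) (fun h => by simp [h]) fun h => by
      rcases pred_cases hX with ⟨e, e'⟩ | ⟨e, e'⟩ <;> simp [h] <;> omega
  · exact back_axis (o 1) (Q 1) (d 1) (fun h => by simp [h]) fun h => by
      rcases pred_cases hY with ⟨e, e'⟩ | ⟨e, e'⟩ <;> simp [h] <;> omega
  · exact back_axis (o 2) (Q 2) (d 2) (fun h => by simp [h, zAx]) fun h => by
      rcases predDigit_cases (Z 0) with ⟨e, e'⟩ | ⟨e, e'⟩ <;> simp [h, zAx] <;> omega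
  · exact back_axis (o 3) (Q 3) (d 3) (fun h => by simp [h, zAx]) fun h => by
      rcases predDigit_cases (Z 1) with ⟨e, e'⟩ | ⟨e, e'⟩ <;> simp [h, zAx] <;> omega
  · exact back_axis (o 4) (Q 4) (d 4) (fun h => by simp [h, zAx]) fun h => by
      rcases predDigit_cases (Z 2) with ⟨e, e'⟩ | ⟨e, e'⟩ <;> simp [h, zAx] <;> omega

/-- The windows of a tiling are windows of children. -/
theorem quadAt_place (hL : L₀ C ≤ L) {c c' : Z5 → St C} {o : Z5} (h : IsParent L c c' o) (Q : Z5)
    {X Y : ℕ} (hX : X < H L) (hY : Y < H L) (Z : Digits C) :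
    quadAt c (place L o Q X Y Z) = window L (table C) (quadBits (L + 1) (quadAt c' Q)) X Y Z := by
  funext d
  rw [window_child hL c' Q hX hY, ← h.2, quadAt, place_back o Q hX hY Z d]
  · split <;> first | exact hX | exact pred'_lt L X
  · split <;> first | exact hY | exact pred'_lt L Y

end Vale.Agent.P193.W4.Common
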