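import Vale.Agent.P193.W4.Common.Complete
import Vale.Agent.P193.W4.Common.Free
import Vale.Agent.P193.W4.Common.Window
import Vale.Agent.P193.W4.Rigid.Compact

/-!
P193, module W4.A (common layer): a point. The children of a configuration valid on a box are valid
on a larger box; so every level has configurations valid on boxes of every size, and compactness
gives a point.
-/

noncomputable section

namespace Vale.Agent.P193.W4.Common

open BH

variable {C : Cfg} {L : ℕ}

/-- The children of a configuration, in parents with corner `0`. -/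
def expand (L : ℕ) (c' : Z5 → St C) : Z5 → St C := fun P =>
  childAt L c' (parentOf C L 0 P) (posIn C L 0 P 0) (posIn C L 0 P 1) (digitsIn C L 0 P)

lemma posIn_lt (P : Z5) (a : Fin 5) : (posIn C L 0 P a : ℤ) < extent C L a := by
  rw [posIn_cast]
  exact Int.emod_lt_of_pos _ (extent_pos C L a)

lemma place_split (P : Z5) :
    place L 0 (parentOf C L 0 P) (posIn C L 0 P 0) (posIn C L 0 P 1) (digitsIn C L 0 P) = P := by
  funext a
  have e := Int.mul_ediv_add_emod (P a - (0 : Z5) a) (extent C L a)
  have hp : extent C L a * parentOf C L 0 P a + posIn C L 0 P a = P a := by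
    rw [posIn_cast, parentOf, e]
    simp
  simp only [place, Pi.add_apply, Pi.mul_apply, Pi.zero_apply, zero_add]
  conv_rhs => rw [← hp]
  congr 1
  fin_cases a <;> simp [posIn_cast, digitsIn, Axis.red_val, zAx, extent]

lemma expand_place (c' : Z5 → St C) (P : Z5) {X Y : ℕ} (hX : X < H L) (hY : Y < H L)
    (Z : Digits C) : expand L c' (place L 0 P X Y Z) = childAt L c' P X Y Z := by
  have hsplit : ∀ a, ∀ x : ℕ, (x : ℤ) < extent C L a →
      place L 0 P X Y Z a = extent C L a * P a + x →
      parentOf C L 0 (place L 0 P X Y Z) a = P a ∧ posIn C L 0 (place L 0 P X Y Z) a = x := by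
    intro a x hx e
    have h0 : (0 : ℤ) ≤ x := Int.natCast_nonneg x
    have hdiv : (x : ℤ) / extent C L a = 0 := Int.ediv_eq_zero_of_lt h0 hx
    have hmod : (x : ℤ) % extent C L a = x := Int.emod_eq_of_lt h0 hx
    refine ⟨?_, ?_⟩
    · simp only [parentOf, Pi.zero_apply, sub_zero, e]
      rw [add_comm, Int.add_mul_ediv_left _ _ (extent_pos C L a).ne', hdiv, zero_add]
    · apply Int.ofNat_inj.1
      rw [posIn_cast, Pi.zero_apply, sub_zero, e, add_comm, Int.add_mul_emod_self_left, hmod]
  have hb : ∀ i, ((Z i).val : ℤ) < base C.k := fun i => by exact_mod_cast (Z i).isLt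
  have h0 := hsplit 0 X (by show (X : ℤ) < (H L : ℤ); exact_mod_cast hX) (by simp [place])
  have h1 := hsplit 1 Y (by show (Y : ℤ) < (H L : ℤ); exact_mod_cast hY) (by simp [place])
  have h2 := hsplit 2 (Z 0).val (hb 0) (by simp [place])
  have h3 := hsplit 3 (Z 1).val (hb 1) (by simp [place])
  have h4 := hsplit 4 (Z 2).val (hb 2) (by simp [place])
  have hP : parentOf C L 0 (place L 0 P X Y Z) = P := funext fun a => by
    fin_cases a
    exacts [h0.1, h1.1, h2.1, h3.1, h4.1]
  have hZ : digitsIn C L 0 (place L 0 P X Y Z) = Z := funext fun i => by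
    apply Fin.ext
    apply Int.ofNat_inj.1
    rw [digitsIn, Axis.red_val, Pi.zero_apply, sub_zero]
    have e : posIn C L 0 (place L 0 P X Y Z) (zAx i) = (Z i).val := by
      fin_cases i
      exacts [h2.2, h3.2, h4.2]
    rw [← e, posIn_cast, Pi.zero_apply, sub_zero, extent_zAx]
  rw [expand, hP, hZ, h0.2, h1.2]

/-- The windows of the children are windows of children. -/
lemma quadAt_expand (hL : L₀ C ≤ L) (c' : Z5 → St C) (P : Z5) :
    quadAt (expand L c') P = window L (table C) (quadBits (L + 1) (quadAt c' (parentOf C L 0 P)))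
      (posIn C L 0 P 0) (posIn C L 0 P 1) (digitsIn C L 0 P) := by
  have hX : posIn C L 0 P 0 < H L := Int.ofNat_lt.1 (posIn_lt P 0)
  have hY : posIn C L 0 P 1 < H L := Int.ofNat_lt.1 (posIn_lt P 1)
  funext d
  rw [window_child hL c' _ hX hY]
  show expand L c' (P - dir d) = _
  conv_lhs => rw [← place_split (C := C) (L := L) P, ← place_back 0 _ hX hY _ d]
  refine expand_place c' _ ?_ ?_ _
  · split <;> first | exact hX | exact pred'_lt L _
  · split <;> first | exact hY | exact pred'_lt L _

/-- Configurations within bounds which are valid on a box. -/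
lemma exists_validBox (C : Cfg) : ∀ (n L : ℕ), L₀ C ≤ L → ∃ c : Z5 → St C,
    (∀ P, InBounds L (c P)) ∧
      ∀ P : Z5, (∀ a, 0 ≤ P a ∧ P a < 2 ^ n) → Valid L (quadAt c P)
  | 0, L, hL => by
    obtain ⟨q, hq⟩ := Complete.exists_valid C L hL
    refine ⟨fun P => q fun a => decide (P a < 0), fun P => (hq.1.1 _).1, fun P hP => ?_⟩
    have hP0 : P = 0 := funext fun a => by have := hP a; simp at this ⊢; omega
    subst hP0
    convert hq using 1
    funext g
    refine congrArg q (funext fun a => ?_)
    cases h : g a <;> simp [dir, h]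
  | n + 1, L, hL => by
    obtain ⟨c', -, hc'⟩ := exists_validBox C n (L + 1) (Nat.le_succ_of_le hL)
    refine ⟨expand L c', fun P => Children.inBounds_child L _ _ _ _ _, fun P hP => ?_⟩
    rw [quadAt_expand hL]
    refine Complete.completeStatement C L hL _ (hc' _ fun a => ?_) _ _ _
      (Int.ofNat_lt.1 (posIn_lt P 0)) (Int.ofNat_lt.1 (posIn_lt P 1))
    have hE := two_le_extent C hL a
    obtain ⟨h0, h1⟩ := hP a
    simp only [parentOf, Pi.zero_apply, sub_zero]
    refine ⟨Int.ediv_nonneg h0 (by omega), Int.ediv_lt_of_lt_mul (by omega) ?_⟩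
    have hp : (0 : ℤ) ≤ 2 ^ n := by positivity
    calc P a < 2 ^ (n + 1) := h1
      _ = 2 ^ n * 2 := pow_succ 2 n
      _ ≤ 2 ^ n * extent C L a := mul_le_mul_of_nonneg_left hE hp

/-- The subshift is not empty. -/
theorem sft_nonempty (C : Cfg) : Nonempty (sft C).X := by
  classical
  obtain ⟨B, -, hB⟩ := Rigid.exists_point (S := sft C) ∅
  obtain ⟨r, hr⟩ : ∃ r : ℕ, ∀ u ∈ B, ∀ a, (A5.coords u a).natAbs ≤ r :=
    ⟨B.sup fun u => Finset.univ.sup fun a => (A5.coords u a).natAbs, fun u hu a =>
      (Finset.le_sup (f := fun b => (A5.coords u b).natAbs) (Finset.mem_univ a)).trans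
        (Finset.le_sup (f := fun u => Finset.univ.sup fun b => (A5.coords u b).natAbs) hu)⟩
  obtain ⟨c, hb, hc⟩ := exists_validBox C (2 * r + 1) (L₀ C) le_rfl
  let p : Lat → (sft C).A := fun u => ⟨c (A5.coords u + fun _ => (r : ℤ)), hb _⟩
  suffices hp : Rigid.AllowedIn (sft C) B p from ⟨(hB p hp).choose⟩
  intro γ hγ
  have e : (fun g => ((sft C).window p γ (corner g)).1) =
      quadAt c (A5.coords γ + (fun _ => 1) + fun _ => (r : ℤ)) := by
    funext g
    show c (A5.coords (γ * A5.cellOf fun a => if g a then 0 else 1) + fun _ => (r : ℤ)) = _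
    rw [A5.coords_mul, A5.coords_cellOf]
    refine congrArg c (funext fun a => ?_)
    simp only [Pi.add_apply, Pi.sub_apply, dir]
    cases g a <;> simp <;> ring
  show Valid (L₀ C) fun g => ((sft C).window p γ (corner g)).1
  rw [e]
  refine hc _ fun a => ?_
  have h := hr _ (hγ (corner self).1 (corner self).2) a
  rw [show (corner self).1 = A5.cellOf fun _ => (1 : ℤ) from rfl, A5.coords_mul,
    A5.coords_cellOf] at h
  simp only [Pi.add_apply] at h ⊢
  have h2 : ((2 * r + 1 : ℕ) : ℤ) < 2 ^ (2 * r + 1) := by exact_mod_cast Nat.lt_two_pow_self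
  push_cast at h2
  omega

end Vale.Agent.P193.W4.Common
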