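import Vale.Agent.P193.W4.Common.Desub.Final
import Vale.Agent.P193.W4.Common.Free
import Vale.Agent.P193.W4.Common.Local
import Vale.Agent.P193.W4.Common.Nonempty

/-!
P193, module W4.A (common layer): the assembly. What is still owed is moves inside the
plane, rigidity and visibility; the other fields of the interface follow.
-/

noncomputable section

namespace Vale.Agent.P193.W4.Common

open BH

/-- The configuration of an enumerating rule of nonempty words. -/
def cfgOf {k : ℕ} (R : Machine.EnumRule (Full k)) {e : ℕ → List (Full k)}
    (he : R.Enumerates e) (hne : ∀ n, e n ≠ []) : Cfg where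
  k := k
  R := R
  fresh := he.fresh
  first t ht := by
    obtain ⟨n, -, hs⟩ := he.sound t ht
    rw [hs 0 (Nat.zero_le _), List.getElem?_eq_getElem (List.length_pos_of_ne_nil (hne n))]
    rfl

variable {C : Cfg} {em : ℕ → Option (List (Full C.k))}

/-- The field `visible` for the towers of desubstitution. -/
def VisibleStatement (hD : DesubStatement C) (hem : Emits C.R em) : Prop :=
  ∀ (n : ℕ) (i : Fin 3) (a : V) (x x' : (sft C).X),
    (∀ j, j = i ∨ j = i + 1 → (towerOf hD hem x).MiddleBelow a.1 n j) →
    (∀ v : V, v.1 i = a.1 i → v.1 (i + 1) = a.1 (i + 1) →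
      x.1 (Multiplicative.ofAdd v) = x'.1 (Multiplicative.ofAdd v)) →
    (∀ m, m ≤ n → (towerOf hD hem x).digit a.1 m = (towerOf hD hem x').digit a.1 m) ∧
      ∀ b : V, (∀ j, j = i ∨ j = i + 1 →
          (towerOf hD hem x).tile a.1 n j = (towerOf hD hem x).tile b.1 n j) →
        x.1 (Multiplicative.ofAdd b) = x'.1 (Multiplicative.ofAdd b)

lemma digitLocal_towerOf (hD : DesubStatement C) (hem : Emits C.R em) :
    DigitLocal (towerOf hD hem) := fun v n => by
  obtain ⟨U, hU⟩ := towerOf_local hD hem v n
  exact ⟨U, fun x x' h => (hU x x' h).1⟩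

lemma digitAct_towerOf (hD : DesubStatement C) (hem : Emits C.R em) :
    DigitAct (towerOf hD hem) := fun x w v n => (towerOf_act hD hem x w v n).1

/-- The common layer from what is still owed. -/
def commonOf (hD : DesubStatement C) (hem : Emits C.R em)
    (hP : PlaneMove (towerOf hD hem)) (hrig : (sft C).Rigid)
    (hvis : VisibleStatement hD hem) : W4.Common C.k em where
  S := sft C
  win_eq := rfl
  nonempty := sft_nonempty C
  free := sft_free hD
  rigid := hrig
  own := ownDigits
  flags := cellFlags
  hit := cellHit
  tower := towerOf hD hem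
  own_tower := towerOf_own hD hem
  flags_tower := towerOf_flags hD hem
  hit_tower := towerOf_hit hD hem
  local_tower := towerOf_local hD hem
  tower_act := towerOf_act hD hem
  approx := approx_of (digitLocal_towerOf hD hem) (digitAct_towerOf hD hem) hP
  recur x' U hR M x := recur_of (digitAct_towerOf hD hem) hP x' hR U M x
  visible := hvis

/-- The tower of a point, by desubstitution. -/
abbrev pointTower (hem : Emits C.R em) : (sft C).X → Tower C.k em :=
  towerOf (desubStatement C) hem

/-- Module A from what is still owed. -/
theorem commonStatement_of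
    (hP : ∀ (C : Cfg) (em : ℕ → Option (List (Full C.k))) (hem : Emits C.R em),
      PlaneMove (pointTower hem))
    (hrig : ∀ C : Cfg, (sft C).Rigid)
    (hvis : ∀ (C : Cfg) (em : ℕ → Option (List (Full C.k))) (hem : Emits C.R em),
      VisibleStatement (desubStatement C) hem) :
    CommonStatement := fun _k R _e _ he hw em hem =>
  ⟨commonOf (C := cfgOf R he hw) (desubStatement _) hem (hP (cfgOf R he hw) em hem) (hrig _)
    (hvis (cfgOf R he hw) em hem)⟩

end Vale.Agent.P193.W4.Common
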