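import Vale.Agent.P193.W4.Readout
import Vale.Agent.P193.Machine.Defs

/-!
P193, module W4.A (common layer): parameters and finite data.

The configuration is the number of generators and the enumerating rule. Everything finite that
does not depend on the row counts is collected first; the row counts are then chosen so that
claims and states fit into their rows.
-/

noncomputable section

namespace Vale.Agent.P193.W4.Common

/-- The configuration of the common layer. -/
structure Cfg where
  /-- the number of generators -/
  k : ℕ
  /-- the enumerating rule -/
  R : Machine.EnumRule (Full k)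
  /-- at time `t` the cells after `t` are unused -/
  fresh : ∀ t i, t < i → R.row t i = R.blank
  /-- an emitted word is not empty -/
  first : ∀ t, R.emit (R.row t 0) = true → (R.read (R.row t 0)).isSome = true

/-- The symbols of the machine. -/
abbrev Cfg.α (C : Cfg) : Type := C.R.α

/-- The back neighbours of a tile, by the axes gone back along: the plane axes `0`, `1` and the
counter axes `2`, `3`, `4`. -/
abbrev Guest : Type := Fin 5 → Bool

/-- The tile itself. -/
def self : Guest := fun _ => false

/-- The neighbour back along one axis. -/
def axis (a : Fin 5) : Guest := fun c => decide (c = a)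

/-- The index of a back neighbour. -/
def gidx : Guest ≃ Fin 32 := Fintype.equivFinOfCardEq (by simp)

/-- One bit for each back neighbour. -/
abbrev Bits : Type := Guest → Bool

/-- A window: the tile and its back neighbours. -/
abbrev Win (α : Type) : Type := Guest → α

/-- The digits on the counter axes. -/
abbrev Digits (C : Cfg) : Type := Fin 3 → Fin (base C.k)

/-- The number tracks of a word: a star bit, then one bit per track of a letter. -/
abbrev Track (C : Cfg) : Type := Fin (C.k + 2)

/-- Finite predicates of the horizontal coordinate. -/
structure XClaims where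
  xl0 : Bool
  xlTop : Bool
  xlEven : Bool
  /-- the low part is that of a table column -/
  xlSmall : Bool
  xmC : Fin 9
  xh0 : Bool
deriving DecidableEq, Fintype

/-- Finite predicates relating the coordinates, and of the counter. -/
structure MixClaims where
  diag : Bool
  q : Bits
  ql : Bool
  u0 : Bool
  u1 : Bool
deriving DecidableEq, Fintype

/-- What a tile hands down to its children. -/
structure PF (C : Cfg) where
  flags : Flags C.k
  /-- a match is running -/
  hit : Bool
  /-- the tile carries a word -/
  wOn : Bool
  /-- the top letter of the word; `none` is a star or no word -/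
  top : Option (Full C.k)
deriving DecidableEq, Fintype

/-- The machine seen at one index: the cell, the next cell, whether the word is still running
there, and whether the row emits. -/
structure Mach (C : Cfg) where
  cur : Option C.α
  next : Option C.α
  alive : Bool
  em : Bool
deriving DecidableEq, Fintype

set_option synthInstance.maxSize 20000 in
/-- The other claims of a tile. -/
structure Extra (C : Cfg) where
  z : Digits C
  pf : PF C
  wOn : Bool
  top : Option (Full C.k)
  /-- the machine at the index of the counter -/
  mach : Option (Mach C)
  /-- the bits of the word at the index of the counter -/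
  wd : Track C → Bool
deriving DecidableEq, Fintype

/-- Bitwise comparison of two numbers, least significant bit first. -/
structure Cmp where
  eq : Bool
  inc : Bool
  carry : Bool
deriving DecidableEq, Fintype

def Cmp.init : Cmp := ⟨true, true, true⟩

/-- Feed bit `t` of the new number and bit `d` of the old one. -/
def Cmp.step (c : Cmp) (t d : Bool) : Cmp :=
  ⟨c.eq && (t == d), c.inc && (t == xor d c.carry), c.carry && d⟩

/-- `value = old + carry_in`, three parts, least significant first. -/
def incThree (a b c : Cmp) : Bool :=
  a.inc && (if a.carry then b.inc else b.eq) &&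
    (if a.carry && b.carry then c.inc else c.eq)

/-- Comparisons of the counter with the tile below. -/
structure UAcc where
  uEq : Bool
  uDbl : Bool
  uPrev : Bool
deriving DecidableEq, Fintype

set_option synthInstance.maxSize 20000 in
/-- The machine along the scanning column. -/
structure MAcc (C : Cfg) where
  /-- the cell of the scanning tiles at the previous index -/
  prev : Option C.α
  /-- the cell of the scanning tiles at the current index -/
  cur : Option C.α
  /-- the cell after it -/
  next : Option C.α
  /-- the own cell at the current index -/
  cell : Option C.α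
  /-- the own word is running at the current index -/
  alive : Bool
  /-- the own machine claim -/
  res : Mach C
deriving DecidableEq, Fintype

set_option synthInstance.maxSize 20000 in
/-- The word along the scanning column. -/
structure WAcc (C : Cfg) where
  /-- the letter at the current index -/
  letter : Track C → Bool
  /-- the previous letter is a star -/
  star : Bool
  /-- the letters form a word -/
  ok : Bool
  /-- there is no letter -/
  zero : Bool
  /-- the letter at the index of the counter -/
  wd : Track C → Bool
deriving DecidableEq, Fintype

set_option synthInstance.maxSize 20000 in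
/-- What the scanning column has computed, apart from the copy and the vertical claims. -/
structure Scanned (C : Cfg) where
  cx : XClaims
  cm : MixClaims
  /-- the previous bit of the high `Y` part, to be compared with the low `X` part -/
  yhBit : Bool
  /-- the horizontal coordinate against that of the tile on the left -/
  xI : Fin 3 → Cmp
  /-- the vertical coordinate against that of the tile below -/
  yI : Fin 3 → Cmp
  /-- the numbers which must be equal are equal -/
  eqs : Bool
  cu : UAcc
  /-- the bit of the own counter at the current index -/
  uBit : Bool
  ma : MAcc C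
  wa : WAcc C
deriving DecidableEq, Fintype

/-! ### The row counts -/

variable (C : Cfg)

/-- The exponent of the period of the number rows. -/
@[irreducible] def perExp : ℕ := Nat.log 2 (C.k + 10) + 1

/-- The period of the number rows: the pieces of `x` and of `y`, the counter, the tracks of the
word, and spare rows. -/
def T : ℕ := 2 ^ perExp C

/-- The size of the data which do not depend on the row counts. -/
def dataSize : ℕ :=
  Fintype.card XClaims + Fintype.card MixClaims + Fintype.card (Extra C) + Fintype.card (PF C) +
    Fintype.card (Scanned C)

/-- The exponent of the number of finite rows. -/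
@[irreducible] def expA : ℕ := 10 + perExp C + dataSize C

/-- Number of wire rows carrying finite data. -/
def A : ℕ := 2 ^ expA C

/-- Bits of the stored part. -/
def AF : ℕ := A C - A C / 8

/-- The first row of the fields without a row of their own. -/
def restRow : ℕ := 67

/-- Bits queried in table columns. -/
def B : ℕ := 32 * A C + 2

/-- Saturation bound for the high part of the vertical coordinate. -/
def YB : ℕ := A C + T C * (B C + 2)

lemma exists_baseLevel : ∃ n : ℕ, 50000 + 8 * (A C + B C + YB C + T C) ≤ n := ⟨_, le_rfl⟩

/-- The least level used. It is kept opaque, so that huge powers are never evaluated. -/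
def L₀ : ℕ := Classical.choose (exists_baseLevel C)

lemma le_L₀ : 50000 + 8 * (A C + B C + YB C + T C) ≤ L₀ C :=
  Classical.choose_spec (exists_baseLevel C)

lemma T_ge : C.k + 10 ≤ T C := by
  unfold T perExp
  exact (Nat.lt_pow_succ_log_self one_lt_two (C.k + 10)).le

lemma T_dvd_A : T C ∣ A C := pow_dvd_pow 2 (by unfold expA; omega)

lemma eight_dvd_A : 8 ∣ A C := by
  have h : 2 ^ 3 ∣ A C := pow_dvd_pow 2 (show 3 ≤ expA C by unfold expA; omega)
  exact h

lemma A_ge : 1024 ≤ A C :=
  calc 1024 = 2 ^ 10 := by norm_num
    _ ≤ A C := Nat.pow_le_pow_right two_pos (by unfold expA; omega)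

lemma poly_le_pow : ∀ n : ℕ, 6 * (n + 10) + 40 ≤ 2 ^ (n + 7)
  | 0 => by norm_num
  | n + 1 => by
    have := poly_le_pow n
    have h2 : 128 ≤ 2 ^ (n + 7) :=
      le_trans (by norm_num) (Nat.pow_le_pow_right two_pos (Nat.le_add_left 7 n))
    rw [show n + 1 + 7 = (n + 7) + 1 from rfl, pow_succ]
    omega

lemma expA_fits : 6 * expA C + 40 ≤ A C / 8 := by
  obtain ⟨n, hn⟩ : ∃ n, expA C = n + 10 := ⟨expA C - 10, by unfold expA; omega⟩
  have e : A C / 8 = 2 ^ (n + 7) := by
    rw [A, hn, show n + 10 = (n + 7) + 3 from rfl, pow_add]
    exact Nat.mul_div_cancel _ (by norm_num : (0 : ℕ) < 8)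
  rw [e, hn]
  exact poly_le_pow n

/-! ### Finite data depending on the row counts -/

/-- Finite predicates of the vertical coordinate. -/
structure YClaims where
  yl0 : Bool
  ymC : Fin 4
  yhC : Fin (YB C + 1)
  yhMod : Fin (T C)
  yhTop : Bool
  yhHalf : Bool
deriving DecidableEq, Fintype

set_option synthInstance.maxSize 20000 in
/-- Finite predicates of one tile. -/
structure Claims where
  cx : XClaims
  cy : YClaims C
  cm : MixClaims
  ex : Extra C
deriving DecidableEq, Fintype

set_option synthInstance.maxSize 20000 in
/-- The state of the scanning column: a copy of the claims of the own tile, and what has been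
recomputed from its numbers. -/
structure Carry where
  copy : Fin (2 ^ (A C - 2 - AF C))
  i : Fin (B C + 2)
  cy : YClaims C
  s : Scanned C
deriving DecidableEq, Fintype

set_option synthInstance.maxSize 20000 in
/-- The lookup state of a column of the second table zone. -/
structure Look where
  copy : Fin (2 ^ (A C - 2 - AF C))
  vv : Bool
  eq : Bool
deriving DecidableEq, Fintype

set_option synthInstance.maxSize 20000 in
/-- The stored finite part of a state. -/
structure Fin' where
  h : Bits
  vb : Bits
  carry : Option (Carry C)
  eq : Option Bool
  v : Bool
  look : Option (Look C)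
  /-- the row is a wire row in use -/
  live : Bool
  /-- the data handed down by the parent -/
  pf : PF C
  wOn : Bool
deriving DecidableEq, Fintype

/-- The fields of a finite part which have no row of their own. -/
abbrev Rest : Type := Option (Carry C) × Option (Look C) × Bool × PF C × Bool

variable {C}

/-- The fields without a row of their own. -/
def Fin'.rest (f : Fin' C) : Rest C := (f.carry, f.look, f.live, f.pf, f.wOn)

/-- A number encoding a finite value. -/
def code {α : Type} [Fintype α] (a : α) : ℕ := (Fintype.equivFin α a).val

variable (C)

lemma card_le_data {n : ℕ} (h : n ≤ dataSize C) : n ≤ 2 ^ expA C :=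
  le_trans (Nat.lt_two_pow_self).le (Nat.pow_le_pow_right two_pos (by unfold expA; omega))

lemma card_y : Fintype.card (YClaims C) ≤ 2 ^ (3 * expA C + 12) := by
  refine le_trans (Fintype.card_le_of_injective
    (fun c : YClaims C => (c.yl0, c.ymC, c.yhC, c.yhMod, c.yhTop, c.yhHalf)) ?_) ?_
  · rintro ⟨_, _, _, _, _, _⟩ ⟨_, _, _, _, _, _⟩ h
    simpa using h
  · simp only [Fintype.card_prod, Fintype.card_bool, Fintype.card_fin]
    have hT : T C ≤ 2 ^ expA C := Nat.pow_le_pow_right two_pos (by unfold expA; omega)
    have hA := A_ge C
    have h5 : YB C + 1 ≤ 2 ^ (2 * expA C + 7) := by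
      have e : 2 ^ (2 * expA C + 7) = 128 * (A C * A C) := by
        rw [pow_add, two_mul, pow_add]; unfold A; ring
      have h1 : T C * (B C + 2) ≤ A C * (B C + 2) := Nat.mul_le_mul_right _ hT
      have h2 : A C * (B C + 2) ≤ A C * (33 * A C) := Nat.mul_le_mul_left _ (by unfold B; omega)
      have h3 : A C ≤ A C * A C := Nat.le_mul_of_pos_left _ (by omega)
      have h4 : A C * (33 * A C) = 33 * (A C * A C) := by ring
      rw [e, YB]
      omega
    calc 2 * (4 * ((YB C + 1) * (T C * (2 * 2))))
        = (YB C + 1) * T C * 2 ^ 5 := by ring
      _ ≤ 2 ^ (2 * expA C + 7) * 2 ^ expA C * 2 ^ 5 :=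
          Nat.mul_le_mul_right _ (Nat.mul_le_mul h5 hT)
      _ = 2 ^ (3 * expA C + 12) := by rw [← pow_add, ← pow_add]; congr 1; omega

/-- The claims fit into their rows. -/
lemma card_claims : Fintype.card (Claims C) ≤ 2 ^ (A C - 2 - AF C) := by
  refine le_trans (Fintype.card_le_of_injective
    (fun c : Claims C => (c.cx, c.cy, c.cm, c.ex)) ?_) ?_
  · rintro ⟨_, _, _, _⟩ ⟨_, _, _, _⟩ h
    simpa using h
  · simp only [Fintype.card_prod]
    refine le_trans (Nat.mul_le_mul (card_le_data C (n := Fintype.card XClaims)
      (by unfold dataSize; omega)) (Nat.mul_le_mul (card_y C) (Nat.mul_le_mul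
      (card_le_data C (n := Fintype.card MixClaims) (by unfold dataSize; omega))
      (card_le_data C (n := Fintype.card (Extra C)) (by unfold dataSize; omega))))) ?_
    rw [← pow_add, ← pow_add, ← pow_add]
    refine Nat.pow_le_pow_right two_pos ?_
    have := expA_fits C
    have := eight_dvd_A C
    unfold AF
    omega

/-- The fields without a row of their own fit into their rows. -/
lemma card_rest : Fintype.card (Rest C) ≤ 2 ^ (AF C - restRow) := by
  have hm : 2 ^ (A C - 2 - AF C) ≤ 2 ^ (A C / 8) :=
    Nat.pow_le_pow_right two_pos (by have := eight_dvd_A C; unfold AF; omega)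
  have hcarry : Fintype.card (Carry C) + 1 ≤ 2 ^ (A C / 8 + 5 * expA C + 19) := by
    have h : Fintype.card (Carry C) ≤ 2 ^ (A C / 8) * (2 ^ (expA C + 6) *
        (2 ^ (3 * expA C + 12) * 2 ^ expA C)) := by
      refine le_trans (Fintype.card_le_of_injective
        (fun c : Carry C => (c.copy, c.i, c.cy, c.s)) ?_) ?_
      · rintro ⟨_, _, _, _⟩ ⟨_, _, _, _⟩ h
        simpa using h
      · simp only [Fintype.card_prod, Fintype.card_fin]
        refine Nat.mul_le_mul hm (Nat.mul_le_mul ?_ (Nat.mul_le_mul (card_y C)
          (card_le_data C (n := Fintype.card (Scanned C)) (by unfold dataSize; omega))))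
        have hA := A_ge C
        rw [pow_add, B]
        show 32 * A C + 2 + 2 ≤ A C * 2 ^ 6
        omega
    rw [← pow_add, ← pow_add, ← pow_add,
      show A C / 8 + (expA C + 6 + (3 * expA C + 12 + expA C)) = A C / 8 + 5 * expA C + 18 by
        omega] at h
    rw [pow_succ]
    have := Nat.one_le_two_pow (n := A C / 8 + 5 * expA C + 18)
    omega
  have hlook : Fintype.card (Look C) + 1 ≤ 2 ^ (A C / 8 + 3) := by
    have h : Fintype.card (Look C) ≤ 2 ^ (A C / 8) * (2 * 2) := by
      refine le_trans (Fintype.card_le_of_injective
        (fun c : Look C => (c.copy, c.vv, c.eq)) ?_) ?_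
      · rintro ⟨_, _, _⟩ ⟨_, _, _⟩ h
        simpa using h
      · simp only [Fintype.card_prod, Fintype.card_fin, Fintype.card_bool]
        exact Nat.mul_le_mul_right _ hm
    rw [pow_add]
    have := Nat.one_le_two_pow (n := A C / 8)
    omega
  simp only [Rest, Fintype.card_prod, Fintype.card_bool, Fintype.card_option]
  refine le_trans (Nat.mul_le_mul hcarry
    (Nat.mul_le_mul hlook (Nat.mul_le_mul_left _ (Nat.mul_le_mul_right _
      (card_le_data C (n := Fintype.card (PF C)) (by unfold dataSize; omega)))))) ?_
  rw [show ∀ x y z : ℕ, x * (y * (2 * (z * 2))) = x * y * z * 2 ^ 2 from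
      fun x y z => by ring, ← pow_add, ← pow_add, ← pow_add]
  refine Nat.pow_le_pow_right two_pos ?_
  have := expA_fits C
  have := eight_dvd_A C
  unfold AF restRow
  omega

end Vale.Agent.P193.W4.Common
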