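import Vale.Agent.P193.W4.Common.States

/-!
P193, module W4.A (common layer): the scanning column.

It reads, bit index after bit index, the numbers of the own parent and of its back neighbours.
From the machine claims of its own tiles, whose counter sweeps the indices, it computes the cells of
the next time, which are those of the parent.
-/

noncomputable section

namespace Vale.Agent.P193.W4.Common

variable {C : Cfg}

/-- Saturating addition of `2^i` when `b`. -/
def satAdd {n : ℕ} (acc : Fin (n + 1)) (i : ℕ) (b : Bool) : Fin (n + 1) :=
  if b then ⟨min (acc.val + 2 ^ min i (n + 1)) n, by omega⟩ else acc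

/-- Update one part of a comparison. -/
def cmpUpd (f : Fin 3 → Cmp) (p : Fin 3) (t d : Bool) : Fin 3 → Cmp :=
  Function.update f p ((f p).step t d)

/-- Three parts are equal. -/
def eqThree (f : Fin 3 → Cmp) : Bool := (f 0).eq && (f 1).eq && (f 2).eq

variable (C) in
/-- The axes along which the number of type `τ` does not change. -/
def eqAxis (τ : ℕ) (a : Fin 5) : Bool :=
  if τ < 3 then decide (a ≠ 0)
  else if τ < 6 then decide (a ≠ 1)
  else if τ = 6 then decide (2 ≤ a.val)
  else decide (τ < 7 + (C.k + 2)) && decide (a ≠ 4)

/-- Start of the machine along the scanning column. -/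
def MAcc.init : MAcc C := ⟨none, none, none, none, false, ⟨none, none, false, false⟩⟩

/-- Move to the next index: `d` is the machine claim of the scanning tile, and `hit` says that the
own counter is at the previous index. -/
def MAcc.advance (m : MAcc C) (d : Option (Mach C)) (hit : Bool) : MAcc C :=
  let cur := d.elim m.next Mach.cur
  let next := d.elim (some C.R.blank) Mach.next
  let cell := cur.map fun a => C.R.step m.cur a next
  { prev := m.cur
    cur := cur
    next := next
    cell := cell
    alive := cell.elim false fun a =>
      (if m.cell.isSome then m.alive else true) && (C.R.read a).isSome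
    res :=
      { m.res with
        next := if hit then cell else m.res.next
        em := if m.cur.isNone then cell.elim m.res.em C.R.emit else m.res.em } }

/-- Record the index of the own counter. -/
def MAcc.mark (m : MAcc C) (b : Bool) : MAcc C :=
  if b then { m with res := { m.res with cur := m.cell, alive := m.alive } } else m

/-- The own machine claim at the end of the column; `hit` says that the own counter is at the last
index. -/
def MAcc.result (m : MAcc C) (hit : Bool) : Mach C :=
  { m.res with
    next := if hit then m.cur.map (fun a => C.R.step (some a) C.R.blank (some C.R.blank))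
      else m.res.next }

/-- Start of the word along the scanning column. -/
def WAcc.init : WAcc C := ⟨fun _ => false, false, true, true, fun _ => false⟩

/-- Read the bit `b` of track `r` at the current index: `cell` says that a letter sits here, `first`
that it is the lowest one, `hit` that the own counter is here. -/
def WAcc.read (w : WAcc C) (r : Track C) (b cell first hit : Bool) : WAcc C where
  letter := Function.update w.letter r b
  star := if r = 0 then b else w.star
  ok := w.ok && (cell || !b) &&
    (if r = 0 then (!w.star || b) && (!first || !b) else !(w.star && b))
  zero := w.zero && !b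
  wd := if hit then Function.update w.wd r b else w.wd

variable (C) in
/-- The empty state of the scanning column. -/
def Carry.init : Carry C where
  copy := 0
  i := 0
  cy := ⟨true, 0, 0, ⟨0, Nat.two_pow_pos _⟩, true, false⟩
  s :=
    { cx := ⟨true, true, true, true, 0, true⟩
      cm := ⟨true, fun _ => false, false, true, true⟩
      yhBit := false
      xI := fun _ => Cmp.init
      yI := fun _ => Cmp.init
      eqs := true
      cu := ⟨true, true, false⟩
      uBit := false
      ma := MAcc.init
      wa := WAcc.init }

/-- Read bit `n` of the claims of the own tile. -/
def Carry.readClaim (c : Carry C) (n : ℕ) (b : Bits) : Carry C :=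
  { c with copy := ⟨(c.copy.val + if b self then 2 ^ n else 0) % 2 ^ (A C - 2 - AF C),
      Nat.mod_lt _ (Nat.two_pow_pos _)⟩ }

/-- Compare the bit of the number of type `τ` with the neighbours. -/
def Carry.compare (c : Carry C) (τ : ℕ) (b : Bits) : Carry C :=
  { c with
    s :=
      { c.s with
        eqs := c.s.eqs && decide (∀ a, eqAxis C τ a = true → b (axis a) = b self)
        xI := if h : τ < 3 then cmpUpd c.s.xI ⟨τ, h⟩ (b self) (b (axis 0)) else c.s.xI
        yI := if h : 3 ≤ τ ∧ τ < 6 then cmpUpd c.s.yI ⟨τ - 3, by omega⟩ (b self) (b (axis 1))
          else c.s.yI } }

/-- Read the bit of the number of type `τ` at the current index; `d` is the machine claim of the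
scanning tile. -/
def Carry.readNum (c₀ : Carry C) (τ : ℕ) (b : Bits) (d : Option (Mach C)) : Carry C :=
  let c := c₀.compare τ b
  let i := c.i.val
  let t := b self
  match τ with
  | 0 =>
    let k := (claimsOfCopy (C := C) c.copy.val).elim 0 (fun m => m.cy.yhC.val)
    { c with
      s :=
        { c.s with
          cx :=
            { c.s.cx with
              xl0 := c.s.cx.xl0 && !t
              xlTop := c.s.cx.xlTop && t
              xlEven := c.s.cx.xlEven && (decide (i ≠ 0) || !t)
              xlSmall := c.s.cx.xlSmall && (decide (i ≠ 0) || !t) && (decide (i ≠ 1) || t) &&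
                (decide (i < B C) || !t) && (decide (i ≠ B C - 1) || t) }
          cm :=
            { c.s.cm with
              diag := c.s.cm.diag && (c.s.yhBit == t)
              q := fun g => c.s.cm.q g ||
                (decide (k < A C) && decide (i = 32 * k + (gidx g).val + 2) && t)
              ql := c.s.cm.ql ||
                (decide (A C ≤ k) && decide (lidx C k < B C) && decide (i = lidx C k) && t) }
          ma := c.s.ma.advance d c.s.uBit } }
  | 1 => { c with s := { c.s with cx := { c.s.cx with xmC := satAdd (n := 8) c.s.cx.xmC i t } } }
  | 2 => { c with s := { c.s with cx := { c.s.cx with xh0 := c.s.cx.xh0 && !t } } }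
  | 3 => { c with cy := { c.cy with yl0 := c.cy.yl0 && !t } }
  | 4 => { c with cy := { c.cy with ymC := satAdd (n := 3) c.cy.ymC i t } }
  | 5 =>
    { c with
      cy :=
        { c.cy with
          yhC := satAdd c.cy.yhC i t
          yhMod := ⟨(c.cy.yhMod.val + if t then 2 ^ i else 0) % T C,
            Nat.mod_lt _ (Nat.two_pow_pos _)⟩
          yhTop := c.cy.yhTop && t
          yhHalf := decide (c.cy.yhC.val = 0) && t }
      s := { c.s with yhBit := t } }
  | 6 =>
    { c with
      s :=
        { c.s with
          cm := { c.s.cm with u0 := c.s.cm.u0 && !t, u1 := c.s.cm.u1 && (t == decide (i = 0)) }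
          cu :=
            { uEq := c.s.cu.uEq && (t == b (axis 1))
              uDbl := c.s.cu.uDbl && (t == c.s.cu.uPrev)
              uPrev := b (axis 1) }
          uBit := t
          ma := c.s.ma.mark t } }
  | r + 7 =>
    if h : r < C.k + 2 then
      { c with
        s :=
          { c.s with
            wa := c.s.wa.read ⟨r, h⟩ t c.s.ma.cur.isSome
              (c.s.ma.prev.isNone && c.s.ma.cur.isSome) c.s.uBit } }
    else if r + 8 = T C then { c with i := ⟨min (i + 1) (B C + 1), by omega⟩ }
    else c

variable (C) in
/-- The machine claim of the scanning tile of level `L` at index `i`. -/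
def scanMach (L i : ℕ) : Option (Mach C) := if i < L then some (machAt C L i) else none

/-- The transition at a row with index `k`, index modulo the period `m`, bits `q` and machine
claim `d`. -/
def Carry.stepRow (c : Carry C) (k m : ℕ) (q : Bits) (d : Option (Mach C)) : Carry C :=
  if k < AF C then c
  else if k < A C - 2 then c.readClaim (k - AF C) q
  else if k < A C then c
  else c.readNum (m % T C) q d

/-- The transition at row `k` of level `L`. -/
def Carry.step (c : Carry C) (L k : ℕ) (b : ℕ → Bits) : Carry C :=
  c.stepRow k ((k - A C) % T C) (b k) (scanMach C L ((k - A C) / T C))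

variable (C) in
/-- The state after the rows `0, …, k`. -/
def scan (L : ℕ) (b : ℕ → Bits) : ℕ → Carry C
  | 0 => (Carry.init C).step L 0 b
  | k + 1 => (scan L b k).step L (k + 1) b

end Vale.Agent.P193.W4.Common
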