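import Vale.Agent.P193.W4.Common.Params

/-!
P193, module W4.A (common layer): states, claims and the bits shown for a parent.

Level `L` (at least `L₀`): numbers have `L` bits and the machine is at time `L - L₀`; the letters
of a word and the cells of the machine sit at the bits `L₀ + j`.  A tile carries, besides the plane
coordinates and the counter, one number for each track of its word and its three digits in its
parent.
-/

noncomputable section

namespace Vale.Agent.P193.W4.Common

variable (C : Cfg)

/-- A tile state. -/
structure St where
  x : ℕ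
  y : ℕ
  u : ℕ
  /-- the word, one number for each track -/
  w : Track C → ℕ
  /-- the digits in the parent -/
  z : Digits C
  fin : Fin' C
deriving DecidableEq

/-! ### Numbers -/

def M (L : ℕ) : ℕ := 2 ^ L
def H (L : ℕ) : ℕ := M L ^ 3
def lo (L x : ℕ) : ℕ := x % M L
def mid (L x : ℕ) : ℕ := x / M L % M L
def hi (L x : ℕ) : ℕ := x / M L ^ 2

/-- The index of the bit shown on a number row. -/
def lidx (yhC : ℕ) : ℕ := (yhC - A C) / T C

/-! ### Letters -/

/-- The bits of a letter; `none` is a star. -/
def letterBits : Option (Full C.k) → Track C → Bool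
  | none => fun r => decide (r = 0)
  | some d => Fin.cases false fun r => d (finSuccEquiv C.k r)

/-- The letter with the given bits. -/
def decodeLetter (b : Track C → Bool) : Option (Full C.k) :=
  if b 0 then none else some fun s => b ((finSuccEquiv C.k).symm s).succ

lemma decode_letterBits (o : Option (Full C.k)) : decodeLetter C (letterBits C o) = o := by
  cases o with
  | none => simp [decodeLetter, letterBits]
  | some d =>
    simp [decodeLetter, letterBits]

/-! ### The machine -/

/-- A cell of the row of level `L`. -/
def cellAt (L j : ℕ) : C.α := C.R.row (L - L₀ C) j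

/-- The row of level `L` shows letters up to index `j`. -/
def aliveAt (L j : ℕ) : Bool :=
  decide (∀ j' < j + 1, (C.R.read (cellAt C L j')).isSome = true)

/-- The row of level `L` shows a word. -/
def emitAt (L : ℕ) : Bool := C.R.emit (cellAt C L 0)

/-- The machine of level `L` seen at bit `i`. -/
def machAt (L i : ℕ) : Mach C where
  cur := if L₀ C ≤ i then some (cellAt C L (i - L₀ C)) else none
  next := if L₀ C ≤ i + 1 then some (cellAt C L (i + 1 - L₀ C)) else none
  alive := decide (L₀ C ≤ i) && aliveAt C L (i - L₀ C)
  em := emitAt C L

/-- A letter of the word shown by the row of level `L`, padded with stars. -/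
def wordLetter (L j : ℕ) : Option (Full C.k) :=
  if aliveAt C L j then C.R.read (cellAt C L j) else none

/-- The word shown by the row of level `L`. -/
def kWord (L : ℕ) (r : Track C) : ℕ :=
  ∑ i ∈ Finset.Ico (L₀ C) L, if letterBits C (wordLetter C L (i - L₀ C)) r then 2 ^ i else 0

/-! ### Claims -/

variable {C}

/-- The claims of a state. -/
def claims (L : ℕ) (t : St C) : Claims C where
  cx :=
    { xl0 := decide (lo L t.x = 0)
      xlTop := decide (lo L t.x = M L - 1)
      xlEven := decide (lo L t.x % 2 = 0)
      xlSmall := decide (lo L t.x % 4 = 2 ∧ 2 ^ (B C - 1) ≤ lo L t.x ∧ lo L t.x < 2 ^ B C)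
      xmC := ⟨min (mid L t.x) 8, by omega⟩
      xh0 := decide (hi L t.x = 0) }
  cy :=
    { yl0 := decide (lo L t.y = 0)
      ymC := ⟨min (mid L t.y) 3, by omega⟩
      yhC := ⟨min (hi L t.y) (YB C), by omega⟩
      yhMod := ⟨hi L t.y % T C, Nat.mod_lt _ (Nat.two_pow_pos _)⟩
      yhTop := decide (hi L t.y = M L - 1)
      yhHalf := decide (hi L t.y = M L / 2) }
  cm :=
    { diag := decide (lo L t.x = 2 * hi L t.y)
      q := fun g => decide (min (hi L t.y) (YB C) < A C) &&
        (lo L t.x).testBit (32 * min (hi L t.y) (YB C) + (gidx g).val + 2)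
      ql := decide (A C ≤ min (hi L t.y) (YB C)) &&
        decide (lidx C (min (hi L t.y) (YB C)) < B C) &&
        (lo L t.x).testBit (lidx C (min (hi L t.y) (YB C)))
      u0 := decide (t.u = 0)
      u1 := decide (t.u = 1) }
  ex :=
    { z := t.z
      pf := t.fin.pf
      wOn := t.fin.wOn
      top := if t.fin.wOn = true ∧ L₀ C < L then decodeLetter C (fun r => (t.w r).testBit (L - 1))
        else none
      mach := if t.u = 0 then none else some (machAt C L (Nat.log 2 t.u))
      wd := fun r => decide (t.u ≠ 0) && (t.w r).testBit (Nat.log 2 t.u) }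

/-- The signature of a window. -/
abbrev Sig (C : Cfg) : Type := Win (Fin' C × Claims C)

def sig (L : ℕ) (w : Win (St C)) : Sig C := fun g => ((w g).fin, claims L (w g))

/-! ### What is handed down -/

/-- Nothing handed down. -/
def PF.off : PF C := ⟨Flags.off, false, false, none⟩

/-- The readout of a tile, handed down to its children. -/
def readout (m : Claims C) : PF C where
  flags := m.ex.pf.flags.step fun i => sym (m.ex.z i)
  hit := matchStep m.ex.pf.hit (fun i => sym (m.ex.z i)) m.ex.top m.ex.pf.top
  wOn := m.ex.wOn
  top := m.ex.top

/-! ### The bits shown for a parent -/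

/-- The bits of a finite part and claims on rows `k < A`: the table bit, the horizontal bits, the
vertical bits, the two bits of the equality state, the other fields, the claims, and two constant
ones. -/
def finBits (s : Fin' C × Claims C) (k : ℕ) : Bool :=
  if k = 0 then s.1.v
  else if k < 33 then s.1.h (gidx.symm ⟨(k - 1) % 32, Nat.mod_lt _ (by norm_num)⟩)
  else if k < 65 then s.1.vb (gidx.symm ⟨(k - 33) % 32, Nat.mod_lt _ (by norm_num)⟩)
  else if k = 65 then s.1.eq.isSome
  else if k = 66 then decide (s.1.eq = some true)
  else if k < AF C then (code s.1.rest).testBit (k - restRow)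
  else if k < A C - 2 then (code s.2).testBit (k - AF C)
  else decide (k < A C)

/-- The number of type `τ` of a state with `L`-bit numbers: the six parts of the coordinates, the
counter, the tracks of the word. -/
def num (L : ℕ) (t : St C) (τ : ℕ) : ℕ :=
  match τ with
  | 0 => lo L t.x
  | 1 => mid L t.x
  | 2 => hi L t.x
  | 3 => lo L t.y
  | 4 => mid L t.y
  | 5 => hi L t.y
  | 6 => t.u
  | r + 7 => if h : r < C.k + 2 then t.w ⟨r, h⟩ else 0

/-- The bits displayed for a parent with `L'`-bit numbers. -/
def enc (L' : ℕ) (t : St C) (k : ℕ) : Bool :=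
  if k < A C then finBits (t.fin, claims L' t) k
  else decide ((k - A C) / T C < L') && (num L' t ((k - A C) % T C)).testBit ((k - A C) / T C)

/-- The bits of the parent of a tile and of its back neighbours. -/
def quadBits (L' : ℕ) (w : Win (St C)) : ℕ → Bits := fun k g => enc L' (w g) k

/-- The claims with the given code. -/
def claimsOfCopy (c : ℕ) : Option (Claims C) :=
  if h : c < Fintype.card (Claims C) then some ((Fintype.equivFin (Claims C)).symm ⟨c, h⟩) else none

variable (C)

/-- The code of the claims of the own parent on the rows below `n`. -/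
def copyUpTo (b : ℕ → Bits) (n : ℕ) : Fin (2 ^ (A C - 2 - AF C)) :=
  ⟨(∑ m ∈ Finset.range (min (n - AF C) (A C - 2 - AF C)),
      if b (AF C + m) self then 2 ^ m else 0) % 2 ^ (A C - 2 - AF C),
    Nat.mod_lt _ (Nat.two_pow_pos _)⟩

/-- What is handed down by the parent with the given bits. -/
def pfOf (b : ℕ → Bits) : PF C :=
  (claimsOfCopy (C := C) (copyUpTo C b (A C)).val).elim PF.off readout

/-- The lowest `L` bits of the word of the parent with the given bits. -/
def wOf (L : ℕ) (b : ℕ → Bits) (r : Track C) : ℕ :=
  ∑ i ∈ Finset.range L, if b (A C + T C * i + 7 + r.val) self then 2 ^ i else 0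

end Vale.Agent.P193.W4.Common
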