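import Vale.Agent.P193.W4.Tower.Line
import Vale.Agent.P193.W4.Common.SFT
import Vale.Agent.P193.W4.Common.Words

/-!
P193, module W4.A (common layer): the tower of a point. Iterating the desubstitution gives valid
tilings of all levels; the folded state of a tile does not depend on its place in the plane, and
the offsets give the placements on the counter axes.
-/

noncomputable section

namespace Vale.Agent.P193.W4.Common

variable {C : Cfg} {L : ℕ} {c c' : Z5 → St C} {o : Z5}
  {em : ℕ → Option (List (Full C.k))}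

/-! ### Neighbours in a valid tiling -/

/-- A tile and the one behind it on an axis, read in the window of the former. -/
lemma ValidTiling.edge (hc : ValidTiling L c) (P : Z5) (a : Fin 5) :
    EdgeNum L a (c P) (c (P - Pi.single a 1)) ∧
    FoldOK (sig L (quadAt c P)) ∧ quadAt c P self = c P ∧
      quadAt c P (back self a) = c (P - Pi.single a 1) := by
  have h₀ : quadAt c P self = c P := by
    have : P - dir self = P := by funext b; simp [dir, self]
    rw [quadAt, this]
  have h₁ : quadAt c P (back self a) = c (P - Pi.single a 1) := by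
    have : P - dir (back self a) = P - Pi.single a 1 := by
      funext b
      simp [dir, self, back, Pi.single_apply]
    rw [quadAt, this]
  have h := (hc P).1.2.1 self a rfl
  rw [h₀, h₁] at h
  exact ⟨h, (hc P).1.2.2.2.2, h₀, h₁⟩

lemma ValidTiling.wordNum (hc : ValidTiling L c) (P : Z5) : WordNum L (c P) := by
  have h := (hc P).1.1 self
  rw [(hc.edge P 0).2.2.1] at h
  exact h.2

lemma ValidTiling.reach (hc : ValidTiling L c) (P : Z5) :
    (stateAt L (c P)).flags.Reach := by
  obtain ⟨-, hF, h₀, -⟩ := hc.edge P 0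
  have h := hF.reach self
  simp only [sig, h₀] at h
  exact Flags.Reach.step _ h

/-- Along the plane the state does not change. -/
lemma ValidTiling.plane_step (hc : ValidTiling L c) (P : Z5) {a : Fin 5} (ha : a.val < 2) :
    stateAt L (c P) = stateAt L (c (P - Pi.single a 1)) ∧
      (c P).z = (c (P - Pi.single a 1)).z := by
  obtain ⟨⟨-, -, -, hw, hz⟩, hF, h₀, h₁⟩ := hc.edge P a
  have hne : ∀ i, a ≠ zAx i := fun i h => by rw [h] at ha; simp [zAx] at ha
  have hzz : (c P).z = (c (P - Pi.single a 1)).z := funext fun i => by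
    simpa [hne i] using hz i
  have hp := hF.plane self a rfl ha
  have hon := hF.on self a rfl (fun h => by rw [h] at ha; simp at ha)
  simp only [sig, h₀, h₁] at hp hon
  have hw' := hw (fun h => by rw [h] at ha; simp at ha)
  refine ⟨?_, hzz⟩
  simp only [stateAt, wordAt, readout, claims, hp, hon, hzz, hw']

/-- Two tiles over the same counters have the same state and digits. -/
lemma ValidTiling.plane_eq (hc : ValidTiling L c) {P Q : Z5}
    (h : ∀ i, P (zAx i) = Q (zAx i)) :
    stateAt L (c P) = stateAt L (c Q) ∧ (c P).z = (c Q).z := by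
  suffices key : ∀ (a : Fin 5), a.val < 2 → ∀ (d : ℤ) (P : Z5),
      stateAt L (c (P + Pi.single a d)) = stateAt L (c P) ∧
        (c (P + Pi.single a d)).z = (c P).z by
    have e : Q = P + Pi.single 0 (Q 0 - P 0) + Pi.single 1 (Q 1 - P 1) := by
      funext b
      fin_cases b
      · simp
      · simp
      · simpa [zAx] using (h 0).symm
      · simpa [zAx] using (h 1).symm
      · simpa [zAx] using (h 2).symm
    obtain ⟨h₁, h₂⟩ := key 1 (by decide) (Q 1 - P 1) (P + Pi.single 0 (Q 0 - P 0))
    obtain ⟨h₃, h₄⟩ := key 0 (by decide) (Q 0 - P 0) P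
    rw [← e] at h₁ h₂
    exact ⟨(h₁.trans h₃).symm, (h₂.trans h₄).symm⟩
  intro a ha d
  induction d using Int.induction_on with
  | zero => intro P; simp
  | succ d ih =>
    intro P
    have h := hc.plane_step (P + Pi.single a ((d : ℤ) + 1)) ha
    rw [show P + Pi.single a ((d : ℤ) + 1) - Pi.single a 1 = P + Pi.single a (d : ℤ) by
      rw [add_sub_assoc, ← Pi.single_sub, add_sub_cancel_right]] at h
    exact ⟨h.1.trans (ih P).1, h.2.trans (ih P).2⟩
  | pred d ih =>
    intro P
    have h := hc.plane_step (P + Pi.single a (-(d : ℤ))) ha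
    rw [show P + Pi.single a (-(d : ℤ)) - Pi.single a 1 = P + Pi.single a (-(d : ℤ) - 1) by
      rw [add_sub_assoc, ← Pi.single_sub]] at h
    exact ⟨h.1.symm.trans (ih P).1, h.2.symm.trans (ih P).2⟩

/-- Tiles next to each other along a counter axis. -/
lemma ValidTiling.beside (hc : ValidTiling L c) (P : Z5) (i : Fin 3) :
    (stateAt L (c P)).Beside i (stateAt L (c (P + Pi.single (zAx i) 1))) := by
  set Q := P + Pi.single (zAx i) 1 with hQ
  obtain ⟨⟨-, -, -, hw, hz⟩, hF, h₀, h₁⟩ := hc.edge Q (zAx i)
  rw [hQ, add_sub_cancel_right, ← hQ] at hw hz h₁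
  have hp := hF.counter self i rfl
  have hon := hF.on self (zAx i) rfl
  simp only [sig, h₀, h₁] at hp hon
  have hzz : ∀ j, j ≠ i → (c Q).z j = (c P).z j := fun j hj => by
    have h := hz j
    rwa [if_neg] at h
    intro h'
    exact hj (Fin.ext (by simpa [zAx] using (congrArg Fin.val h').symm))
  have h4 : i ≠ 2 → zAx i ≠ 4 := fun hi h =>
    hi (Fin.ext (by simpa [zAx] using congrArg Fin.val h))
  have hword : i ≠ 2 → wordAt L (c Q) = wordAt L (c P) := fun hi => by
    simp only [wordAt, hw (h4 hi), hon (h4 hi)]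
  have hfold : (⟨(c Q).fin.pf.flags, none, (c Q).fin.pf.hit⟩ : W4.St C.k).Beside i
      ⟨(c P).fin.pf.flags, none, (c P).fin.pf.hit⟩ :=
    ⟨hp.eq, hp.peq, hp.rel, hp.prel, hp.br, hp.wasH, hp.wasP, fun _ => rfl, hp.hit⟩
  have hs := St.Beside.step (em := fun _ => none) hfold 0
    (z := fun j => sym ((c Q).z j)) (z' := fun j => sym ((c P).z j))
    fun j hj => congrArg sym (hzz j hj)
  refine St.Beside.symm ⟨hs.eq, hs.peq, hs.rel, hs.prel, hs.br, hs.wasH, hs.wasP, hword,
    fun p => ?_⟩
  · subst p
    have htop : (claims L (c Q)).ex.top = (claims L (c P)).ex.top := by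
      rw [← topLetter_wordAt, ← topLetter_wordAt, hword (by decide)]
    show matchStep (c Q).fin.pf.hit (fun j => sym ((c Q).z j)) (claims L (c Q)).ex.top
        (c Q).fin.pf.top =
      matchStep (c P).fin.pf.hit (fun j => sym ((c P).z j)) (claims L (c P)).ex.top
        (c P).fin.pf.top
    simp only [matchStep, hzz 0 (by decide), hzz 2 (by decide), htop, hp.hit rfl,
      hp.top (by decide)]

/-! ### The parent of a tile -/

/-- The parent of the tile `Q`. -/
def parentOf (C : Cfg) (L : ℕ) (o Q : Z5) : Z5 := fun a => (Q a - o a) / extent C L a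

/-- The position of the tile `Q` in its parent on an axis. -/
def posIn (C : Cfg) (L : ℕ) (o Q : Z5) (a : Fin 5) : ℕ := ((Q a - o a) % extent C L a).toNat

/-- The digits of the tile `Q`. -/
def digitsIn (C : Cfg) (L : ℕ) (o Q : Z5) : Digits C := fun i => Axis.red (Q (zAx i) - o (zAx i))

lemma extent_pos (C : Cfg) (L : ℕ) (a : Fin 5) : 0 < extent C L a := by
  have hH : 0 < H L := H_pos L
  have hb : 0 < base C.k := by unfold base; omega
  fin_cases a <;> simp [extent, hH, hb]

lemma posIn_cast (Q : Z5) (a : Fin 5) :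
    (posIn C L o Q a : ℤ) = (Q a - o a) % extent C L a :=
  Int.toNat_of_nonneg (Int.emod_nonneg _ (extent_pos C L a).ne')

/-- A tile is the child of its parent at its position. -/
lemma IsParent.eq (h : IsParent L c c' o) (Q : Z5) :
    c Q = childAt L c' (parentOf C L o Q) (posIn C L o Q 0) (posIn C L o Q 1)
      (digitsIn C L o Q) := by
  have hlt : ∀ a, (posIn C L o Q a : ℤ) < extent C L a := fun a => by
    rw [posIn_cast]; exact Int.emod_lt_of_pos _ (extent_pos C L a)
  refine Eq.trans (congrArg c ?_) (h.2 _ _ _ _ ?_ ?_)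
  · funext a
    have e := Int.mul_ediv_add_emod (Q a - o a) (extent C L a)
    have key : Q a = o a + extent C L a * parentOf C L o Q a + posIn C L o Q a := by
      rw [posIn_cast, parentOf]; omega
    simp only [place, Pi.add_apply, Pi.mul_apply]
    rw [key]
    congr 1
    fin_cases a <;> simp [posIn_cast, digitsIn, Axis.red_val, zAx, extent]
  · exact Int.ofNat_lt.1 (hlt 0)
  · exact Int.ofNat_lt.1 (hlt 1)

lemma childAt_z (P : Z5) (X Y : ℕ) (Z : Digits C) : (childAt L c' P X Y Z).z = Z := rfl

/-- The state of a tile is one step of the fold of that of its parent. -/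
lemma IsParent.stateAt_eq (hem : Emits C.R em) (hL : L₀ C ≤ L) (h : IsParent L c c' o) (Q : Z5) :
    (c Q).z = digitsIn C L o Q ∧
      stateAt L (c Q) = (stateAt (L + 1) (c' (parentOf C L o Q))).step em (L - L₀ C)
        fun i => sym (digitsIn C L o Q i) := by
  rw [h.eq Q]
  refine ⟨rfl, stateAt_child hem hL _ (fun j => ?_) _ _ _⟩
  show enc (L + 1) (quadAt c' _ self) j = _
  rw [(h.1.edge _ 0).2.2.1]

/-! ### The levels of a point -/

variable (hD : DesubStatement C)

/-- A valid tiling of level `L₀ + n`. -/
abbrev Level (C : Cfg) (n : ℕ) : Type := {c : Z5 → St C // ValidTiling (L₀ C + n) c}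

/-- The offset and the tiling of the parents. -/
def desub (n : ℕ) (c : Level C n) : Z5 × (Z5 → St C) :=
  (hD _ (Nat.le_add_right _ n) c.1 c.2).choose

lemma desub_spec (n : ℕ) (c : Level C n) :
    IsOffset C (L₀ C + n) (desub hD n c).1 ∧
      IsParent (L₀ C + n) c.1 (desub hD n c).2 (desub hD n c).1 :=
  (hD _ (Nat.le_add_right _ n) c.1 c.2).choose_spec.1

/-- The tilings of all levels of a point. -/
def level (x : (sft C).X) : ∀ n, Level C n
  | 0 => ⟨tiling x.1, validTiling_tiling x⟩
  | n + 1 => ⟨(desub hD n (level x n)).2, (desub_spec hD n (level x n)).2.1⟩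

/-- The offsets of all levels. -/
def offset (x : (sft C).X) (n : ℕ) : Z5 := (desub hD n (level hD x n)).1

lemma level_parent (x : (sft C).X) (n : ℕ) :
    IsParent (L₀ C + n) (level hD x n).1 (level hD x (n + 1)).1 (offset hD x n) :=
  (desub_spec hD n (level hD x n)).2

/-- The coordinate in the tiling of level `n` of the tile `0` of the tower. -/
def origin (x : (sft C).X) : ℕ → Fin 3 → ℤ
  | 0 => 0
  | n + 1 => fun i => (origin x n i - offset hD x n (zAx i)) / (base C.k : ℤ)

/-- The placements. -/
def shiftAt (x : (sft C).X) (n : ℕ) (i : Fin 3) : Fin (base C.k) :=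
  Axis.red (origin hD x n i - offset hD x n (zAx i))

/-- A tile of the tower as a tile of the tiling of its level. -/
def liftTile (x : (sft C).X) (n : ℕ) (t : Fin 3 → ℤ) : Z5 :=
  ![0, 0, t 0 + origin hD x n 0, t 1 + origin hD x n 1, t 2 + origin hD x n 2]

lemma liftTile_zAx (x : (sft C).X) (n : ℕ) (t : Fin 3 → ℤ) (i : Fin 3) :
    liftTile hD x n t (zAx i) = t i + origin hD x n i := by
  fin_cases i <;> rfl

lemma extent_zAx (i : Fin 3) : extent C L (zAx i) = (base C.k : ℤ) := by fin_cases i <;> rfl

lemma shiftAt_spec (x : (sft C).X) (n : ℕ) (t : Fin 3 → ℤ) (i : Fin 3) :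
    (t i + origin hD x n i - offset hD x n (zAx i)) / (base C.k : ℤ) =
        (t i + (shiftAt hD x n i).val) / (base C.k : ℤ) + origin hD x (n + 1) i ∧
      (t i + origin hD x n i - offset hD x n (zAx i)) % (base C.k : ℤ) =
        (t i + (shiftAt hD x n i).val) % (base C.k : ℤ) := by
  have hb : (0 : ℤ) < base C.k := by unfold base; omega
  have e : t i + origin hD x n i - offset hD x n (zAx i) =
      t i + (shiftAt hD x n i).val + (base C.k : ℤ) * origin hD x (n + 1) i := by
    have := Int.mul_ediv_add_emod (origin hD x n i - offset hD x n (zAx i)) (base C.k : ℤ)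
    rw [shiftAt, Axis.red_val]
    show _ = _ + _ + (base C.k : ℤ) * ((origin hD x n i - offset hD x n (zAx i)) / _)
    omega
  rw [e, Int.add_mul_ediv_left _ _ hb.ne', Int.add_mul_emod_self_left]
  exact ⟨rfl, rfl⟩

variable (hem : Emits C.R em)

/-- The tower of a point. -/
def towerOf (x : (sft C).X) : Tower C.k em where
  shift := shiftAt hD x
  st n t := stateAt (L₀ C + n) ((level hD x n).1 (liftTile hD x n t))
  step n t := by
    obtain ⟨-, hst⟩ := (level_parent hD x n).stateAt_eq hem (Nat.le_add_right _ _)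
      (liftTile hD x n t)
    have hpar := ((level hD x (n + 1)).2.plane_eq
      (P := parentOf C (L₀ C + n) (offset hD x n) (liftTile hD x n t))
      (Q := liftTile hD x (n + 1) fun i => (t i + (shiftAt hD x n i).val) / (base C.k : ℤ))
      fun i => by
        rw [liftTile_zAx, parentOf, extent_zAx, liftTile_zAx]
        exact (shiftAt_spec hD x n t i).1).1
    rw [hst, Nat.add_sub_cancel_left]
    simp only [← Nat.add_assoc] at hpar ⊢
    rw [hpar]
    refine congrArg (W4.St.step em n _) (funext fun i => congrArg sym (Fin.ext ?_))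
    apply Int.ofNat_inj.1
    show ((Axis.red (liftTile hD x n t (zAx i) - offset hD x n (zAx i)) : Fin (base C.k)).val : ℤ)
      = (((t i + (shiftAt hD x n i).val) % (base C.k : ℤ)).toNat : ℤ)
    rw [Axis.red_val, liftTile_zAx, (shiftAt_spec hD x n t i).2,
      Int.toNat_of_nonneg (Int.emod_nonneg _ (by unfold base; omega))]
  reach n t := (level hD x n).2.reach _
  wordOK n t w h := by
    have := wordOK_wordAt ((level hD x n).2.wordNum _) (Nat.le_add_right _ n) h
    rwa [Nat.add_sub_cancel_left] at this
  beside n t a := by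
    have e : liftTile hD x n (Function.update t a (t a + 1)) =
        liftTile hD x n t + Pi.single (zAx a) 1 := by
      funext b
      fin_cases a <;> fin_cases b <;> simp [liftTile, zAx] <;> omega
    rw [e]
    exact (level hD x n).2.beside _ a

/-- The digits of a cell at level `0`. -/
def ownDigits (s : Sym C) : Fin 3 → Fin (base C.k) := s.1.z

/-- The flags of a cell. -/
def cellFlags (s : Sym C) : Flags C.k := (readout (claims (L₀ C) s.1)).flags

/-- The match bit of a cell. -/
def cellHit (s : Sym C) : Bool := (readout (claims (L₀ C) s.1)).hit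

lemma cellOf_eq (v : V) :
    Multiplicative.ofAdd v = A5.cellOf (A5.coords (Multiplicative.ofAdd v)) :=
  (A5.cellOf_coords _).symm

lemma cell_eq (x : (sft C).X) (v : V) :
    stateAt (L₀ C) (x.1 (Multiplicative.ofAdd v)).1 = (towerOf hD hem x).st 0 v.1 ∧
      ownDigits (x.1 (Multiplicative.ofAdd v)) = (towerOf hD hem x).digit v.1 0 := by
  set P := A5.coords (Multiplicative.ofAdd v) with hP
  have hx : (x.1 (Multiplicative.ofAdd v)).1 = tiling x.1 P := by
    show _ = (x.1 (A5.cellOf P)).1
    rw [hP, A5.cellOf_coords]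
  have hz : ∀ i, P (zAx i) = liftTile hD x 0 v.1 (zAx i) := fun i => by
    rw [liftTile_zAx]
    show _ = v.1 i + 0
    fin_cases i <;> simp [hP, A5.coords, zAx]
  refine ⟨?_, ?_⟩
  · rw [hx]
    exact ((validTiling_tiling x).plane_eq hz).1
  · show (x.1 (Multiplicative.ofAdd v)).1.z = _
    rw [hx]
    refine ((level_parent hD x 0).stateAt_eq hem (Nat.le_add_right _ _) P).1.trans ?_
    funext i
    apply Fin.ext
    apply Int.ofNat_inj.1
    show ((Axis.red (P (zAx i) - offset hD x 0 (zAx i)) : Fin (base C.k)).val : ℤ)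
      = (((v.1 i + (shiftAt hD x 0 i).val) % (base C.k : ℤ)).toNat : ℤ)
    rw [Axis.red_val, hz i, liftTile_zAx, (shiftAt_spec hD x 0 v.1 i).2,
      Int.toNat_of_nonneg (Int.emod_nonneg _ (by unfold base; omega))]

lemma towerOf_own (x : (sft C).X) (v : V) :
    ownDigits (x.1 (Multiplicative.ofAdd v)) = (towerOf hD hem x).digit v.1 0 :=
  (cell_eq hD hem x v).2

lemma towerOf_flags (x : (sft C).X) (v : V) :
    cellFlags (x.1 (Multiplicative.ofAdd v)) = ((towerOf hD hem x).st 0 v.1).flags :=
  congrArg W4.St.flags (cell_eq hD hem x v).1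

lemma towerOf_hit (x : (sft C).X) (v : V) :
    cellHit (x.1 (Multiplicative.ofAdd v)) = ((towerOf hD hem x).st 0 v.1).hit :=
  congrArg W4.St.hit (cell_eq hD hem x v).1

end Vale.Agent.P193.W4.Common
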