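import Vale.Agent.P193.W4.Common.Main

/-!
P193, module W4.A (common layer): the field `visible`. Where two counter digits are middle ones a
tile at a crossing shows the bits of its parent and of all the parents behind it, so a slab of cells
with these digits determines the slabs of all levels, and these determine everything below them.
-/

noncomputable section

namespace Vale.Agent.P193.W4.Common

open BH

namespace Vis

variable {C : Cfg} {L : ℕ}

/-- The two axes of a slab. -/
def Two (i j : Fin 3) : Prop := j = i ∨ j = i + 1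

instance (i j : Fin 3) : Decidable (Two i j) := by unfold Two; infer_instance

variable {c₁ c₂ p₁ p₂ : Z5 → St C} {o o₁ o₂ : Z5}

lemma posIn_lt (Q : Z5) : posIn C L o Q 0 < H L ∧ posIn C L o Q 1 < H L := by
  have hlt : ∀ a, (posIn C L o Q a : ℤ) < extent C L a := fun a => by
    rw [posIn_cast]; exact Int.emod_lt_of_pos _ (extent_pos C L a)
  exact ⟨Int.ofNat_lt.1 (hlt 0), Int.ofNat_lt.1 (hlt 1)⟩

lemma eq_of_emod_eq {e q r r' : ℤ} (h0 : 0 ≤ r) (h1 : r < e) (h0' : 0 ≤ r') (h1' : r' < e)
    (h : (q - r) % e = (q - r') % e) : r = r' := by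
  obtain ⟨t, ht⟩ := (Int.modEq_iff_dvd.1 h : e ∣ (q - r') - (q - r))
  rcases lt_trichotomy t 0 with h' | h' | h'
  · nlinarith
  · subst h'; simp at ht; linarith
  · nlinarith

/-- One common tile gives the grid. -/
lemma offset_eq (h₁ : IsParent L c₁ p₁ o₁) (h₂ : IsParent L c₂ p₂ o₂)
    (ho₁ : IsOffset C L o₁) (ho₂ : IsOffset C L o₂) {Q : Z5} (h : c₁ Q = c₂ Q) : o₁ = o₂ := by
  have hx := congrArg St.x h
  have hy := congrArg St.y h
  have hz := congrArg St.z h
  rw [h₁.eq Q, h₂.eq Q] at hx hy hz
  simp only [childAt, child_x _ _ _ _ _ (posIn_lt Q).1, child_y _ _ _ _ _ (posIn_lt Q).2,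
    child_z] at hx hy hz
  have hx' : (Q 0 - o₁ 0) % extent C L 0 = (Q 0 - o₂ 0) % extent C L 0 := by
    rw [← posIn_cast, ← posIn_cast, hx]
  have hy' : (Q 1 - o₁ 1) % extent C L 1 = (Q 1 - o₂ 1) % extent C L 1 := by
    rw [← posIn_cast, ← posIn_cast, hy]
  have hz' : ∀ j, (Q (zAx j) - o₁ (zAx j)) % extent C L (zAx j) =
      (Q (zAx j) - o₂ (zAx j)) % extent C L (zAx j) := fun j => by
    have := congrArg (fun Z : Digits C => ((Z j).val : ℤ)) hz
    simp only [digitsIn, Axis.red_val] at this
    rwa [extent_zAx]
  funext a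
  refine eq_of_emod_eq (ho₁ a).1 (ho₁ a).2 (ho₂ a).1 (ho₂ a).2 ?_ (q := Q a)
  fin_cases a
  exacts [hx', hy', hz' 0, hz' 1, hz' 2]

/-- The crossing of a bit, at middle digits, shows it for the parent and all those behind it. -/
lemma crossing_shows (hL : L₀ C ≤ L) (h : IsParent L c₁ p₁ o) {k : ℕ} (hk : k ≤ lastK C L)
    (P : Z5) {Z : Digits C} (hZ : MidDigits Z) (g : Guest) :
    (c₁ (place L o P (crossX L k) (crossY L k) Z)).fin.h g = enc (L + 1) (p₁ (P - dir g)) k := by
  obtain ⟨hx, hy, hl, hi', hs⟩ := Desub.cross_facts hL hk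
  obtain ⟨s0, s1, -⟩ := hs g
  rw [h.2 P _ _ Z hx hy, childAt, child_h (table C) _ _ _ _ hx hy g,
    if_pos ⟨hl, s0, s1, fun i => ⟨fun e => absurd e (hZ i).1.ne', fun e => absurd e (hZ i).2.ne⟩⟩,
    hi']
  rfl

/-- A slab with middle digits shows the parents and those behind them. -/
lemma step_up (hL : L₀ C ≤ L) {i : Fin 3} (h₁ : IsParent L c₁ p₁ o) (h₂ : IsParent L c₂ p₂ o)
    (s : Fin 3 → ℤ)
    (heq : ∀ Q : Z5, (∀ j, Two i j → Q (zAx j) = s j) → c₁ Q = c₂ Q)
    (hmid : ∀ j, Two i j → 1 ≤ (s j - o (zAx j)) % (base C.k : ℤ) ∧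
      (s j - o (zAx j)) % (base C.k : ℤ) + 1 < base C.k)
    {P : Z5} (hP : ∀ j, Two i j → P (zAx j) = (s j - o (zAx j)) / (base C.k : ℤ)) (g : Guest) :
    p₁ (P - dir g) = p₂ (P - dir g) := by
  refine enc_inj (h₁.1.bounded _).1 (h₂.1.bounded _).1 fun k => ?_
  by_cases hk : k ≤ lastK C L
  swap
  · rw [Desub.enc_above _ (by omega), Desub.enc_above _ (by omega)]
  let Z : Digits C := fun j => if Two i j then Axis.red (s j - o (zAx j)) else midZ C j
  have hZ : MidDigits Z := fun j => by
    by_cases hj : Two i j
    · obtain ⟨a, b⟩ := hmid j hj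
      have e : Z j = Axis.red (s j - o (zAx j)) := if_pos hj
      have e' := Axis.red_val (b := base C.k) (s j - o (zAx j))
      rw [← e] at e'
      omega
    · simp only [Z, if_neg hj]
      exact middle_midZ j
  rw [← crossing_shows hL h₁ hk P hZ g, ← crossing_shows hL h₂ hk P hZ g, heq]
  intro j hj
  have e := Int.mul_ediv_add_emod (s j - o (zAx j)) (base C.k : ℤ)
  have e' : place L o P (crossX L k) (crossY L k) Z (zAx j) =
      o (zAx j) + (base C.k : ℤ) * P (zAx j) + ((Z j).val : ℤ) := by
    fin_cases j <;> simp [place, zAx, extent]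
  rw [e', hP j hj]
  simp only [Z, if_pos hj, Axis.red_val]
  omega

/-- Agreement on an interval of slabs and the one before it passes to the children. -/
lemma step_down (hL : L₀ C ≤ L) {i : Fin 3} (h₁ : IsParent L c₁ p₁ o) (h₂ : IsParent L c₂ p₂ o)
    {u v : Fin 3 → ℤ}
    (hp : ∀ P : Z5, (∀ j, Two i j → u j - 1 ≤ P (zAx j) ∧ P (zAx j) ≤ v j) → p₁ P = p₂ P)
    {Q : Z5} (hQ : ∀ j, Two i j → o (zAx j) + (base C.k : ℤ) * u j - 1 ≤ Q (zAx j) ∧
      Q (zAx j) < o (zAx j) + (base C.k : ℤ) * (v j + 1)) :
    c₁ Q = c₂ Q := by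
  have hb : (0 : ℤ) < base C.k := by unfold base; omega
  obtain ⟨hX, hY⟩ := posIn_lt (o := o) (C := C) (L := L) Q
  set Z := digitsIn C L o Q with hZdef
  let δ : Guest := ![false, false, decide (Two i 0 ∧ (Z 0).val + 1 = base C.k),
    decide (Two i 1 ∧ (Z 1).val + 1 = base C.k), decide (Two i 2 ∧ (Z 2).val + 1 = base C.k)]
  have hδ : ∀ j, δ (zAx j) = decide (Two i j ∧ (Z j).val + 1 = base C.k) := fun j => by
    fin_cases j <;> rfl
  rw [h₁.eq Q, h₂.eq Q, childAt, childAt]
  refine child_guest hL _ δ Z hX hY (fun h => by simp [δ] at h) (fun h => by simp [δ] at h)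
    (fun j h => by rw [hδ, decide_eq_true_iff] at h; exact h.2) fun k g hg => ?_
  show enc (L + 1) (p₁ (parentOf C L o Q - dir g)) k =
    enc (L + 1) (p₂ (parentOf C L o Q - dir g)) k
  rw [hp]
  intro j hj
  obtain ⟨a, b⟩ := hQ j hj
  have e : (base C.k : ℤ) * parentOf C L o Q (zAx j) + ((Z j).val : ℤ) =
      Q (zAx j) - o (zAx j) := by
    rw [hZdef, parentOf, extent_zAx, digitsIn, Axis.red_val]
    exact Int.mul_ediv_add_emod _ _
  have hd : ((Z j).val : ℤ) + 1 ≤ base C.k := by exact_mod_cast (Z j).isLt
  have hd0 : (0 : ℤ) ≤ (Z j).val := Int.natCast_nonneg _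
  set p := parentOf C L o Q (zAx j) with hp'
  have hlo : u j - 1 ≤ p := by nlinarith
  have hhi : p ≤ v j := by nlinarith
  have hgj : g (zAx j) = true → u j ≤ p := by
    intro h
    by_contra hc
    have he : p = u j - 1 := by omega
    have hlast : (Z j).val + 1 = base C.k := by
      have h' : (base C.k : ℤ) ≤ (Z j).val + 1 := by rw [he] at e; nlinarith
      omega
    have := hg (zAx j) (by rw [hδ, decide_eq_true_iff]; exact ⟨hj, hlast⟩)
    rw [h] at this
    exact Bool.noConfusion this
  simp only [Pi.sub_apply, dir, ← hp']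
  cases hgv : g (zAx j)
  · simp; omega
  · have := hgj hgv
    simp; omega

variable (hD : DesubStatement C)

lemma above_congr {x x' : (sft C).X} (v : Fin 3 → ℤ) :
    ∀ n, (∀ m, m < n → offset hD x m = offset hD x' m) → above hD x v n = above hD x' v n
  | 0, _ => rfl
  | n + 1, h => by
    funext j
    show (above hD x v n j - offset hD x n (zAx j)) / (base C.k : ℤ) = _
    rw [above_congr v n fun m hm => h m (by omega), h n (by omega)]
    rfl

/-- Agreement of a level on an interval of slabs and the one before it gives that of the cells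
below the interval. -/
lemma cells_below {x x' : (sft C).X} (i : Fin 3) : ∀ (n : ℕ),
    (∀ m, m < n → offset hD x m = offset hD x' m) → ∀ u v : Fin 3 → ℤ,
    (∀ P : Z5, (∀ j, Two i j → u j - 1 ≤ P (zAx j) ∧ P (zAx j) ≤ v j) →
      (level hD x n).1 P = (level hD x' n).1 P) →
    ∀ Q : Z5, (∀ j, Two i j → u j ≤ above hD x (fun l => Q (zAx l)) n j ∧
        above hD x (fun l => Q (zAx l)) n j ≤ v j) →
      tiling x.1 Q = tiling x'.1 Q
  | 0, _, u, v, hp, Q, hQ => hp Q fun j hj => by
      obtain ⟨a, b⟩ := hQ j hj
      change u j ≤ Q (zAx j) at a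
      change Q (zAx j) ≤ v j at b
      omega
  | n + 1, ho, u, v, hp, Q, hQ => by
    have hb : (0 : ℤ) < base C.k := by unfold base; omega
    have h₂ := level_parent hD x' n
    rw [← ho n (by omega)] at h₂
    refine cells_below i n (fun m hm => ho m (by omega))
      (fun j => offset hD x n (zAx j) + (base C.k : ℤ) * u j)
      (fun j => offset hD x n (zAx j) + (base C.k : ℤ) * (v j + 1) - 1) (fun P hP =>
        step_down (Nat.le_add_right _ n) (level_parent hD x n) h₂ hp fun j hj => by
          obtain ⟨a, b⟩ := hP j hj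
          constructor <;> omega) Q fun j hj => ?_
    obtain ⟨a, b⟩ := hQ j hj
    have e := Int.mul_ediv_add_emod
      (above hD x (fun l => Q (zAx l)) n j - offset hD x n (zAx j)) (base C.k : ℤ)
    have h0 := Int.emod_nonneg
      (above hD x (fun l => Q (zAx l)) n j - offset hD x n (zAx j)) hb.ne'
    have h1 := Int.emod_lt_of_pos
      (above hD x (fun l => Q (zAx l)) n j - offset hD x n (zAx j)) hb
    change u j ≤ (above hD x (fun l => Q (zAx l)) n j - offset hD x n (zAx j)) / (base C.k : ℤ) at a
    change (above hD x (fun l => Q (zAx l)) n j - offset hD x n (zAx j)) / (base C.k : ℤ) ≤ v j at b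
    constructor <;> nlinarith

end Vis

open Vis

variable {C : Cfg} {em : ℕ → Option (List (Full C.k))}

/-- The field `visible`. -/
theorem visible_towerOf (hD : DesubStatement C) (hem : Emits C.R em) :
    VisibleStatement hD hem := by
  intro n i a x x' hmid heq
  -- the slab of each level
  have slab : ∀ m, m ≤ n → (∀ l, l < m → offset hD x l = offset hD x' l) ∧
      ∀ Q : Z5, (∀ j, Two i j → Q (zAx j) = above hD x a.1 m j) →
        (level hD x m).1 Q = (level hD x' m).1 Q := by
    intro m
    induction m with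
    | zero =>
      refine fun _ => ⟨fun l hl => absurd hl (Nat.not_lt_zero l), fun Q hQ => ?_⟩
      show tiling x.1 Q = tiling x'.1 Q
      simp only [tiling]
      have e : ∀ j, (Multiplicative.toAdd (A5.cellOf Q)).1 j = Q (zAx j) := fun j => by
        fin_cases j <;> rfl
      have hcell := heq (Multiplicative.toAdd (A5.cellOf Q))
        ((e i).trans (hQ i (Or.inl rfl))) ((e (i + 1)).trans (hQ (i + 1) (Or.inr rfl)))
      rw [ofAdd_toAdd] at hcell
      rw [hcell]
    | succ m ih =>
      intro hm
      obtain ⟨ho, hs⟩ := ih (by omega)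
      have hom : offset hD x m = offset hD x' m :=
        offset_eq (level_parent hD x m) (level_parent hD x' m) (desub_spec hD m _).1
          (desub_spec hD m _).1
          (hs ![0, 0, above hD x a.1 m 0, above hD x a.1 m 1, above hD x a.1 m 2]
            fun j _ => by fin_cases j <;> rfl)
      refine ⟨fun l hl => ?_, fun Q hQ => ?_⟩
      · rcases Nat.lt_succ_iff_lt_or_eq.1 hl with h | h
        · exact ho l h
        · exact h ▸ hom
      have h₂ := level_parent hD x' m
      rw [← hom] at h₂
      have := step_up (Nat.le_add_right _ m) (level_parent hD x m) h₂ (fun j => above hD x a.1 m j)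
        hs (fun j hj => by
          obtain ⟨p, q⟩ := hmid j hj m (by omega)
          rw [← digit_above hD hem x a.1 m j]
          constructor <;> omega)
        (P := Q) (fun j hj => hQ j hj) self
      rwa [Desub.dir_self, sub_zero] at this
  have hoff : ∀ m, m ≤ n → offset hD x m = offset hD x' m := fun m hm =>
    offset_eq (level_parent hD x m) (level_parent hD x' m) (desub_spec hD m _).1
      (desub_spec hD m _).1
      ((slab m hm).2 ![0, 0, above hD x a.1 m 0, above hD x a.1 m 1, above hD x a.1 m 2]
        fun j _ => by fin_cases j <;> rfl)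
  refine ⟨fun m hm => funext fun j => Fin.ext (Int.ofNat_inj.1 ?_), fun b hb => ?_⟩
  · rw [digit_above, digit_above, above_congr hD a.1 m fun l hl => hoff l (by omega), hoff m hm]
  · have hcoord : (fun l => A5.coords (Multiplicative.ofAdd b) (zAx l)) = b.1 := by
      funext l; fin_cases l <;> rfl
    have habove : ∀ j, Two i j → above hD x b.1 n j = above hD x a.1 n j := fun j hj => by
      rw [← tile_above hD hem x b.1 n j, ← tile_above hD hem x a.1 n j, hb j hj]
    refine Subtype.ext ?_
    have key : tiling x.1 (A5.coords (Multiplicative.ofAdd b)) =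
        tiling x'.1 (A5.coords (Multiplicative.ofAdd b)) := by
      cases n with
      | zero =>
        exact (slab 0 le_rfl).2 _ fun j hj => (congrFun hcoord j).trans (habove j hj)
      | succ n =>
        refine cells_below hD i (n + 1) (fun m hm => hoff m (by omega))
          (fun j => above hD x a.1 (n + 1) j) (fun j => above hD x a.1 (n + 1) j)
          (fun P hP => ?_) _ fun j hj => ?_
        · have h₂ := level_parent hD x' n
          rw [← hoff n (by omega)] at h₂
          let g : Guest := ![false, false,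
            decide (Two i 0 ∧ P 2 ≠ above hD x a.1 (n + 1) 0),
            decide (Two i 1 ∧ P 3 ≠ above hD x a.1 (n + 1) 1),
            decide (Two i 2 ∧ P 4 ≠ above hD x a.1 (n + 1) 2)]
          have hg : ∀ j, g (zAx j) = decide (Two i j ∧ P (zAx j) ≠ above hD x a.1 (n + 1) j) :=
            fun j => by fin_cases j <;> rfl
          have := step_up (Nat.le_add_right _ n) (level_parent hD x n) h₂
            (fun j => above hD x a.1 n j) (slab n (by omega)).2
            (fun j hj => by
              obtain ⟨p, q⟩ := hmid j hj n (by omega)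
              rw [← digit_above hD hem x a.1 n j]
              constructor <;> omega)
            (P := P + dir g) (fun j hj => by
              obtain ⟨p, q⟩ := hP j hj
              show P (zAx j) + dir g (zAx j) = above hD x a.1 (n + 1) j
              simp only [dir, hg, decide_eq_true_iff]
              by_cases h : P (zAx j) = above hD x a.1 (n + 1) j
              · rw [if_neg (fun e => e.2 h), h, add_zero]
              · rw [if_pos ⟨hj, h⟩]
                omega) g
          rwa [add_sub_cancel_right] at this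
        · rw [hcoord, habove j hj]
          exact ⟨le_rfl, le_rfl⟩
    simpa [tiling, A5.cellOf_coords] using key

/-- The field `visible` for the towers of points. -/
theorem visibleStatement (hem : Emits C.R em) : VisibleStatement (desubStatement C) hem :=
  visible_towerOf (desubStatement C) hem

end Vale.Agent.P193.W4.Common
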